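import Vale.Agent.P113.Bumps

namespace Vale.Agent.P113

open Filter Topology
open scoped ContDiff

noncomputable section

/-! ### Arithmetic on rational data -/

/-- Product of rational data. -/
def RatData.times (p q : RatData) : RatData := (p.1 * q.1, (p.2 + 1) * (q.2 + 1) - 1)

/-- Sum of rational data. -/
def RatData.plus (p q : RatData) : RatData :=
  (p.1 * (q.2 + 1) + q.1 * (p.2 + 1), (p.2 + 1) * (q.2 + 1) - 1)

/-- Rational data of a rational number. -/
def RatData.mk' (r : ℚ) : RatData := (r.num, r.den - 1)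

theorem rv_times (p q : RatData) : rv (p.times q) = rv p * rv q := by
  have h : 1 ≤ (p.2 + 1) * (q.2 + 1) := Nat.one_le_iff_ne_zero.2 (by positivity)
  simp only [rv, RatData.val, RatData.times]
  push_cast [Nat.cast_sub h]
  field_simp
  ring

theorem rv_plus (p q : RatData) : rv (p.plus q) = rv p + rv q := by
  have h : 1 ≤ (p.2 + 1) * (q.2 + 1) := Nat.one_le_iff_ne_zero.2 (by positivity)
  simp only [rv, RatData.val, RatData.plus]
  push_cast [Nat.cast_sub h]
  field_simp
  ring

theorem val_mk' (r : ℚ) : (RatData.mk' r).val = r := by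
  simp only [RatData.val, RatData.mk']
  rw [Nat.cast_sub r.pos, Nat.cast_one, sub_add_cancel, Rat.num_div_den]

theorem rv_mk' (r : ℚ) : rv (RatData.mk' r) = (r : ℝ) := by rw [rv, val_mk']

theorem rv_nat (n : ℕ) : rv (((n : ℤ), 0) : RatData) = n := by simp [rv, RatData.val]

/-! ### Derivative of a bump -/

/-- Derivative of the profile, as a list of (factor, profile, shift). -/
def shapeD : ℕ ⊕ RatData → List (RatData × (ℕ ⊕ RatData) × RatData)
  | Sum.inl j => [(((1 : ℤ), 0), Sum.inl (j + 1), ((0 : ℤ), 0))]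
  | Sum.inr l => [(((1 : ℤ), 0), Sum.inl 0, ((0 : ℤ), 0)), (((-1 : ℤ), 0), Sum.inl 0, l)]

theorem shapeFun_hasDerivAt (sh : ℕ ⊕ RatData) (s : ℝ) :
    HasDerivAt (shapeFun sh)
      (((shapeD sh).map fun e => rv e.1 * shapeFun e.2.1 (s - rv e.2.2)).sum) s := by
  cases sh with
  | inl j =>
    simpa [shapeD, shapeFun, rv, RatData.val] using iteratedDeriv_rho_hasDerivAt j s
  | inr l =>
    have := piF_hasDerivAt (rv l) s
    simpa [shapeD, shapeFun, rv, RatData.val, sub_eq_add_neg] using this

/-- Derivative of a bump as a list of (factor, bump). -/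
def Bump.deriv (g : Bump) : List (RatData × Bump) :=
  ((shapeD g.2.1).map fun e =>
    (g.2.2.1.times e.1, ((g.1, e.2.1, g.2.2.1, g.2.2.2.plus e.2.2) : Bump))) ++
    if g.1 = 0 then [] else [((((g.1 : ℕ) : ℤ), 0), ((g.1 - 1, g.2) : Bump))]

theorem Bump.deriv_valid {g : Bump} (hg : g.Valid) : ∀ e ∈ g.deriv, e.2.Valid := by
  intro e he
  rw [Bump.deriv, List.mem_append] at he
  rcases he with he | he
  · obtain ⟨d, hd, rfl⟩ := List.mem_map.1 he
    refine ⟨hg.1, fun l hl => ?_⟩
    cases hsh : g.2.1 <;> simp [hsh, shapeD] at hd <;> rcases hd with rfl | rfl <;> simp at hl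
  · by_cases hk : g.1 = 0
    · simp [hk] at he
    · simp only [hk, if_false, List.mem_singleton] at he
      subst he
      exact hg

theorem Bump.fn_hasDerivAt (g : Bump) (s : ℝ) :
    HasDerivAt g.fn ((g.deriv.map fun e => rv e.1 * e.2.fn s).sum) s := by
  have h1 : HasDerivAt (fun x : ℝ => x ^ g.1) ((g.1 : ℝ) * s ^ (g.1 - 1)) s := hasDerivAt_pow _ _
  have h2 : HasDerivAt (fun x : ℝ => rv g.2.2.1 * x - rv g.2.2.2) (rv g.2.2.1) s := by
    simpa using ((hasDerivAt_id' s).const_mul (rv g.2.2.1)).sub_const (rv g.2.2.2)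
  have h3 := (shapeFun_hasDerivAt g.2.1 (rv g.2.2.1 * s - rv g.2.2.2)).comp s h2
  have h := h1.fun_mul h3
  have e : g.fn = fun x => x ^ g.1 * shapeFun g.2.1 (rv g.2.2.1 * x - rv g.2.2.2) :=
    funext (bump_fn_eq g)
  rw [e]
  refine h.congr_deriv ?_
  rw [Bump.deriv, List.map_append, List.sum_append, List.map_map]
  simp only [Function.comp_def, bump_fn_eq, rv_times, rv_plus]
  rw [add_comm]
  congr 1
  · rw [← List.sum_map_mul_right, ← List.sum_map_mul_left]
    refine congrArg List.sum (List.map_congr_left fun x _ => ?_)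
    ring_nf
  · by_cases hk : g.1 = 0
    · simp [hk]
    · simp [hk, rv_nat, mul_assoc]

theorem periodize_add {f g : ℝ → ℝ} {A : ℝ} (hf : ∀ s, A < |s| → f s = 0)
    (hg : ∀ s, A < |s| → g s = 0) (y : ℝ) :
    periodize (fun s => f s + g s) y = periodize f y + periodize g y := by
  obtain ⟨N, hN⟩ : ∃ N : ℤ, A + |y| ≤ N := ⟨_, Int.le_ceil _⟩
  rw [periodize_congr_sum (g := fun s => f s + g s) (fun s hs => by rw [hf s hs, hg s hs, add_zero])
      y hN, periodize_congr_sum hf y hN, periodize_congr_sum hg y hN, Finset.sum_add_distrib]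

theorem periodize_const_mul (c : ℝ) (g : ℝ → ℝ) (y : ℝ) :
    periodize (fun s => c * g s) y = c * periodize g y := tsum_mul_left

theorem list_bumps_support (l : List (RatData × Bump)) (hl : ∀ e ∈ l, e.2.Valid) :
    ∃ A : ℝ, ∀ s : ℝ, A < |s| → (l.map fun e => rv e.1 * e.2.fn s).sum = 0 := by
  induction l with
  | nil => exact ⟨0, fun _ _ => rfl⟩
  | cons e l ih =>
    obtain ⟨A, hA⟩ := ih fun x hx => hl x (List.mem_cons_of_mem _ hx)
    obtain ⟨B, hB⟩ := bump_bounded_support e.2 (hl e List.mem_cons_self)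
    refine ⟨max A B, fun s hs => ?_⟩
    rw [List.map_cons, List.sum_cons, hA s (lt_of_le_of_lt (le_max_left _ _) hs),
      hB s (lt_of_le_of_lt (le_max_right _ _) hs), mul_zero, add_zero]

theorem periodize_list (l : List (RatData × Bump)) (hl : ∀ e ∈ l, e.2.Valid) (y : ℝ) :
    periodize (fun s => (l.map fun e => rv e.1 * e.2.fn s).sum) y =
      (l.map fun e => rv e.1 * periodize e.2.fn y).sum := by
  induction l with
  | nil => simp [periodize]
  | cons e l ih =>
    have hl' : ∀ x ∈ l, x.2.Valid := fun x hx => hl x (List.mem_cons_of_mem _ hx)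
    obtain ⟨A, hA⟩ := list_bumps_support l hl'
    obtain ⟨B, hB⟩ := bump_bounded_support e.2 (hl e List.mem_cons_self)
    simp only [List.map_cons, List.sum_cons]
    rw [periodize_add (A := max A B)
      (fun s hs => by rw [hB s (lt_of_le_of_lt (le_max_right _ _) hs), mul_zero])
      (fun s hs => hA s (lt_of_le_of_lt (le_max_left _ _) hs)),
      periodize_const_mul, ih hl']

theorem Bump.periodize_hasDerivAt' (g : Bump) (hg : g.Valid) (y : ℝ) :
    HasDerivAt (periodize g.fn) ((g.deriv.map fun e => rv e.1 * periodize e.2.fn y).sum) y := by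
  obtain ⟨A, hA⟩ := bump_bounded_support g hg
  obtain ⟨B, hB⟩ := list_bumps_support g.deriv (Bump.deriv_valid hg)
  rw [← periodize_list _ (Bump.deriv_valid hg)]
  exact periodize_hasDerivAt (A := max A B)
    (fun s hs => hA s (lt_of_le_of_lt (le_max_left _ _) hs))
    (fun s hs => hB s (lt_of_le_of_lt (le_max_right _ _) hs)) g.fn_hasDerivAt y

/-! ### Derivative of a product of factors -/

/-- Leibniz rule on a list of factors. -/
def prodD {α : Type} (d : α → List (RatData × α)) : List α → List (RatData × List α)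
  | [] => []
  | f :: r =>
    ((d f).map fun e => (e.1, e.2 :: r)) ++ ((prodD d r).map fun e => (e.1, f :: e.2))

theorem prodD_hasDerivAt {α : Type} (ev : α → ℝ → ℝ) (d : α → List (RatData × α)) (y : ℝ) :
    ∀ l : List α, (∀ f ∈ l, HasDerivAt (ev f) (((d f).map fun e => rv e.1 * ev e.2 y).sum) y) →
      HasDerivAt (fun x => (l.map fun f => ev f x).prod)
        (((prodD d l).map fun e => rv e.1 * (e.2.map fun f => ev f y).prod).sum) y
  | [], _ => by simpa [prodD] using hasDerivAt_const y (1 : ℝ)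
  | f :: r, h => by
    have ih := prodD_hasDerivAt ev d y r fun x hx => h x (List.mem_cons_of_mem _ hx)
    have hf := h f List.mem_cons_self
    simp only [List.map_cons, List.prod_cons]
    refine (hf.fun_mul ih).congr_deriv ?_
    simp only [prodD, List.map_append, List.map_map, List.sum_append, Function.comp_def,
      List.map_cons, List.prod_cons]
    rw [← List.sum_map_mul_right, ← List.sum_map_mul_left]
    congr 1
    · exact congrArg List.sum (List.map_congr_left fun x _ => by ring)
    · exact congrArg List.sum (List.map_congr_left fun x _ => by ring)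

theorem prodD_forall {α : Type} (Q : α → Prop) (d : α → List (RatData × α))
    (hd : ∀ f, Q f → ∀ e ∈ d f, Q e.2) :
    ∀ l : List α, (∀ f ∈ l, Q f) → ∀ e ∈ prodD d l, ∀ f ∈ e.2, Q f
  | [], _ => by simp [prodD]
  | f :: r, h => by
    have hr : ∀ x ∈ r, Q x := fun x hx => h x (List.mem_cons_of_mem _ hx)
    have hf := h f List.mem_cons_self
    intro e he
    rw [prodD, List.mem_append, List.mem_map, List.mem_map] at he
    rcases he with ⟨x, hx, rfl⟩ | ⟨x, hx, rfl⟩ <;> intro z hz <;> rw [List.mem_cons] at hz <;>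
      rcases hz with rfl | hz
    · exact hd f hf x hx
    · exact hr z hz
    · exact hf
    · exact prodD_forall Q d hd r hr x hx z hz

/-- Derivative of a time factor. -/
def timeD (e : Bool × Bump) : List (RatData × (Bool × Bump)) :=
  e.2.deriv.map fun x => (x.1, (e.1, x.2))

theorem timeFactor_hasDerivAt (e : Bool × Bump) (he : e.2.Valid) (t : ℝ) :
    HasDerivAt (timeFactor e) (((timeD e).map fun x => rv x.1 * timeFactor x.2 t).sum) t := by
  obtain ⟨b, g⟩ := e
  cases b with
  | true =>
    have h : timeFactor (true, g) = periodize g.fn := by funext s; simp [timeFactor]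
    rw [h]
    simpa [timeD, timeFactor, Function.comp_def] using g.periodize_hasDerivAt' he t
  | false =>
    have h : timeFactor (false, g) = g.fn := by funext s; simp [timeFactor]
    rw [h]
    simpa [timeD, timeFactor, Function.comp_def] using g.fn_hasDerivAt t

/-! ### Operations on terms -/

/-- Multiply the rational factor of a term. -/
def Term.smul (q : RatData) (τ : Term) : Term :=
  ((q.times τ.1.1, τ.1.2), τ.2)

/-- Product of two terms. -/
def Term.times (σ τ : Term) : Term :=
  ((σ.1.1.times τ.1.1, σ.1.2.1 + τ.1.2.1, σ.1.2.2.1 + τ.1.2.2.1, σ.1.2.2.2 ++ τ.1.2.2.2),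
    σ.2.1 ++ τ.2.1, σ.2.2.1 ++ τ.2.2.1, σ.2.2.2.1 ++ τ.2.2.2.1, σ.2.2.2.2 ++ τ.2.2.2.2)

/-- Multiply a term by `-ν`. -/
def Term.negNu (τ : Term) : Term :=
  ((RatData.times ((-1 : ℤ), 0) τ.1.1, τ.1.2.1 + 1, τ.1.2.2), τ.2)

/-- Replace the spatial factors of one coordinate. -/
def Term.withSpace (τ : Term) (i : Fin 3) (l : List Bump) : Term :=
  (τ.1, τ.2.1, if i = 0 then l else τ.2.2.1, if i = 1 then l else τ.2.2.2.1,
    if i = 2 then l else τ.2.2.2.2)

/-- The time derivative of a term. -/
def Term.dt (τ : Term) : List Term :=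
  (prodD timeD τ.2.1).map fun e => Term.smul e.1 (τ.1, e.2, τ.2.2)

/-- The derivative of a term in the `i`-th coordinate. -/
def Term.dx (i : Fin 3) (τ : Term) : List Term :=
  (prodD Bump.deriv (τ.space i)).map fun e => Term.smul e.1 (τ.withSpace i e.2)

theorem Term.space_zero (τ : Term) : τ.space 0 = τ.2.2.1 := rfl
theorem Term.space_one (τ : Term) : τ.space 1 = τ.2.2.2.1 := rfl
theorem Term.space_two (τ : Term) : τ.space 2 = τ.2.2.2.2 := rfl

theorem Term.withSpace_space (τ : Term) (i j : Fin 3) (l : List Bump) :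
    (τ.withSpace i l).space j = if i = j then l else τ.space j := by
  fin_cases i <;> fin_cases j <;> rfl

theorem Term.fn_smul (ν : ℝ) (q : RatData) (τ : Term) (t : ℝ) (x : Fin 3 → ℝ) :
    (Term.smul q τ).fn ν t x = rv q * τ.fn ν t x := by
  have : (Term.smul q τ).1.val ν = rv q * τ.1.val ν := by
    simp only [Coef.val, Term.smul]
    rw [show ((RatData.val (q.times τ.1.1) : ℚ) : ℝ) = rv (q.times τ.1.1) from rfl, rv_times]
    simp only [rv]; ring
  simp only [Term.fn, this]
  simp only [Term.smul, Term.space]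
  ring

theorem Term.fn_times (ν : ℝ) (σ τ : Term) (t : ℝ) (x : Fin 3 → ℝ) :
    (σ.times τ).fn ν t x = σ.fn ν t x * τ.fn ν t x := by
  simp only [Term.fn, Term.times, Term.space_zero, Term.space_one, Term.space_two, Coef.val,
    spaceFactor, List.map_append, List.prod_append, pow_add, zpow_add₀ kappa_ne]
  rw [show ((RatData.val (σ.1.1.times τ.1.1) : ℚ) : ℝ) = rv (σ.1.1.times τ.1.1) from rfl, rv_times]
  simp only [rv]; ring

theorem Term.fn_negNu (ν : ℝ) (τ : Term) (t : ℝ) (x : Fin 3 → ℝ) :
    τ.negNu.fn ν t x = -ν * τ.fn ν t x := by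
  simp only [Term.fn, Term.negNu, Term.space_zero, Term.space_one, Term.space_two, Coef.val,
    pow_succ]
  rw [show ((RatData.val (RatData.times ((-1 : ℤ), 0) τ.1.1) : ℚ) : ℝ)
    = rv (RatData.times ((-1 : ℤ), 0) τ.1.1) from rfl, rv_times]
  simp [rv, RatData.val]; ring

theorem termsFn_nil (ν t : ℝ) (x : Fin 3 → ℝ) : termsFn ν [] t x = 0 := rfl

theorem termsFn_cons (ν : ℝ) (τ : Term) (l : List Term) (t : ℝ) (x : Fin 3 → ℝ) :
    termsFn ν (τ :: l) t x = τ.fn ν t x + termsFn ν l t x := rfl

theorem termsFn_append (ν : ℝ) (l l' : List Term) (t : ℝ) (x : Fin 3 → ℝ) :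
    termsFn ν (l ++ l') t x = termsFn ν l t x + termsFn ν l' t x := by
  simp [termsFn]

theorem termsFn_map (ν c : ℝ) (φ : Term → Term) (l : List Term) (t : ℝ) (x : Fin 3 → ℝ)
    (h : ∀ τ ∈ l, (φ τ).fn ν t x = c * τ.fn ν t x) :
    termsFn ν (l.map φ) t x = c * termsFn ν l t x := by
  rw [termsFn, termsFn, List.map_map, ← List.sum_map_mul_left]
  exact congrArg List.sum (List.map_congr_left fun τ hτ => h τ hτ)

theorem termsFn_flatMap {α : Type} {ν t : ℝ} {x : Fin 3 → ℝ} (φ : α → List Term) :
    ∀ l : List α, termsFn ν (l.flatMap φ) t x = (l.map fun τ => termsFn ν (φ τ) t x).sum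
  | [] => rfl
  | τ :: l => by
    rw [List.flatMap_cons, termsFn_append, termsFn_flatMap φ l, List.map_cons, List.sum_cons]

/-- Product of two lists of terms. -/
def mulTerms (l l' : List Term) : List Term := l.flatMap fun σ => l'.map (Term.times σ)

theorem termsFn_mulTerms (ν : ℝ) (l l' : List Term) (t : ℝ) (x : Fin 3 → ℝ) :
    termsFn ν (mulTerms l l') t x = termsFn ν l t x * termsFn ν l' t x := by
  rw [mulTerms, termsFn_flatMap]
  have : ∀ σ : Term, termsFn ν (l'.map (Term.times σ)) t x = σ.fn ν t x * termsFn ν l' t x :=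
    fun σ => termsFn_map ν _ _ l' t x fun τ _ => Term.fn_times ν σ τ t x
  rw [List.map_congr_left fun σ _ => this σ, List.sum_map_mul_right]
  rfl

/-! ### Derivatives of terms -/

theorem Term.dt_hasDerivAt (ν : ℝ) (τ : Term) (hτ : τ.Valid) (t : ℝ) (x : Fin 3 → ℝ) :
    HasDerivAt (fun s => τ.fn ν s x) (termsFn ν τ.dt t x) t := by
  have h := ((prodD_hasDerivAt timeFactor timeD t τ.2.1
    (fun e he => timeFactor_hasDerivAt e (hτ.2.1 e he) t)).const_mul (τ.1.val ν)).mul_const
    (spaceFactor (τ.space 0) (x 0) * spaceFactor (τ.space 1) (x 1) * spaceFactor (τ.space 2) (x 2))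
  refine h.congr_deriv ?_
  simp only [Term.dt, termsFn, List.map_map, Function.comp_def, Term.fn_smul]
  rw [← List.sum_map_mul_left, ← List.sum_map_mul_right]
  refine congrArg List.sum (List.map_congr_left fun e _ => ?_)
  simp only [Term.fn, Term.space]
  ring

theorem spaceFactor_hasDerivAt (l : List Bump) (hl : ∀ g ∈ l, g.Valid) (y : ℝ) :
    HasDerivAt (spaceFactor l)
      (((prodD Bump.deriv l).map fun e => rv e.1 * spaceFactor e.2 y).sum) y :=
  prodD_hasDerivAt (fun g => periodize (Bump.fn g)) Bump.deriv y l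
    fun g hg => Bump.periodize_hasDerivAt' g (hl g hg) y

theorem spaceFactor_contDiff (l : List Bump) (hl : ∀ g ∈ l, g.Valid) :
    ContDiff ℝ ∞ (spaceFactor l) := by
  induction l with
  | nil =>
    have h : spaceFactor [] = fun _ => (1 : ℝ) := by funext y; simp [spaceFactor]
    rw [h]; exact contDiff_const
  | cons g l ih =>
    have : spaceFactor (g :: l) = fun y => periodize g.fn y * spaceFactor l y := by
      funext y; simp [spaceFactor]
    rw [this]
    exact (periodize_bump_contDiff g (hl g List.mem_cons_self)).mul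
      (ih fun x hx => hl x (List.mem_cons_of_mem _ hx))

theorem timeProd_contDiff (l : List (Bool × Bump)) (hl : ∀ e ∈ l, e.2.Valid) :
    ContDiff ℝ ∞ (fun t => (l.map fun e => timeFactor e t).prod) := by
  induction l with
  | nil => simpa using (contDiff_const : ContDiff ℝ ∞ fun _ : ℝ => (1 : ℝ))
  | cons e l ih =>
    simp only [List.map_cons, List.prod_cons]
    refine ContDiff.mul ?_ (ih fun x hx => hl x (List.mem_cons_of_mem _ hx))
    obtain ⟨b, g⟩ := e
    cases b with
    | true =>
      have h : timeFactor (true, g) = periodize g.fn := by funext s; simp [timeFactor]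
      rw [h]; exact periodize_bump_contDiff g (hl _ List.mem_cons_self)
    | false =>
      have h : timeFactor (false, g) = g.fn := by funext s; simp [timeFactor]
      rw [h]; exact bump_contDiff g

theorem Term.contDiff_fn (ν : ℝ) (τ : Term) (hτ : τ.Valid) :
    ContDiff ℝ ∞ (fun z : ℝ × (Fin 3 → ℝ) => τ.fn ν z.1 z.2) := by
  have hx : ∀ i : Fin 3, ContDiff ℝ ∞ (fun z : ℝ × (Fin 3 → ℝ) => z.2 i) := fun i =>
    (contDiff_apply ℝ ℝ i).comp contDiff_snd
  have hs : ∀ i : Fin 3, ContDiff ℝ ∞
      (fun z : ℝ × (Fin 3 → ℝ) => spaceFactor (τ.space i) (z.2 i)) := fun i =>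
    (spaceFactor_contDiff _ (hτ.2.2 i)).comp (hx i)
  exact (contDiff_const.mul ((timeProd_contDiff _ hτ.2.1).comp contDiff_fst)).mul
    (((hs 0).mul (hs 1)).mul (hs 2))

theorem Term.fn_differentiable (ν : ℝ) (τ : Term) (hτ : τ.Valid) (t : ℝ) :
    Differentiable ℝ (fun x => τ.fn ν t x) :=
  ((Term.contDiff_fn ν τ hτ).comp (contDiff_prodMk_right t)).differentiable (by simp)

theorem pd_eq_deriv {g : (Fin 3 → ℝ) → ℝ} {x : Fin 3 → ℝ} (hg : DifferentiableAt ℝ g x) (i : Fin 3)
    {d : ℝ} (hd : HasDerivAt (fun r => g (Function.update x i r)) d (x i)) : pd i g x = d := by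
  have h1 : HasFDerivAt g (fderiv ℝ g x) (Function.update x i (x i)) := by
    rw [Function.update_eq_self]; exact hg.hasFDerivAt
  exact ((h1.comp_hasDerivAt (x i) (hasDerivAt_update x i (x i))).unique hd)

theorem Term.pd_fn (ν : ℝ) (τ : Term) (hτ : τ.Valid) (t : ℝ) (x : Fin 3 → ℝ) (i : Fin 3) :
    pd i (fun y => τ.fn ν t y) x = termsFn ν (τ.dx i) t x := by
  refine pd_eq_deriv (Term.fn_differentiable ν τ hτ t x) i ?_
  have hd := spaceFactor_hasDerivAt (τ.space i) (hτ.2.2 i) (x i)
  have key : ∀ l : List Bump, ∀ r : ℝ, (τ.withSpace i l).fn ν t (Function.update x i r) =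
      τ.1.val ν * (τ.2.1.map fun e => timeFactor e t).prod *
        (spaceFactor l r * ∏ j ∈ Finset.univ.erase i, spaceFactor (τ.space j) (x j)) := by
    intro l r
    have e3 : ∀ f : Fin 3 → ℝ, f 0 * f 1 * f 2 = ∏ j, f j := fun f => (Fin.prod_univ_three f).symm
    simp only [Term.fn]
    rw [e3 fun j => spaceFactor ((τ.withSpace i l).space j) (Function.update x i r j),
      ← Finset.mul_prod_erase _ _ (Finset.mem_univ i)]
    simp only [Term.withSpace_space, Function.update_self, if_true]
    congr 2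
    refine Finset.prod_congr rfl fun j hj => ?_
    have hne : i ≠ j := fun h => Finset.ne_of_mem_erase hj h.symm
    rw [if_neg hne, Function.update_of_ne hne.symm]
  have hrw : (fun r => τ.fn ν t (Function.update x i r)) = fun r =>
      τ.1.val ν * (τ.2.1.map fun e => timeFactor e t).prod *
        (spaceFactor (τ.space i) r * ∏ j ∈ Finset.univ.erase i, spaceFactor (τ.space j) (x j)) := by
    funext r
    rw [← key]
    congr 1
    fin_cases i <;> rfl
  rw [hrw]
  refine ((hd.mul_const _).const_mul _).congr_deriv ?_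
  simp only [Term.dx, termsFn, List.map_map, Function.comp_def, Term.fn_smul]
  rw [← List.sum_map_mul_right, ← List.sum_map_mul_left]
  refine congrArg List.sum (List.map_congr_left fun e _ => ?_)
  have h3 := key e.2 (x i)
  rw [Function.update_eq_self] at h3
  rw [h3]
  ring

theorem Term.valid_smul {τ : Term} (h : τ.Valid) (q : RatData) : (Term.smul q τ).Valid := h

theorem Term.valid_negNu {τ : Term} (h : τ.Valid) : τ.negNu.Valid := h

theorem Term.valid_times {σ τ : Term} (h : σ.Valid) (h' : τ.Valid) : (σ.times τ).Valid := by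
  refine ⟨fun r hr => ?_, fun e he => ?_, fun i g hg => ?_⟩
  · rcases List.mem_append.1 hr with hr | hr
    exacts [h.1 r hr, h'.1 r hr]
  · rcases List.mem_append.1 he with he | he
    exacts [h.2.1 e he, h'.2.1 e he]
  · have e : (σ.times τ).space i = σ.space i ++ τ.space i := by fin_cases i <;> rfl
    rw [e] at hg
    rcases List.mem_append.1 hg with hg | hg
    exacts [h.2.2 i g hg, h'.2.2 i g hg]

theorem Term.valid_dt {τ : Term} (h : τ.Valid) : ∀ σ ∈ τ.dt, σ.Valid := by
  intro σ hσ
  obtain ⟨e, he, rfl⟩ := List.mem_map.1 hσ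
  refine Term.valid_smul ?_ _
  refine ⟨h.1, ?_, h.2.2⟩
  refine prodD_forall (fun f : Bool × Bump => f.2.Valid) timeD ?_ τ.2.1 h.2.1 e he
  intro f hf z hz
  obtain ⟨w, hw, rfl⟩ := List.mem_map.1 hz
  exact Bump.deriv_valid hf w hw

theorem Term.valid_dx {τ : Term} (h : τ.Valid) (i : Fin 3) : ∀ σ ∈ τ.dx i, σ.Valid := by
  intro σ hσ
  obtain ⟨e, he, rfl⟩ := List.mem_map.1 hσ
  refine Term.valid_smul ?_ _
  refine ⟨h.1, h.2.1, fun j g hg => ?_⟩
  rw [Term.withSpace_space] at hg
  by_cases hij : i = j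
  · rw [if_pos hij] at hg
    exact prodD_forall Bump.Valid Bump.deriv (fun f hf z hz => Bump.deriv_valid hf z hz) _
      (h.2.2 i) e he g hg
  · rw [if_neg hij] at hg
    exact h.2.2 j g hg

/-! ### Lists of terms -/

/-- All terms of a list are valid. -/
def TermsValid (l : List Term) : Prop := ∀ τ ∈ l, τ.Valid

theorem TermsValid.nil : TermsValid [] := fun _ h => by simp at h

theorem TermsValid.tail {τ : Term} {l : List Term} (h : TermsValid (τ :: l)) : TermsValid l :=
  fun x hx => h x (List.mem_cons_of_mem _ hx)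

theorem TermsValid.append {l l' : List Term} (h : TermsValid l) (h' : TermsValid l') :
    TermsValid (l ++ l') := fun τ hτ => (List.mem_append.1 hτ).elim (h τ) (h' τ)

theorem TermsValid.flatMap {l : List Term} {φ : Term → List Term} (h : TermsValid l)
    (hφ : ∀ τ, τ.Valid → TermsValid (φ τ)) : TermsValid (l.flatMap φ) := by
  intro σ hσ
  obtain ⟨τ, hτ, hσ⟩ := List.mem_flatMap.1 hσ
  exact hφ τ (h τ hτ) σ hσ

theorem TermsValid.mulTerms {l l' : List Term} (h : TermsValid l) (h' : TermsValid l') :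
    TermsValid (mulTerms l l') := by
  refine TermsValid.flatMap h fun σ hσ τ hτ => ?_
  obtain ⟨w, hw, rfl⟩ := List.mem_map.1 hτ
  exact Term.valid_times hσ (h' w hw)

theorem termsFn_contDiff (ν : ℝ) : ∀ l : List Term, TermsValid l →
    ContDiff ℝ ∞ (fun z : ℝ × (Fin 3 → ℝ) => termsFn ν l z.1 z.2)
  | [], _ => by simpa [termsFn] using
      (contDiff_const : ContDiff ℝ ∞ fun _ : ℝ × (Fin 3 → ℝ) => (0 : ℝ))
  | τ :: l, h => by
    simp only [termsFn_cons]
    exact (Term.contDiff_fn ν τ (h τ List.mem_cons_self)).add (termsFn_contDiff ν l h.tail)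

theorem termsFn_differentiable (ν : ℝ) (l : List Term) (hl : TermsValid l) (t : ℝ) :
    Differentiable ℝ (fun x => termsFn ν l t x) :=
  ((termsFn_contDiff ν l hl).comp (contDiff_prodMk_right t)).differentiable (by simp)

theorem termsFn_hasDerivAt (ν t : ℝ) (x : Fin 3 → ℝ) : ∀ l : List Term, TermsValid l →
    HasDerivAt (fun s => termsFn ν l s x) (termsFn ν (l.flatMap Term.dt) t x) t
  | [], _ => by simpa [termsFn] using hasDerivAt_const t (0 : ℝ)
  | τ :: l, h => by
    simp only [termsFn_cons, List.flatMap_cons, termsFn_append]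
    exact (Term.dt_hasDerivAt ν τ (h τ List.mem_cons_self) t x).fun_add
      (termsFn_hasDerivAt ν t x l h.tail)

theorem termsFn_pd (ν t : ℝ) (x : Fin 3 → ℝ) (i : Fin 3) : ∀ l : List Term, TermsValid l →
    pd i (fun y => termsFn ν l t y) x = termsFn ν (l.flatMap (Term.dx i)) t x
  | [], _ => by simp [termsFn, pd]
  | τ :: l, h => by
    simp only [termsFn_cons, List.flatMap_cons, termsFn_append]
    rw [← Term.pd_fn ν τ (h τ List.mem_cons_self), ← termsFn_pd ν t x i l h.tail, pd, pd, pd,
      fderiv_fun_add (Term.fn_differentiable ν τ (h τ List.mem_cons_self) t x)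
        (termsFn_differentiable ν l h.tail t x)]
    rfl

theorem Term.fn_periodic (ν : ℝ) (τ : Term) (t : ℝ) : LatticePeriodic (fun x => τ.fn ν t x) := by
  intro x k
  simp [Term.fn, spaceFactor, periodize_add_int]

theorem termsFn_periodic (ν : ℝ) (l : List Term) (t : ℝ) :
    LatticePeriodic (fun x => termsFn ν l t x) := by
  intro x k
  simp only [termsFn]
  exact congrArg List.sum (List.map_congr_left fun τ _ => Term.fn_periodic ν τ t x k)

end

end Vale.Agent.P113
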