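import Vale.Agent.P113.Defs

namespace Vale.Agent.P113

open MeasureTheory Set Filter Topology
open scoped ContDiff

noncomputable section

theorem rho_eq_glue (s : ℝ) : rho s = expNegInvGlue (1 - s ^ 2) := by
  unfold rho expNegInvGlue
  by_cases h : |s| < 1
  · have h2 : s ^ 2 < 1 := by
      have := abs_lt.1 h
      nlinarith
    rw [if_pos h, if_neg (by linarith)]
    congr 1
    rw [neg_div, one_div]
  · rw [if_neg h, if_pos]
    have h1 : 1 ≤ |s| := not_lt.1 h
    nlinarith [sq_abs s]

theorem rho_contDiff : ContDiff ℝ ∞ rho := by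
  have : rho = fun s => expNegInvGlue (1 - s ^ 2) := funext rho_eq_glue
  rw [this]
  exact expNegInvGlue.contDiff.comp (contDiff_const.sub (contDiff_id.pow 2))

theorem rho_continuous : Continuous rho := rho_contDiff.continuous

theorem rho_nonneg (s : ℝ) : 0 ≤ rho s := by
  unfold rho; split <;> positivity

theorem rho_eq_zero {s : ℝ} (h : 1 ≤ |s|) : rho s = 0 := if_neg (not_lt.2 h)

theorem rho_tsupport : tsupport rho ⊆ Icc (-1) 1 := by
  refine closure_minimal (fun s hs => ?_) isClosed_Icc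
  by_contra h
  refine hs (rho_eq_zero ?_)
  rw [mem_Icc, ← abs_le] at h
  exact le_of_lt (not_le.1 h)

theorem rho_compactSupport : HasCompactSupport rho :=
  IsCompact.of_isClosed_subset isCompact_Icc (isClosed_tsupport _) rho_tsupport

theorem rho_integrable : Integrable rho := rho_continuous.integrable_of_hasCompactSupport rho_compactSupport

theorem kappa_pos : 0 < kappa := by
  refine rho_continuous.integral_pos_of_hasCompactSupport_nonneg_nonzero rho_compactSupport
    rho_nonneg (x := 0) ?_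
  simp [rho]

theorem kappa_ne : kappa ≠ 0 := kappa_pos.ne'

theorem sigma_le {s : ℝ} (h : s ≤ -1) : sigma s = 0 := by
  unfold sigma
  refine setIntegral_eq_zero_of_forall_eq_zero fun r hr => rho_eq_zero ?_
  rw [mem_Iic] at hr
  rw [abs_of_nonpos (by linarith)]
  linarith

theorem sigma_ge {s : ℝ} (h : 1 ≤ s) : sigma s = kappa := by
  unfold sigma kappa
  refine setIntegral_eq_integral_of_forall_compl_eq_zero fun r hr => rho_eq_zero ?_
  rw [mem_Iic, not_le] at hr
  rw [abs_of_nonneg (by linarith)]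
  linarith

theorem sigma_nonneg (s : ℝ) : 0 ≤ sigma s :=
  setIntegral_nonneg measurableSet_Iic fun r _ => rho_nonneg r

theorem sigma_le_kappa (s : ℝ) : sigma s ≤ kappa :=
  setIntegral_le_integral rho_integrable (Eventually.of_forall rho_nonneg)

theorem sigma_sub (a s : ℝ) : sigma s - sigma a = ∫ r in a..s, rho r :=
  intervalIntegral.integral_Iic_sub_Iic rho_integrable.integrableOn rho_integrable.integrableOn

theorem sigma_hasDerivAt (s : ℝ) : HasDerivAt sigma (rho s) s := by
  have h : sigma = fun x => sigma 0 + ∫ r in (0 : ℝ)..x, rho r := by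
    funext x; rw [← sigma_sub]; ring
  rw [h]
  exact (rho_continuous.integral_hasStrictDerivAt 0 s).hasDerivAt.const_add _

theorem sigma_contDiff : ContDiff ℝ ∞ sigma := by
  rw [contDiff_infty_iff_deriv]
  refine ⟨fun s => (sigma_hasDerivAt s).differentiableAt, ?_⟩
  have : deriv sigma = rho := funext fun s => (sigma_hasDerivAt s).deriv
  rw [this]
  exact rho_contDiff

theorem sigma_continuous : Continuous sigma := sigma_contDiff.continuous

theorem piF_hasDerivAt (l s : ℝ) : HasDerivAt (piF l) (rho s - rho (s - l)) s := by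
  unfold piF
  exact HasDerivAt.fun_sub (sigma_hasDerivAt s) ((sigma_hasDerivAt (s - l)).comp_sub_const s l)

theorem piF_contDiff (l : ℝ) : ContDiff ℝ ∞ (piF l) :=
  sigma_contDiff.sub (sigma_contDiff.comp (contDiff_id.sub contDiff_const))

theorem piF_plateau {l s : ℝ} (h1 : 1 ≤ s) (h2 : s ≤ l - 1) : piF l s = kappa := by
  rw [piF, sigma_ge h1, sigma_le (by linarith), sub_zero]

theorem piF_zero_left {l s : ℝ} (hl : 0 ≤ l) (h : s ≤ -1) : piF l s = 0 := by
  rw [piF, sigma_le h, sigma_le (by linarith), sub_zero]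

theorem piF_zero_right {l s : ℝ} (hl : 0 ≤ l) (h : l + 1 ≤ s) : piF l s = 0 := by
  rw [piF, sigma_ge (by linarith), sigma_ge (by linarith), sub_self]

theorem iteratedDeriv_rho_contDiff (j : ℕ) : ContDiff ℝ ∞ (iteratedDeriv j rho) := by
  induction j with
  | zero => simpa using rho_contDiff
  | succ j ih =>
    rw [iteratedDeriv_succ]
    exact (contDiff_infty_iff_deriv.1 ih).2

theorem iteratedDeriv_rho_hasDerivAt (j : ℕ) (s : ℝ) :
    HasDerivAt (iteratedDeriv j rho) (iteratedDeriv (j + 1) rho s) s := by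
  rw [iteratedDeriv_succ]
  exact ((contDiff_infty_iff_deriv.1 (iteratedDeriv_rho_contDiff j)).1 s).hasDerivAt

theorem iteratedDeriv_rho_tsupport (j : ℕ) : tsupport (iteratedDeriv j rho) ⊆ Icc (-1) 1 := by
  induction j with
  | zero => simpa using rho_tsupport
  | succ j ih =>
    rw [iteratedDeriv_succ]
    exact (closure_minimal (support_deriv_subset) (isClosed_tsupport _)).trans ih

theorem iteratedDeriv_rho_eq_zero (j : ℕ) {s : ℝ} (h : 1 < |s|) : iteratedDeriv j rho s = 0 := by
  refine image_eq_zero_of_notMem_tsupport fun hm => ?_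
  have := iteratedDeriv_rho_tsupport j hm
  rw [mem_Icc, ← abs_le] at this
  linarith

/-- A shorthand for the real value of rational data. -/
def rv (q : RatData) : ℝ := ((RatData.val q : ℚ) : ℝ)

theorem bump_fn_eq (g : Bump) (s : ℝ) :
    g.fn s = s ^ g.1 * shapeFun g.2.1 (rv g.2.2.1 * s - rv g.2.2.2) := rfl

theorem shapeFun_contDiff (sh : ℕ ⊕ RatData) : ContDiff ℝ ∞ (shapeFun sh) := by
  cases sh with
  | inl j => exact iteratedDeriv_rho_contDiff j
  | inr l => exact piF_contDiff _

theorem bump_contDiff (g : Bump) : ContDiff ℝ ∞ g.fn := by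
  have : g.fn = fun s => s ^ g.1 * shapeFun g.2.1 (rv g.2.2.1 * s - rv g.2.2.2) :=
    funext (bump_fn_eq g)
  rw [this]
  exact (contDiff_id.pow _).mul ((shapeFun_contDiff _).comp
    ((contDiff_const.mul contDiff_id).sub contDiff_const))

/-- A bound outside which a profile vanishes. -/
def shapeBound : ℕ ⊕ RatData → ℝ
  | Sum.inl _ => 1
  | Sum.inr l => |rv l| + 1

theorem shapeFun_eq_zero {sh : ℕ ⊕ RatData} (hv : ∀ l, sh = Sum.inr l → 0 < RatData.val l) {s : ℝ}
    (h : shapeBound sh < |s|) : shapeFun sh s = 0 := by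
  cases sh with
  | inl j => exact iteratedDeriv_rho_eq_zero j h
  | inr l =>
    have hl : (0 : ℝ) < rv l := by
      unfold rv; exact_mod_cast hv l rfl
    simp only [shapeBound, abs_of_pos hl] at h
    show piF (rv l) s = 0
    rcases le_total 0 s with hs | hs
    · rw [abs_of_nonneg hs] at h
      exact piF_zero_right hl.le h.le
    · rw [abs_of_nonpos hs] at h
      exact piF_zero_left hl.le (by linarith)

theorem rv_ne {q : RatData} (h : RatData.val q ≠ 0) : rv q ≠ 0 := by
  unfold rv; exact_mod_cast h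

theorem bump_bounded_support (g : Bump) (hg : g.Valid) :
    ∃ A : ℝ, ∀ s : ℝ, A < |s| → g.fn s = 0 := by
  refine ⟨(shapeBound g.2.1 + |rv g.2.2.2|) / |rv g.2.2.1|, fun s hs => ?_⟩
  rw [bump_fn_eq, shapeFun_eq_zero hg.2, mul_zero]
  have ha : 0 < |rv g.2.2.1| := abs_pos.2 (rv_ne hg.1)
  rw [div_lt_iff₀ ha] at hs
  have := abs_sub_abs_le_abs_sub (rv g.2.2.1 * s) (rv g.2.2.2)
  rw [abs_mul] at this
  linarith

/-! ### Periodization -/

theorem periodize_add_int (g : ℝ → ℝ) (y : ℝ) (m : ℤ) : periodize g (y + m) = periodize g y := by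
  unfold periodize
  rw [← (Equiv.addLeft m).tsum_eq (fun n : ℤ => g (y + n))]
  refine tsum_congr fun n => ?_
  simp [add_assoc]

theorem periodize_congr_sum {g : ℝ → ℝ} {A : ℝ} (hA : ∀ s, A < |s| → g s = 0) (y : ℝ) {N : ℤ}
    (hN : A + |y| ≤ N) : periodize g y = ∑ m ∈ Finset.Icc (-N) N, g (y + m) := by
  refine tsum_eq_sum fun m hm => hA _ ?_
  rw [Finset.mem_Icc] at hm
  have hm' : N < |m| := by
    rcases le_or_gt 0 m with h | h
    · rw [abs_of_nonneg h]
      by_contra hc
      exact hm ⟨by linarith [abs_nonneg m], by linarith⟩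
    · rw [abs_of_neg h]
      by_contra hc
      exact hm ⟨by linarith, by linarith⟩
  have h1 : (N : ℝ) + 1 ≤ |(m : ℝ)| := by exact_mod_cast hm'
  have h2 : |(m : ℝ)| ≤ |y + m| + |y| := by
    have := abs_sub (y + m) y
    simpa using this
  linarith

theorem periodize_eventually {g : ℝ → ℝ} {A : ℝ} (hA : ∀ s, A < |s| → g s = 0) (y₀ : ℝ) :
    periodize g =ᶠ[𝓝 y₀]
      fun y => ∑ m ∈ Finset.Icc (-⌈A + |y₀| + 1⌉) ⌈A + |y₀| + 1⌉, g (y + m) := by
  filter_upwards [Metric.ball_mem_nhds y₀ one_pos] with y hy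
  refine periodize_congr_sum hA y ?_
  rw [Metric.mem_ball, Real.dist_eq] at hy
  have := abs_sub_abs_le_abs_sub y y₀
  linarith [Int.le_ceil (A + |y₀| + 1)]

theorem periodize_contDiff {g : ℝ → ℝ} {A : ℝ} (hA : ∀ s, A < |s| → g s = 0)
    (hg : ContDiff ℝ ∞ g) : ContDiff ℝ ∞ (periodize g) := by
  rw [contDiff_iff_contDiffAt]
  intro y₀
  refine ContDiffAt.congr_of_eventuallyEq ?_ (periodize_eventually hA y₀)
  exact (ContDiff.sum fun m _ => hg.comp (contDiff_id.add contDiff_const)).contDiffAt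

theorem periodize_hasDerivAt {g g' : ℝ → ℝ} {A : ℝ} (hA : ∀ s, A < |s| → g s = 0)
    (hA' : ∀ s, A < |s| → g' s = 0) (hd : ∀ s, HasDerivAt g (g' s) s) (y : ℝ) :
    HasDerivAt (periodize g) (periodize g' y) y := by
  rw [(periodize_eventually hA' y).eq_of_nhds]
  refine HasDerivAt.congr_of_eventuallyEq ?_ (periodize_eventually hA y)
  refine HasDerivAt.fun_sum fun m _ => ?_
  exact (hd (y + m)).comp_add_const y (m : ℝ)

theorem periodize_eq_self {g : ℝ → ℝ} {y : ℝ} (h : ∀ m : ℤ, m ≠ 0 → g (y + m) = 0) :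
    periodize g y = g y := by
  unfold periodize
  rw [tsum_eq_single 0 h]
  simp

theorem periodize_bump_contDiff (g : Bump) (hg : g.Valid) : ContDiff ℝ ∞ (periodize g.fn) := by
  obtain ⟨A, hA⟩ := bump_bounded_support g hg
  exact periodize_contDiff hA (bump_contDiff g)

end

end Vale.Agent.P113
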