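import Mathlib

/-!
Definitions for problem P113: bumps and admissible functions, force data, machines,
classical solutions of forced incompressible flows on the three-torus, trajectories.
Fields on the torus are written as functions on `Fin 3 → ℝ` that are periodic for `Fin 3 → ℤ`.
-/

namespace Vale.Agent.P113

open MeasureTheory Set

noncomputable section

/-! ### Admissible functions -/

/-- The profile: `exp (-1/(1-s^2))` for `|s| < 1` and `0` otherwise. -/
def rho (s : ℝ) : ℝ := if |s| < 1 then Real.exp (-1 / (1 - s ^ 2)) else 0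

/-- The integral of `rho` over the real line. -/
def kappa : ℝ := ∫ s : ℝ, rho s

/-- The antiderivative of `rho`. -/
def sigma (s : ℝ) : ℝ := ∫ r in Iic s, rho r

/-- The plateau `sigma s - sigma (s - l)`. -/
def piF (l s : ℝ) : ℝ := sigma s - sigma (s - l)

/-- A rational `n / (d+1)`, given by an integer `n` and a natural number `d`. -/
abbrev RatData := ℤ × ℕ

/-- The value of rational data. -/
def RatData.val (q : RatData) : ℚ := (q.1 : ℚ) / ((q.2 : ℚ) + 1)

/-- A bump `(k, sh, a, b)` stands for `s ↦ s^k * g (a*s - b)`, where `g` is the `j`-th derivative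
of `rho` for `sh = inl j` and `piF l` for `sh = inr l`. -/
abbrev Bump := ℕ × (ℕ ⊕ RatData) × RatData × RatData

/-- The profile of a bump. -/
def shapeFun : ℕ ⊕ RatData → ℝ → ℝ
  | Sum.inl j => iteratedDeriv j rho
  | Sum.inr l => piF ((RatData.val l : ℚ) : ℝ)

/-- The function described by a bump. -/
def Bump.fn (g : Bump) (s : ℝ) : ℝ :=
  s ^ g.1 * shapeFun g.2.1 (((RatData.val g.2.2.1 : ℚ) : ℝ) * s - ((RatData.val g.2.2.2 : ℚ) : ℝ))

/-- Validity of a bump: `a ≠ 0`, and `l > 0` for plateaus. -/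
def Bump.Valid (g : Bump) : Prop :=
  RatData.val g.2.2.1 ≠ 0 ∧ ∀ l, g.2.1 = Sum.inr l → 0 < RatData.val l

/-- The `1`-periodization `y ↦ ∑ m, g (y + m)` over all integers `m`. -/
def periodize (g : ℝ → ℝ) (y : ℝ) : ℝ := ∑' m : ℤ, g (y + m)

/-- A coefficient `(q, m, n, r)` stands for `q * ν^m * kappa^n * ∏ ln r_i`. -/
abbrev Coef := RatData × ℕ × ℤ × List RatData

/-- The value of a coefficient. -/
def Coef.val (ν : ℝ) (c : Coef) : ℝ :=
  ((RatData.val c.1 : ℚ) : ℝ) * ν ^ c.2.1 * kappa ^ c.2.2.1 *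
    (c.2.2.2.map fun r => Real.log ((RatData.val r : ℚ) : ℝ)).prod

/-- A time factor: `(true, g)` stands for the periodization of `g`, `(false, g)` for `g` itself. -/
def timeFactor (e : Bool × Bump) (t : ℝ) : ℝ :=
  if e.1 then periodize e.2.fn t else e.2.fn t

/-- A product of periodizations of bumps (the empty product is `1`). -/
def spaceFactor (l : List Bump) (y : ℝ) : ℝ := (l.map fun g => periodize g.fn y).prod

/-- A term `(c, θ, h1, h2, h3)`. -/
abbrev Term := Coef × List (Bool × Bump) × List Bump × List Bump × List Bump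

/-- The spatial factor list belonging to a coordinate. -/
def Term.space (τ : Term) (i : Fin 3) : List Bump :=
  ![τ.2.2.1, τ.2.2.2.1, τ.2.2.2.2] i

/-- The function described by a term. -/
def Term.fn (ν : ℝ) (τ : Term) (t : ℝ) (x : Fin 3 → ℝ) : ℝ :=
  τ.1.val ν * (τ.2.1.map fun e => timeFactor e t).prod *
    (spaceFactor (τ.space 0) (x 0) * spaceFactor (τ.space 1) (x 1) *
      spaceFactor (τ.space 2) (x 2))

/-- A term is periodic if its time factor is `1` or a product of periodizations only. -/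
def Term.periodic (τ : Term) : Bool := τ.2.1.all fun e => e.1

/-- A term obeys the syntax of admissible functions. -/
def Term.Valid (τ : Term) : Prop :=
  (∀ r ∈ τ.1.2.2.2, 0 < RatData.val r) ∧ (∀ e ∈ τ.2.1, e.2.Valid) ∧
    ∀ i, ∀ g ∈ τ.space i, g.Valid

/-- The sum of the listed terms. -/
def termsFn (ν : ℝ) (l : List Term) (t : ℝ) (x : Fin 3 → ℝ) : ℝ :=
  (l.map fun τ => τ.fn ν t x).sum

/-- Three lists of terms, one for each component. -/
abbrev Force := List Term × List Term × List Term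

/-- The standard product coding of terms, named to shorten instance search. -/
instance primcodableTerm : Primcodable Term := inferInstance

/-- The standard coding of lists of terms, named to shorten instance search. -/
instance primcodableTerms : Primcodable (List Term) := inferInstance

/-- The list belonging to a component. -/
def Force.comp (F : Force) (i : Fin 3) : List Term := ![F.1, F.2.1, F.2.2] i

/-- The vector field described by three lists of terms. -/
def Force.fn (ν : ℝ) (F : Force) (t : ℝ) (x : Fin 3 → ℝ) : Fin 3 → ℝ :=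
  fun i => termsFn ν (F.comp i) t x

/-! ### Machines -/

/-- A machine: start state, list of halting states, and a table sending
(state, symbol read) to (new state, symbol written, move), with move `none` for staying,
`some true` for right and `some false` for left. The blank is `0`. -/
abbrev Machine := ℕ × List ℕ × List ((ℕ × ℕ) × (ℕ × ℕ × Option Bool))

/-- The transition: the first matching entry of the table; with no entry, stay and keep looping. -/
def Machine.delta (M : Machine) (k : ℕ × ℕ) : ℕ × ℕ × Option Bool :=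
  (M.2.2.lookup k).getD (k.1, k.2, none)

/-- A configuration: state, cells left of the head (nearest first), cells from the head on. -/
abbrev MConf := ℕ × List ℕ × List ℕ

/-- One step of a machine on its two-sided tape. -/
def Machine.step (M : Machine) (c : MConf) : MConf :=
  let r := M.delta (c.1, c.2.2.headI)
  match r.2.2 with
  | none => (r.1, c.2.1, r.2.1 :: c.2.2.tail)
  | some true => (r.1, r.2.1 :: c.2.1, c.2.2.tail)
  | some false => (r.1, c.2.1.tail, c.2.1.headI :: r.2.1 :: c.2.2.tail)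

/-- The machine reaches a halting state from the input word after finitely many steps. -/
def Machine.Halts (M : Machine) (w : List ℕ) : Prop :=
  ∃ n : ℕ, (M.step^[n] (M.1, [], w)).1 ∈ M.2.1

/-! ### The flow equations -/

/-- Partial derivative in the `j`-th coordinate. -/
def pd (j : Fin 3) (g : (Fin 3 → ℝ) → ℝ) (x : Fin 3 → ℝ) : ℝ := fderiv ℝ g x (Pi.single j 1)

/-- Periodicity with respect to the integer lattice. -/
def LatticePeriodic {β : Type} (g : (Fin 3 → ℝ) → β) : Prop :=
  ∀ x : Fin 3 → ℝ, ∀ k : Fin 3 → ℤ, g (fun i => x i + k i) = g x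

/-- `(u, p)` is a classical solution on `[0,T]` of
`∂t u + (u·∇) u = -∇p + ν Δ u + f`, `div u = 0`, `u 0 = 0`, on the torus, `p` of mean zero. -/
def IsClassical (ν : ℝ) (f : ℝ → (Fin 3 → ℝ) → Fin 3 → ℝ) (T : ℝ)
    (u : ℝ → (Fin 3 → ℝ) → Fin 3 → ℝ) (p : ℝ → (Fin 3 → ℝ) → ℝ) : Prop :=
  let D : Set (ℝ × (Fin 3 → ℝ)) := Icc 0 T ×ˢ univ
  (∀ t ∈ Icc 0 T, LatticePeriodic (u t) ∧ LatticePeriodic (p t)) ∧
  (∀ t ∈ Icc 0 T, ContDiff ℝ 2 (u t) ∧ ContDiff ℝ 1 (p t)) ∧
  ContinuousOn (fun z : ℝ × (Fin 3 → ℝ) => u z.1 z.2) D ∧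
  (∀ i j, ContinuousOn (fun z : ℝ × (Fin 3 → ℝ) => pd j (fun y => u z.1 y i) z.2) D) ∧
  (∀ i j k, ContinuousOn
    (fun z : ℝ × (Fin 3 → ℝ) => pd j (pd k (fun y => u z.1 y i)) z.2) D) ∧
  ContinuousOn (fun z : ℝ × (Fin 3 → ℝ) => p z.1 z.2) D ∧
  (∀ j, ContinuousOn (fun z : ℝ × (Fin 3 → ℝ) => pd j (p z.1) z.2) D) ∧
  (∀ x, u 0 x = 0) ∧
  (∀ t ∈ Icc 0 T, ∀ x, ∑ i, pd i (fun y => u t y i) x = 0) ∧
  (∀ t ∈ Icc 0 T, ∫ x in Icc (0 : Fin 3 → ℝ) 1, p t x = 0) ∧
  ∃ ut : ℝ → (Fin 3 → ℝ) → Fin 3 → ℝ,
    ContinuousOn (fun z : ℝ × (Fin 3 → ℝ) => ut z.1 z.2) D ∧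
    (∀ t ∈ Icc 0 T, ∀ x, HasDerivWithinAt (fun s => u s x) (ut t x) (Icc 0 T) t) ∧
    ∀ t ∈ Icc 0 T, ∀ x i,
      ut t x i + ∑ j, u t x j * pd j (fun y => u t y i) x =
        -pd i (p t) x + ν * (∑ j, pd j (pd j (fun y => u t y i)) x) + f t x i

/-- `X` is (a lift of) the trajectory of the point `a` under the velocity `u`. -/
def IsTrajectory (u : ℝ → (Fin 3 → ℝ) → Fin 3 → ℝ) (a : Fin 3 → ℝ) (X : ℝ → Fin 3 → ℝ) : Prop :=
  X 0 = a ∧ ∀ t, 0 ≤ t → HasDerivWithinAt X (u t (X t)) (Ici 0) t

/-- The preimage in `ℝ^3` of the image in the torus of an open box with rational corners. -/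
def torusBox (lo hi : Fin 3 → ℚ) : Set (Fin 3 → ℝ) :=
  {x | ∃ k : Fin 3 → ℤ, ∀ i, (lo i : ℝ) < x i + k i ∧ x i + k i < (hi i : ℝ)}

end

end Vale.Agent.P113
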