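import Vale.Agent.P113.Windows

/-!
Trajectories of velocity fields that perform one shear in each time slot `[e/N, (e+1)/N]`.
-/

namespace Vale.Agent.P113

open Set Filter Topology

noncomputable section

variable {N : ℕ}

/-- The progress of the slot `e` at time `t`. -/
def slotG (N e : ℕ) (t : ℝ) : ℝ := sigma (4 * (N : ℝ) * t - (4 * (e : ℝ) + 2)) / kappa

/-- The rate of the slot `e` at time `t`. -/
def slotRate (N e : ℕ) (t : ℝ) : ℝ :=
  4 * (N : ℝ) / kappa * rho (4 * (N : ℝ) * t - (4 * (e : ℝ) + 2))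

theorem slotG_hasDerivAt (N e : ℕ) (t : ℝ) : HasDerivAt (slotG N e) (slotRate N e t) t := by
  have h2 : HasDerivAt (fun x : ℝ => 4 * (N : ℝ) * x - (4 * (e : ℝ) + 2)) (4 * (N : ℝ)) t := by
    simpa using ((hasDerivAt_id' t).const_mul (4 * (N : ℝ))).sub_const (4 * (e : ℝ) + 2)
  refine ((sigma_hasDerivAt _).comp t h2).div_const kappa |>.congr_deriv ?_
  unfold slotRate
  ring

theorem slotG_nonneg (N e : ℕ) (t : ℝ) : 0 ≤ slotG N e t :=
  div_nonneg (sigma_nonneg _) kappa_pos.le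

theorem slotG_le_one (N e : ℕ) (t : ℝ) : slotG N e t ≤ 1 :=
  (div_le_one kappa_pos).2 (sigma_le_kappa _)

theorem slotG_before {N e : ℕ} {t : ℝ} (h : (N : ℝ) * t ≤ e) : slotG N e t = 0 := by
  rw [slotG, sigma_le (by linarith), zero_div]

theorem slotG_after {N e : ℕ} {t : ℝ} (h : (e : ℝ) + 1 ≤ N * t) : slotG N e t = 1 := by
  rw [slotG, sigma_ge (by linarith), div_self kappa_ne]

theorem rho_slot_eq_zero {N : ℕ} {e t : ℝ} (h : (N : ℝ) * t ≤ e ∨ e + 1 ≤ N * t) :
    rho (4 * (N : ℝ) * t - (4 * e + 2)) = 0 := by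
  refine rho_eq_zero ?_
  rcases h with h | h
  · rw [abs_of_nonpos (by linarith)]; linarith
  · rw [abs_of_nonneg (by linarith)]; linarith

theorem slotRate_other {N e e' : ℕ} {t : ℝ} (h1 : (e : ℝ) ≤ N * t) (h2 : (N : ℝ) * t ≤ e + 1)
    (hne : e' ≠ e) : slotRate N e' t = 0 := by
  unfold slotRate
  rw [rho_slot_eq_zero, mul_zero]
  rcases lt_or_gt_of_ne hne with h | h
  · right
    have : (e' : ℝ) + 1 ≤ e := by exact_mod_cast h
    linarith
  · left
    have : (e : ℝ) + 1 ≤ e' := by exact_mod_cast h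
    linarith

/-- The points at the slot boundaries. -/
def slotPts (S : ℕ → Shear) (P : Fin 3 → ℝ) : ℕ → Fin 3 → ℝ
  | 0 => P
  | e + 1 => (S e).move (slotPts S P e)

theorem slotPts_zero (S : ℕ → Shear) (P : Fin 3 → ℝ) : slotPts S P 0 = P := rfl

theorem slotPts_succ (S : ℕ → Shear) (P : Fin 3 → ℝ) (e : ℕ) :
    slotPts S P (e + 1) = (S e).move (slotPts S P e) := rfl

/-- The path using the first `E` slots. -/
def slotPathUpTo (N : ℕ) (S : ℕ → Shear) (P : Fin 3 → ℝ) (E : ℕ) (t : ℝ) : Fin 3 → ℝ :=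
  P + ∑ e ∈ Finset.range E, slotG N e t • (slotPts S P (e + 1) - slotPts S P e)

/-- The whole path. -/
def slotPath (N : ℕ) (S : ℕ → Shear) (P : Fin 3 → ℝ) (t : ℝ) : Fin 3 → ℝ :=
  slotPathUpTo N S P (⌊(N : ℝ) * t⌋₊ + 1) t

theorem slotPathUpTo_eq (S : ℕ → Shear) (P : Fin 3 → ℝ) {E e : ℕ} {t : ℝ} (hE : e < E)
    (h1 : (e : ℝ) ≤ N * t) (h2 : (N : ℝ) * t ≤ e + 1) :
    slotPathUpTo N S P E t = Function.update (slotPts S P e) (S e).1
      (slotPts S P e (S e).1 + slotG N e t * (S e).amount (slotPts S P e)) := by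
  have hsplit : ∀ E', e < E' →
      ∑ i ∈ Finset.range E', slotG N i t • (slotPts S P (i + 1) - slotPts S P i) =
        (slotPts S P e - P) + slotG N e t • (slotPts S P (e + 1) - slotPts S P e) := by
    intro E' hE'
    rw [← Finset.sum_range_add_sum_Ico _ hE'.le]
    have hlow : ∑ i ∈ Finset.range e, slotG N i t • (slotPts S P (i + 1) - slotPts S P i) =
        slotPts S P e - P := by
      rw [Finset.sum_congr rfl fun i hi => by
        rw [slotG_after (by
          have : (i : ℝ) + 1 ≤ e := by exact_mod_cast Finset.mem_range.1 hi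
          linarith), one_smul]]
      rw [Finset.sum_range_sub (slotPts S P)]
      rfl
    rw [hlow, Finset.sum_eq_single_of_mem e (Finset.mem_Ico.2 ⟨le_rfl, hE'⟩) fun i hi hne => ?_]
    have : e < i := lt_of_le_of_ne (Finset.mem_Ico.1 hi).1 (Ne.symm hne)
    rw [slotG_before (by
      have : (e : ℝ) + 1 ≤ i := by exact_mod_cast this
      linarith), zero_smul]
  rw [slotPathUpTo, hsplit E hE, slotPts_succ]
  funext i
  by_cases hi : i = (S e).1
  · subst hi
    simp [Shear.move]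
    ring
  · simp [Shear.move, hi]

theorem slotPathUpTo_stable (S : ℕ → Shear) (P : Fin 3 → ℝ) {E E' : ℕ} (h : E ≤ E') {t : ℝ}
    (ht : (N : ℝ) * t ≤ E) : slotPathUpTo N S P E' t = slotPathUpTo N S P E t := by
  rw [slotPathUpTo, slotPathUpTo, ← Finset.sum_range_add_sum_Ico _ h]
  congr 1
  rw [add_eq_left]
  refine Finset.sum_eq_zero fun i hi => ?_
  have : (E : ℝ) ≤ i := by exact_mod_cast (Finset.mem_Ico.1 hi).1
  rw [slotG_before (by linarith), zero_smul]

theorem slotPath_eq (S : ℕ → Shear) (P : Fin 3 → ℝ) {E : ℕ} {t : ℝ} (h : (N : ℝ) * t ≤ E) :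
    slotPath N S P t = slotPathUpTo N S P E t := by
  unfold slotPath
  have h' : (N : ℝ) * t ≤ ((⌊(N : ℝ) * t⌋₊ + 1 : ℕ) : ℝ) := by
    push_cast; exact (Nat.lt_floor_add_one _).le
  rcases le_total (⌊(N : ℝ) * t⌋₊ + 1) E with hle | hle
  · exact (slotPathUpTo_stable S P hle h').symm
  · exact slotPathUpTo_stable S P hle h

theorem slot_exists (N : ℕ) {t : ℝ} (ht : 0 ≤ t) :
    ((⌊(N : ℝ) * t⌋₊ : ℕ) : ℝ) ≤ N * t ∧ (N : ℝ) * t ≤ (⌊(N : ℝ) * t⌋₊ : ℕ) + 1 :=
  ⟨Nat.floor_le (by positivity), (Nat.lt_floor_add_one _).le⟩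

theorem slotPath_zero (S : ℕ → Shear) (P : Fin 3 → ℝ) : slotPath N S P 0 = P := by
  rw [slotPath_eq S P (E := 0) (by simp)]
  simp [slotPathUpTo]

theorem slotPath_in_slot (S : ℕ → Shear) (P : Fin 3 → ℝ) {e : ℕ} {t : ℝ}
    (h1 : (e : ℝ) ≤ N * t) (h2 : (N : ℝ) * t ≤ e + 1) :
    slotPath N S P t = Function.update (slotPts S P e) (S e).1
      (slotPts S P e (S e).1 + slotG N e t * (S e).amount (slotPts S P e)) := by
  rw [slotPath_eq S P (E := e + 1) (by push_cast; exact h2),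
    slotPathUpTo_eq S P (Nat.lt_succ_self e) h1 h2]

/-- The velocity performs the shear `S e` in the slot `e`. -/
def Performs (N : ℕ) (S : ℕ → Shear) (u : ℝ → (Fin 3 → ℝ) → Fin 3 → ℝ) : Prop :=
  ∀ e : ℕ, ∀ t : ℝ, (e : ℝ) ≤ N * t → (N : ℝ) * t ≤ e + 1 →
    ∀ x, u t x = slotRate N e t • Pi.single (S e).1 ((S e).amount x)

theorem slotPath_trajectory (hN : 0 < N) {S : ℕ → Shear} (hS : ∀ e, (S e).Ok)
    {u : ℝ → (Fin 3 → ℝ) → Fin 3 → ℝ} (hu : Performs N S u) (P : Fin 3 → ℝ) :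
    IsTrajectory u P (slotPath N S P) := by
  refine ⟨slotPath_zero S P, fun t ht => HasDerivAt.hasDerivWithinAt ?_⟩
  obtain ⟨e, he1, he2⟩ : ∃ e : ℕ, (e : ℝ) ≤ N * t ∧ (N : ℝ) * t ≤ e + 1 :=
    ⟨_, slot_exists N ht⟩
  have hN' : (0 : ℝ) < N := by exact_mod_cast hN
  have hev : slotPath N S P =ᶠ[𝓝 t] slotPathUpTo N S P (e + 2) := by
    filter_upwards [Iio_mem_nhds (show t < ((e : ℝ) + 2) / N by
      rw [lt_div_iff₀ hN']; linarith)] with r hr
    refine slotPath_eq S P ?_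
    rw [mem_Iio, lt_div_iff₀ hN'] at hr
    push_cast
    linarith
  refine HasDerivAt.congr_of_eventuallyEq ?_ hev
  have hd : HasDerivAt (slotPathUpTo N S P (e + 2))
      (∑ i ∈ Finset.range (e + 2), slotRate N i t • (slotPts S P (i + 1) - slotPts S P i)) t :=
    (HasDerivAt.fun_sum fun i _ => (slotG_hasDerivAt N i t).smul_const _).const_add P
  refine hd.congr_deriv ?_
  rw [Finset.sum_eq_single_of_mem e (Finset.mem_range.2 (by omega)) fun i _ hne => by
    rw [slotRate_other he1 he2 hne, zero_smul]]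
  rw [slotPath_in_slot S P he1 he2, hu e t he1 he2, Shear.amount_update (hS e), slotPts_succ]
  congr 1
  funext i
  by_cases hi : i = (S e).1
  · subst hi
    simp [Shear.move]
  · simp [Shear.move, hi]

/-- Trajectories of a continuously differentiable field are unique. -/
theorem trajectory_unique {u : ℝ → (Fin 3 → ℝ) → Fin 3 → ℝ}
    (hu : ContDiff ℝ 1 (fun z : ℝ × (Fin 3 → ℝ) => u z.1 z.2)) {a : Fin 3 → ℝ}
    {X Y : ℝ → Fin 3 → ℝ} (hX : IsTrajectory u a X) (hY : IsTrajectory u a Y) :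
    ∀ t, 0 ≤ t → X t = Y t := by
  intro T hT
  have hcX : ContinuousOn X (Icc 0 T) := fun s hs =>
    ((hX.2 s hs.1).continuousWithinAt).mono Icc_subset_Ici_self
  have hcY : ContinuousOn Y (Icc 0 T) := fun s hs =>
    ((hY.2 s hs.1).continuousWithinAt).mono Icc_subset_Ici_self
  obtain ⟨R, hR⟩ : ∃ R, X '' Icc 0 T ∪ Y '' Icc 0 T ⊆ Metric.closedBall 0 R :=
    ((isCompact_Icc.image_of_continuousOn hcX).union
      (isCompact_Icc.image_of_continuousOn hcY)).isBounded.subset_closedBall 0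
  obtain ⟨K, hK⟩ := hu.contDiffOn.exists_lipschitzOnWith (s := Icc 0 T ×ˢ Metric.closedBall 0 R)
    one_ne_zero ((convex_Icc 0 T).prod (convex_closedBall 0 R))
    (isCompact_Icc.prod (isCompact_closedBall 0 R))
  refine ODE_solution_unique_of_mem_Icc_right (v := u) (s := fun _ => Metric.closedBall 0 R)
    (K := K) (fun s hs => ?_) hcX (fun s hs => ?_) (fun s hs => hR (Or.inl ⟨s, Ico_subset_Icc_self hs, rfl⟩))
    hcY (fun s hs => ?_) (fun s hs => hR (Or.inr ⟨s, Ico_subset_Icc_self hs, rfl⟩))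
    (by rw [hX.1, hY.1]) (right_mem_Icc.2 hT)
  · intro x hx y hy
    simpa [Prod.edist_eq] using hK (x := (s, x)) ⟨Ico_subset_Icc_self hs, hx⟩
      (y := (s, y)) ⟨Ico_subset_Icc_self hs, hy⟩
  · exact (hX.2 s hs.1).mono (Ici_subset_Ici.2 hs.1)
  · exact (hY.2 s hs.1).mono (Ici_subset_Ici.2 hs.1)

end

end Vale.Agent.P113
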