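import Mathlib

/-!
Interface between the machine side and the flow side of P113: a finite system of axis-parallel
affine pieces in the unit square.
-/

namespace Vale.Agent.P113

/-- A closed box in the plane with rational corners. -/
structure Box where
  xlo : ℚ
  xhi : ℚ
  ylo : ℚ
  yhi : ℚ

/-- Membership of a real point in a box. -/
def Box.Mem (B : Box) (q : ℝ × ℝ) : Prop :=
  (B.xlo : ℝ) ≤ q.1 ∧ q.1 ≤ B.xhi ∧ (B.ylo : ℝ) ≤ q.2 ∧ q.2 ≤ B.yhi

/-- A nondegenerate box in the unit square. -/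
def Box.InUnit (B : Box) : Prop :=
  0 ≤ B.xlo ∧ B.xlo ≤ B.xhi ∧ B.xhi ≤ 1 ∧ 0 ≤ B.ylo ∧ B.ylo ≤ B.yhi ∧ B.yhi ≤ 1

/-- Two closed boxes are separated along one of the axes. -/
def Box.Sep (B C : Box) : Prop :=
  B.xhi < C.xlo ∨ C.xhi < B.xlo ∨ B.yhi < C.ylo ∨ C.yhi < B.ylo

/-- An affine piece `(x, y) ↦ (a x + b, c y + d)` on a box. -/
structure Piece where
  src : Box
  a : ℚ
  b : ℚ
  c : ℚ
  d : ℚ

/-- The map of a piece on real points. -/
def Piece.map (π : Piece) (q : ℝ × ℝ) : ℝ × ℝ :=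
  ((π.a : ℝ) * q.1 + π.b, (π.c : ℝ) * q.2 + π.d)

/-- The image box of a piece (for positive slopes). -/
def Piece.dst (π : Piece) : Box :=
  ⟨π.a * π.src.xlo + π.b, π.a * π.src.xhi + π.b, π.c * π.src.ylo + π.d, π.c * π.src.yhi + π.d⟩

/-- Admissible system: positive slopes, sources and images in the unit square, sources and
halting boxes pairwise separated, images pairwise separated. -/
structure Planar where
  pieces : List Piece
  halts : List Box
  slope_pos : ∀ π ∈ pieces, 0 < π.a ∧ 0 < π.c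
  src_unit : ∀ π ∈ pieces, π.src.InUnit
  dst_unit : ∀ π ∈ pieces, π.dst.InUnit
  halt_unit : ∀ B ∈ halts, B.InUnit
  src_sep : pieces.Pairwise fun π π' => π.src.Sep π'.src
  halt_sep : halts.Pairwise Box.Sep
  src_halt_sep : ∀ π ∈ pieces, ∀ B ∈ halts, π.src.Sep B
  dst_sep : pieces.Pairwise fun π π' => π.dst.Sep π'.dst

/-- One step inside the pieces. -/
def Planar.Step (S : Planar) (q q' : ℝ × ℝ) : Prop :=
  ∃ π ∈ S.pieces, π.src.Mem q ∧ q' = π.map q

/-- Some orbit through the pieces ends in a halting box. -/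
def Planar.Reaches (S : Planar) (q : ℝ × ℝ) : Prop :=
  ∃ o : ℕ → ℝ × ℝ, ∃ n : ℕ, o 0 = q ∧ (∀ k < n, S.Step (o k) (o (k + 1))) ∧
    ∃ B ∈ S.halts, B.Mem (o n)

/-- Some orbit stays in the pieces forever. -/
def Planar.Runs (S : Planar) (q : ℝ × ℝ) : Prop :=
  ∃ o : ℕ → ℝ × ℝ, o 0 = q ∧ ∀ k, S.Step (o k) (o (k + 1))

/-- Data of a system deciding nothing but semi-deciding `P`: the starting point for the parameter
`n` is `(A + B / m^n, C + D / m^n)`. -/
def Simulates (S : Planar) (A B C D : ℚ) (m : ℕ) (P : ℕ → Prop) : Prop :=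
  2 ≤ m ∧ ∀ n : ℕ,
    let q : ℝ × ℝ := ((A : ℝ) + (B : ℝ) / (m : ℝ) ^ n, (C : ℝ) + (D : ℝ) / (m : ℝ) ^ n)
    (0 ≤ q.1 ∧ q.1 ≤ 1 ∧ 0 ≤ q.2 ∧ q.2 ≤ 1) ∧ (P n → S.Reaches q) ∧ (¬ P n → S.Runs q)

end Vale.Agent.P113
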