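import Vale.Agent.P113.Windows
import Vale.Agent.P113.Planar

/-!
Thirteen shears that realise one step of a planar system on the plane `z = 0`, using tags in the
three coordinates to separate the pieces. Scaled units: a point with units `(a,b,c)` is
`scale * (a,b,c)`.
-/

namespace Vale.Agent.P113

noncomputable section

/-! ### Margins -/

/-- Separation with a definite gap. -/
def Box.SepBy (g : ℚ) (B C : Box) : Prop :=
  B.xhi + g ≤ C.xlo ∨ C.xhi + g ≤ B.xlo ∨ B.yhi + g ≤ C.ylo ∨ C.yhi + g ≤ B.ylo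

theorem Box.SepBy.mono {g g' : ℚ} {B C : Box} (h : B.SepBy g C) (hle : g' ≤ g) : B.SepBy g' C := by
  rcases h with h | h | h | h
  · left; linarith
  · right; left; linarith
  · right; right; left; linarith
  · right; right; right; linarith

theorem Box.SepBy.symm {g : ℚ} {B C : Box} (h : B.SepBy g C) : C.SepBy g B := by
  unfold Box.SepBy at *; tauto

theorem Box.Sep.symm {B C : Box} (h : B.Sep C) : C.Sep B := by
  unfold Box.Sep at *; tauto

theorem Box.Sep.exists_gap {B C : Box} (h : B.Sep C) : ∃ g : ℚ, 0 < g ∧ B.SepBy g C := by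
  rcases h with h | h | h | h
  · exact ⟨C.xlo - B.xhi, by linarith, Or.inl (by linarith)⟩
  · exact ⟨B.xlo - C.xhi, by linarith, Or.inr (Or.inl (by linarith))⟩
  · exact ⟨C.ylo - B.yhi, by linarith, Or.inr (Or.inr (Or.inl (by linarith)))⟩
  · exact ⟨B.ylo - C.yhi, by linarith, Or.inr (Or.inr (Or.inr (by linarith)))⟩

theorem exists_common_gap : ∀ l : List (Box × Box), (∀ e ∈ l, e.1.Sep e.2) →
    ∃ g : ℚ, 0 < g ∧ g ≤ 1 ∧ ∀ e ∈ l, e.1.SepBy g e.2
  | [], _ => ⟨1, one_pos, le_rfl, fun _ h => by simp at h⟩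
  | e :: l, h => by
    obtain ⟨g, hg, hg1, hl⟩ := exists_common_gap l fun x hx => h x (List.mem_cons_of_mem _ hx)
    obtain ⟨g', hg', he⟩ := (h e List.mem_cons_self).exists_gap
    refine ⟨min g g', lt_min hg hg', (min_le_left _ _).trans hg1, fun x hx => ?_⟩
    rcases List.mem_cons.1 hx with rfl | hx
    · exact he.mono (min_le_right _ _)
    · exact (hl x hx).mono (min_le_left _ _)

namespace Planar

variable (S : Planar)

/-- Number of pieces. -/
def nP : ℕ := S.pieces.length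

/-- Number of halting boxes. -/
def nH : ℕ := S.halts.length

/-- The `i`-th piece (a junk piece past the end). -/
def pieceAt (i : ℕ) : Piece := S.pieces.getD i ⟨⟨0, 0, 0, 0⟩, 1, 0, 1, 0⟩

/-- The `i`-th halting box. -/
def haltAt (i : ℕ) : Box := S.halts.getD i ⟨0, 0, 0, 0⟩

theorem pieceAt_mem {i : ℕ} (h : i < S.nP) : S.pieceAt i ∈ S.pieces := by
  rw [pieceAt, List.getD_eq_getElem _ _ h]; exact List.getElem_mem h

theorem haltAt_mem {i : ℕ} (h : i < S.nH) : S.haltAt i ∈ S.halts := by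
  rw [haltAt, List.getD_eq_getElem _ _ h]; exact List.getElem_mem h

theorem exists_index {π : Piece} (h : π ∈ S.pieces) : ∃ i < S.nP, S.pieceAt i = π := by
  obtain ⟨i, hi, rfl⟩ := List.mem_iff_getElem.1 h
  exact ⟨i, hi, by rw [pieceAt, List.getD_eq_getElem _ _ hi]⟩

theorem exists_haltIndex {B : Box} (h : B ∈ S.halts) : ∃ i < S.nH, S.haltAt i = B := by
  obtain ⟨i, hi, rfl⟩ := List.mem_iff_getElem.1 h
  exact ⟨i, hi, by rw [haltAt, List.getD_eq_getElem _ _ hi]⟩

/-- The pairs of boxes that must be separated. -/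
def gapPairs : List (Box × Box) :=
  ((List.range S.nP).flatMap fun j => (List.range j).flatMap fun i =>
      [((S.pieceAt i).src, (S.pieceAt j).src), ((S.pieceAt i).dst, (S.pieceAt j).dst)]) ++
    ((List.range S.nH).flatMap fun j => (List.range j).map fun i => (S.haltAt i, S.haltAt j)) ++
    ((List.range S.nP).flatMap fun i => (List.range S.nH).map fun j =>
      ((S.pieceAt i).src, S.haltAt j))

theorem gapPairs_sep : ∀ e ∈ S.gapPairs, e.1.Sep e.2 := by
  intro e he
  simp only [gapPairs, List.mem_append, List.mem_flatMap, List.mem_map, List.mem_range] at he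
  rcases he with (⟨j, hj, i, hi, he⟩ | ⟨j, hj, i, hi, rfl⟩) | ⟨i, hi, j, hj, rfl⟩
  · have h1 := List.pairwise_iff_getElem.1 S.src_sep i j (hi.trans hj) hj hi
    have h2 := List.pairwise_iff_getElem.1 S.dst_sep i j (hi.trans hj) hj hi
    simp only [List.mem_cons, List.not_mem_nil, or_false] at he
    rw [show S.pieceAt i = S.pieces[i]'(hi.trans hj) from List.getD_eq_getElem _ _ (hi.trans hj),
      show S.pieceAt j = S.pieces[j]'hj from List.getD_eq_getElem _ _ hj] at he
    rcases he with rfl | rfl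
    exacts [h1, h2]
  · have h1 := List.pairwise_iff_getElem.1 S.halt_sep i j (hi.trans hj) hj hi
    rw [show S.haltAt i = S.halts[i]'(hi.trans hj) from List.getD_eq_getElem _ _ (hi.trans hj),
      show S.haltAt j = S.halts[j]'hj from List.getD_eq_getElem _ _ hj]
    exact h1
  · exact S.src_halt_sep _ (S.pieceAt_mem hi) _ (S.haltAt_mem hj)

/-- A common positive gap, at most one. -/
def gap : ℚ := (exists_common_gap S.gapPairs S.gapPairs_sep).choose

theorem gap_spec : 0 < S.gap ∧ S.gap ≤ 1 ∧ ∀ e ∈ S.gapPairs, e.1.SepBy S.gap e.2 :=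
  (exists_common_gap S.gapPairs S.gapPairs_sep).choose_spec

theorem gap_pos : 0 < S.gap := S.gap_spec.1

theorem gap_le_one : S.gap ≤ 1 := S.gap_spec.2.1

theorem src_gap {i j : ℕ} (hi : i < S.nP) (hj : j < S.nP) (h : i ≠ j) :
    (S.pieceAt i).src.SepBy S.gap (S.pieceAt j).src := by
  have key : ∀ a b : ℕ, a < b → b < S.nP → (S.pieceAt a).src.SepBy S.gap (S.pieceAt b).src := by
    intro a b hab hb
    refine S.gap_spec.2.2 ((S.pieceAt a).src, (S.pieceAt b).src) ?_
    simp only [gapPairs, List.mem_append, List.mem_flatMap, List.mem_range]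
    exact Or.inl (Or.inl ⟨b, hb, a, hab, by simp⟩)
  rcases lt_or_gt_of_ne h with h | h
  exacts [key i j h hj, (key j i h hi).symm]

theorem dst_gap {i j : ℕ} (hi : i < S.nP) (hj : j < S.nP) (h : i ≠ j) :
    (S.pieceAt i).dst.SepBy S.gap (S.pieceAt j).dst := by
  have key : ∀ a b : ℕ, a < b → b < S.nP → (S.pieceAt a).dst.SepBy S.gap (S.pieceAt b).dst := by
    intro a b hab hb
    refine S.gap_spec.2.2 ((S.pieceAt a).dst, (S.pieceAt b).dst) ?_
    simp only [gapPairs, List.mem_append, List.mem_flatMap, List.mem_range]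
    exact Or.inl (Or.inl ⟨b, hb, a, hab, by simp⟩)
  rcases lt_or_gt_of_ne h with h | h
  exacts [key i j h hj, (key j i h hi).symm]

theorem halt_gap {i j : ℕ} (hi : i < S.nH) (hj : j < S.nH) (h : i ≠ j) :
    (S.haltAt i).SepBy S.gap (S.haltAt j) := by
  have key : ∀ a b : ℕ, a < b → b < S.nH → (S.haltAt a).SepBy S.gap (S.haltAt b) := by
    intro a b hab hb
    refine S.gap_spec.2.2 (S.haltAt a, S.haltAt b) ?_
    simp only [gapPairs, List.mem_append, List.mem_flatMap, List.mem_map, List.mem_range]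
    exact Or.inl (Or.inr ⟨b, hb, a, hab, rfl⟩)
  rcases lt_or_gt_of_ne h with h | h
  exacts [key i j h hj, (key j i h hi).symm]

theorem src_halt_gap {i j : ℕ} (hi : i < S.nP) (hj : j < S.nH) :
    (S.pieceAt i).src.SepBy S.gap (S.haltAt j) := by
  refine S.gap_spec.2.2 ((S.pieceAt i).src, S.haltAt j) ?_
  simp only [gapPairs, List.mem_append, List.mem_flatMap, List.mem_map, List.mem_range]
  exact Or.inr ⟨i, hi, j, hj, rfl⟩

/-! ### Scale, tags and windows -/

/-- The length of one unit. -/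
def scale : ℚ := 1 / (10 * (4 * (S.nP : ℚ) + 8))

theorem scale_pos : 0 < S.scale := by unfold scale; positivity

theorem scale_bound : S.scale * (4 * (S.nP : ℚ) + 8) = 1 / 10 := by
  unfold scale; field_simp

/-- The tag of a piece. -/
def tag (i : ℕ) : ℚ := 4 * ((i : ℚ) + 1)

/-- A window in units. -/
def win (k : ℕ) (ax : Fin 3) (lo hi : ℚ) : Fin 3 × Bump :=
  (ax, winBump k (S.scale * lo) (S.scale * hi) (S.scale * S.gap))

/-- A window around a tag. -/
def tagWin (k : ℕ) (ax : Fin 3) (τ : ℚ) : Fin 3 × Bump := S.win k ax (τ - 1) (τ + 1)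

/-- The two windows of a box. -/
def boxWin (B : Box) : List (Fin 3 × Bump) := [S.win 0 0 B.xlo B.xhi, S.win 0 1 B.ylo B.yhi]

/-- The monomials of a shear acting separately near each tag. -/
def perPiece (φ : ℕ → List Mono) : List Mono := (List.range S.nP).flatMap φ

/-- The shears of one period. -/
def stage : ℕ → Shear
  | 0 => (2, S.perPiece (fun i => [(S.scale * tag i, S.boxWin (S.pieceAt i).src)]) ++
      (List.range S.nH).flatMap fun j => [(S.scale * (-4), S.boxWin (S.haltAt j))])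
  | 1 => (1, [(1 / 2, [S.tagWin 0 2 (-4)])])
  | 2 => (0, S.perPiece fun i => [(S.scale * tag i, [S.tagWin 0 2 (tag i)])])
  | 3 => (1, S.perPiece fun i => [(S.scale * tag i, [S.tagWin 0 2 (tag i)])])
  | 4 => (2, S.perPiece fun i =>
      [(1, [S.tagWin 1 0 (tag i)]), (-(S.scale * tag i), [S.tagWin 0 0 (tag i)])])
  | 5 => (0, S.perPiece fun i => [((S.pieceAt i).a - 1, [S.tagWin 1 2 (tag i)]),
      (S.scale * ((S.pieceAt i).b - ((S.pieceAt i).a - 1) * tag i), [S.tagWin 0 2 (tag i)])])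
  | 6 => (2, S.perPiece fun i => [(-(1 / (S.pieceAt i).a), [S.tagWin 1 0 (tag i)]),
      (S.scale * ((tag i + (S.pieceAt i).b) / (S.pieceAt i).a), [S.tagWin 0 0 (tag i)])])
  | 7 => (2, S.perPiece fun i =>
      [(1, [S.tagWin 1 1 (tag i)]), (-(S.scale * tag i), [S.tagWin 0 1 (tag i)])])
  | 8 => (1, S.perPiece fun i => [((S.pieceAt i).c - 1, [S.tagWin 1 2 (tag i)]),
      (S.scale * ((S.pieceAt i).d - ((S.pieceAt i).c - 1) * tag i), [S.tagWin 0 2 (tag i)])])
  | 9 => (2, S.perPiece fun i => [(-(1 / (S.pieceAt i).c), [S.tagWin 1 1 (tag i)]),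
      (S.scale * ((tag i + (S.pieceAt i).d) / (S.pieceAt i).c), [S.tagWin 0 1 (tag i)])])
  | 10 => (0, S.perPiece fun i => [(-(S.scale * tag i), [S.tagWin 0 2 (tag i)])])
  | 11 => (1, S.perPiece fun i => [(-(S.scale * tag i), [S.tagWin 0 2 (tag i)])])
  | 12 => (2, S.perPiece fun i => [(-(S.scale * tag i), S.boxWin (S.pieceAt i).dst)])
  | _ => (0, [])

/-- A point given in units. -/
def pt (a b c : ℝ) : Fin 3 → ℝ := fun i => (S.scale : ℝ) * ![a, b, c] i

theorem pt_zero (a b c : ℝ) : S.pt a b c 0 = (S.scale : ℝ) * a := rfl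
theorem pt_one (a b c : ℝ) : S.pt a b c 1 = (S.scale : ℝ) * b := rfl
theorem pt_two (a b c : ℝ) : S.pt a b c 2 = (S.scale : ℝ) * c := rfl

theorem tagWin_valid (k : ℕ) (ax : Fin 3) (τ : ℚ) : (S.tagWin k ax τ).2.Valid :=
  winBump_valid k (mul_pos S.scale_pos S.gap_pos)
    (mul_le_mul_of_nonneg_left (by linarith) S.scale_pos.le)

theorem boxWin_valid {B : Box} (h : B.InUnit) : ∀ e ∈ S.boxWin B, e.2.Valid ∧ e.1 ≠ 2 := by
  obtain ⟨_, hx, _, _, hy, _⟩ := h
  intro e he
  simp only [boxWin, List.mem_cons, List.not_mem_nil, or_false] at he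
  rcases he with rfl | rfl
  · exact ⟨winBump_valid 0 (mul_pos S.scale_pos S.gap_pos)
      (mul_le_mul_of_nonneg_left hx S.scale_pos.le), by simp [win]⟩
  · exact ⟨winBump_valid 0 (mul_pos S.scale_pos S.gap_pos)
      (mul_le_mul_of_nonneg_left hy S.scale_pos.le), by simp [win]⟩

theorem stage_ok (j : ℕ) : (S.stage j).Ok := by
  have hs : ∀ i, i < S.nP → (S.pieceAt i).src.InUnit := fun i hi =>
    S.src_unit _ (S.pieceAt_mem hi)
  have hd : ∀ i, i < S.nP → (S.pieceAt i).dst.InUnit := fun i hi =>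
    S.dst_unit _ (S.pieceAt_mem hi)
  unfold Shear.Ok Mono.Ok
  intro m hm
  match j with
  | 0 =>
    simp only [stage, perPiece, List.mem_append, List.mem_flatMap, List.mem_range,
      List.mem_cons, List.not_mem_nil, or_false] at hm
    rcases hm with ⟨i, hi, rfl⟩ | ⟨i, hi, rfl⟩
    · exact S.boxWin_valid (hs i hi)
    · exact S.boxWin_valid (S.halt_unit _ (S.haltAt_mem hi))
  | 12 =>
    simp only [stage, perPiece, List.mem_flatMap, List.mem_range,
      List.mem_cons, List.not_mem_nil, or_false] at hm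
    obtain ⟨i, hi, rfl⟩ := hm
    exact S.boxWin_valid (hd i hi)
  | 1 | 2 | 3 | 10 | 11 =>
    simp only [stage, perPiece, List.mem_flatMap, List.mem_range,
      List.mem_cons, List.not_mem_nil, or_false] at hm
    first | obtain ⟨i, hi, rfl⟩ := hm | subst hm
    all_goals
      intro e he
      simp only [List.mem_cons, List.not_mem_nil, or_false] at he
      subst he
      exact ⟨S.tagWin_valid _ _ _, by simp [stage, tagWin, win]⟩
  | 4 | 5 | 6 | 7 | 8 | 9 =>
    simp only [stage, perPiece, List.mem_flatMap, List.mem_range,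
      List.mem_cons, List.not_mem_nil, or_false] at hm
    obtain ⟨i, hi, rfl | rfl⟩ := hm <;> intro e he <;>
      simp only [List.mem_cons, List.not_mem_nil, or_false] at he <;> subst he <;>
      exact ⟨S.tagWin_valid _ _ _, by simp [stage, tagWin, win]⟩
  | n + 13 => simp [stage] at hm

/-! ### Values of windows -/

theorem tag_bound {i : ℕ} (hi : i < S.nP) : 4 ≤ tag i ∧ tag i ≤ 4 * (S.nP : ℚ) := by
  have : (i : ℚ) + 1 ≤ S.nP := by exact_mod_cast hi
  unfold tag
  constructor <;> linarith [(Nat.cast_nonneg i : (0 : ℚ) ≤ (i : ℚ))]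

theorem win_in (k : ℕ) (ax : Fin 3) {lo hi : ℚ} (h0 : -(4 * (S.nP : ℚ) + 7) ≤ lo)
    (h1 : hi ≤ 4 * (S.nP : ℚ) + 7) {u : ℝ} (hl : (lo : ℝ) ≤ u) (hu : u ≤ hi) :
    periodize (S.win k ax lo hi).2.fn ((S.scale : ℝ) * u) / kappa =
      ((S.scale : ℝ) * u) ^ k := by
  have hε : (0 : ℝ) ≤ (S.scale : ℝ) := by exact_mod_cast S.scale_pos.le
  have hg := S.gap_le_one
  refine periodize_winBump_inside k (mul_pos S.scale_pos S.gap_pos) ?_ ?_ ?_ ?_
  · nlinarith [S.scale_bound, S.scale_pos]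
  · nlinarith [S.scale_bound, S.scale_pos]
  · push_cast; exact mul_le_mul_of_nonneg_left hl hε
  · push_cast; exact mul_le_mul_of_nonneg_left hu hε

theorem win_out (k : ℕ) (ax : Fin 3) {lo hi : ℚ} (h : lo ≤ hi)
    (h0 : -(4 * (S.nP : ℚ) + 7) ≤ lo) (h1 : hi ≤ 4 * (S.nP : ℚ) + 7) {u : ℝ}
    (hb : |u| ≤ 4 * (S.nP : ℝ) + 7) (ho : u ≤ (lo : ℝ) - S.gap ∨ (hi : ℝ) + S.gap ≤ u) :
    periodize (S.win k ax lo hi).2.fn ((S.scale : ℝ) * u) / kappa = 0 := by
  have hε : (0 : ℝ) ≤ (S.scale : ℝ) := by exact_mod_cast S.scale_pos.le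
  have hsb : (S.scale : ℝ) * (4 * (S.nP : ℝ) + 8) = 1 / 10 := by
    have := congrArg (fun q : ℚ => (q : ℝ)) S.scale_bound
    simpa using this
  refine periodize_winBump_outside k (mul_pos S.scale_pos S.gap_pos)
    (mul_le_mul_of_nonneg_left h S.scale_pos.le) ?_ ?_ ?_ ?_
  · nlinarith [S.scale_bound, S.scale_pos, S.gap_le_one]
  · nlinarith [S.scale_bound, S.scale_pos, S.gap_le_one]
  · rw [abs_mul, abs_of_nonneg hε]
    nlinarith
  · push_cast
    rcases ho with ho | ho
    · left; nlinarith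
    · right; nlinarith

theorem tagWin_in (k : ℕ) (ax : Fin 3) {i : ℕ} (hi : i < S.nP) {u : ℝ} (h1 : 0 ≤ u) (h2 : u ≤ 1) :
    periodize (S.tagWin k ax (tag i)).2.fn ((S.scale : ℝ) * ((tag i : ℝ) + u)) / kappa =
      ((S.scale : ℝ) * ((tag i : ℝ) + u)) ^ k := by
  have hb := S.tag_bound hi
  refine S.win_in k ax ?_ ?_ ?_ ?_
  · linarith
  · linarith
  · push_cast; linarith
  · push_cast; linarith

theorem tagWin_out (k : ℕ) (ax : Fin 3) {i j : ℕ} (hi : i < S.nP) (hj : j < S.nP) (h : j ≠ i)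
    {u : ℝ} (h1 : 0 ≤ u) (h2 : u ≤ 1) :
    periodize (S.tagWin k ax (tag j)).2.fn ((S.scale : ℝ) * ((tag i : ℝ) + u)) / kappa = 0 := by
  have hb := S.tag_bound hi
  have hbj := S.tag_bound hj
  have hbr : (4 : ℝ) ≤ (tag i : ℝ) ∧ (tag i : ℝ) ≤ 4 * (S.nP : ℝ) := by
    refine ⟨by exact_mod_cast hb.1, ?_⟩
    have := (Rat.cast_le (K := ℝ)).2 hb.2
    simpa using this
  have hg : ((S.gap : ℚ) : ℝ) ≤ 1 := by exact_mod_cast S.gap_le_one
  refine S.win_out k ax (by linarith) (by linarith) (by linarith) ?_ ?_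
  · rw [abs_le]; constructor <;> linarith
  · simp only [tag]
    push_cast
    rcases lt_or_gt_of_ne h with h | h
    · right
      have : (j : ℝ) + 1 ≤ i := by exact_mod_cast h
      linarith
    · left
      have : (i : ℝ) + 1 ≤ j := by exact_mod_cast h
      linarith

theorem tagWin_zero (k : ℕ) (ax : Fin 3) {j : ℕ} (hj : j < S.nP) {u : ℝ}
    (h1 : -4 ≤ u) (h2 : u ≤ 1) :
    periodize (S.tagWin k ax (tag j)).2.fn ((S.scale : ℝ) * u) / kappa = 0 := by
  have hbj := S.tag_bound hj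
  have hbr : (4 : ℝ) ≤ (tag j : ℝ) := by exact_mod_cast hbj.1
  have hg : ((S.gap : ℚ) : ℝ) ≤ 1 := by exact_mod_cast S.gap_le_one
  have hn : (0 : ℝ) ≤ S.nP := Nat.cast_nonneg _
  refine S.win_out k ax (by linarith) (by linarith) (by linarith) ?_ ?_
  · rw [abs_le]; constructor <;> linarith
  · left; push_cast; linarith

theorem boxWin_in {B : Box} (h : B.InUnit) {x y c : ℝ} (hm : B.Mem (x, y)) :
    ((S.boxWin B).map fun e => periodize e.2.fn (S.pt x y c e.1) / kappa).prod = 1 := by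
  obtain ⟨a1, a2, a3, a4, a5, a6⟩ := h
  obtain ⟨m1, m2, m3, m4⟩ := hm
  have hn : (0 : ℚ) ≤ S.nP := Nat.cast_nonneg _
  simp only [boxWin, List.map_cons, List.map_nil, List.prod_cons, List.prod_nil, mul_one]
  have e1 : (S.win 0 0 B.xlo B.xhi).1 = 0 := rfl
  have e2 : (S.win 0 1 B.ylo B.yhi).1 = 1 := rfl
  rw [e1, e2, pt_zero, pt_one, S.win_in 0 0 (by linarith) (by linarith) m1 m2,
    S.win_in 0 1 (by linarith) (by linarith) m3 m4]
  simp

theorem boxWin_out {B C : Box} (hB : B.InUnit) (hC : C.InUnit) {x y c : ℝ} (hm : C.Mem (x, y))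
    (hsep : B.SepBy S.gap C) :
    ((S.boxWin B).map fun e => periodize e.2.fn (S.pt x y c e.1) / kappa).prod = 0 := by
  obtain ⟨a1, a2, a3, a4, a5, a6⟩ := hB
  obtain ⟨c1, c2, c3, c4, c5, c6⟩ := hC
  obtain ⟨m1, m2, m3, m4⟩ := hm
  simp only at m1 m2 m3 m4
  have hn : (0 : ℚ) ≤ S.nP := Nat.cast_nonneg _
  have hn' : (0 : ℝ) ≤ S.nP := Nat.cast_nonneg _
  have hx : |x| ≤ 4 * (S.nP : ℝ) + 7 := by
    have : (0 : ℝ) ≤ C.xlo := by exact_mod_cast c1
    have : (C.xhi : ℝ) ≤ 1 := by exact_mod_cast c3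
    rw [abs_le]; constructor <;> linarith
  have hy : |y| ≤ 4 * (S.nP : ℝ) + 7 := by
    have : (0 : ℝ) ≤ C.ylo := by exact_mod_cast c4
    have : (C.yhi : ℝ) ≤ 1 := by exact_mod_cast c6
    rw [abs_le]; constructor <;> linarith
  simp only [boxWin, List.map_cons, List.map_nil, List.prod_cons, List.prod_nil, mul_one]
  have e1 : (S.win 0 0 B.xlo B.xhi).1 = 0 := rfl
  have e2 : (S.win 0 1 B.ylo B.yhi).1 = 1 := rfl
  rw [e1, e2, pt_zero, pt_one]
  rcases hsep with h | h | h | h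
  · have : (B.xhi : ℝ) + S.gap ≤ C.xlo := by exact_mod_cast h
    rw [S.win_out 0 0 a2 (by linarith) (by linarith) hx (Or.inr (by linarith)), zero_mul]
  · have : (C.xhi : ℝ) + S.gap ≤ B.xlo := by exact_mod_cast h
    rw [S.win_out 0 0 a2 (by linarith) (by linarith) hx (Or.inl (by linarith)), zero_mul]
  · have : (B.yhi : ℝ) + S.gap ≤ C.ylo := by exact_mod_cast h
    rw [S.win_out 0 1 a5 (by linarith) (by linarith) hy (Or.inr (by linarith)), mul_zero]
  · have : (C.yhi : ℝ) + S.gap ≤ B.ylo := by exact_mod_cast h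
    rw [S.win_out 0 1 a5 (by linarith) (by linarith) hy (Or.inl (by linarith)), mul_zero]

/-! ### One period on a piece -/

theorem amount_perPiece (k : Fin 3) (φ : ℕ → List Mono) (x : Fin 3 → ℝ) {i : ℕ} (hi : i < S.nP)
    (h : ∀ j < S.nP, j ≠ i → ∀ m ∈ φ j, m.fn x = 0) :
    Shear.amount (k, S.perPiece φ) x = ((φ i).map fun m => m.fn x).sum := by
  simp only [Shear.amount, perPiece, list_sum_flatMap]
  refine list_sum_range_single hi (fun j => ((φ j).map fun m => m.fn x).sum) fun j hj hne => ?_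
  refine List.sum_eq_zero fun r hr => ?_
  obtain ⟨m, hm, rfl⟩ := List.mem_map.1 hr
  exact h j hj hne m hm

theorem amount_perPiece_zero (k : Fin 3) (φ : ℕ → List Mono) (x : Fin 3 → ℝ)
    (h : ∀ j < S.nP, ∀ m ∈ φ j, m.fn x = 0) : Shear.amount (k, S.perPiece φ) x = 0 := by
  simp only [Shear.amount, perPiece, list_sum_flatMap]
  refine list_sum_range_zero (fun j => ((φ j).map fun m => m.fn x).sum) fun j hj => ?_
  refine List.sum_eq_zero fun r hr => ?_
  obtain ⟨m, hm, rfl⟩ := List.mem_map.1 hr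
  exact h j hj m hm

theorem mono_tagWin (q : ℚ) (k : ℕ) (ax : Fin 3) (τ : ℚ) (x : Fin 3 → ℝ) :
    Mono.fn (q, [S.tagWin k ax τ]) x =
      (q : ℝ) * (periodize (S.tagWin k ax τ).2.fn (x ax) / kappa) := by
  simp [Mono.fn, tagWin, win]

theorem move_pt0 {T : Shear} (hax : T.1 = 0) {a b c a' : ℝ}
    (h : T.amount (S.pt a b c) = (S.scale : ℝ) * (a' - a)) :
    T.move (S.pt a b c) = S.pt a' b c := by
  funext i
  fin_cases i <;> simp [Shear.move, hax, h, pt] <;> ring

theorem move_pt1 {T : Shear} (hax : T.1 = 1) {a b c b' : ℝ}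
    (h : T.amount (S.pt a b c) = (S.scale : ℝ) * (b' - b)) :
    T.move (S.pt a b c) = S.pt a b' c := by
  funext i
  fin_cases i <;> simp [Shear.move, hax, h, pt] <;> ring

theorem move_pt2 {T : Shear} (hax : T.1 = 2) {a b c c' : ℝ}
    (h : T.amount (S.pt a b c) = (S.scale : ℝ) * (c' - c)) :
    T.move (S.pt a b c) = S.pt a b c' := by
  funext i
  fin_cases i <;> simp [Shear.move, hax, h, pt] <;> ring

/-- A shear made of one weight times the window of each tag, evaluated at tag `i` plus `u`. -/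
theorem amount_tag1 (k ax : Fin 3) (q : ℕ → ℚ) {i : ℕ} (hi : i < S.nP) (x : Fin 3 → ℝ) {u : ℝ}
    (h1 : 0 ≤ u) (h2 : u ≤ 1) (hx : x ax = (S.scale : ℝ) * ((tag i : ℝ) + u)) :
    Shear.amount (k, S.perPiece fun j => [(q j, [S.tagWin 0 ax (tag j)])]) x = q i := by
  rw [S.amount_perPiece k _ x hi fun j hj hne m hm => ?_]
  · simp [mono_tagWin, hx, S.tagWin_in 0 ax hi h1 h2]
  · simp only [List.mem_cons, List.not_mem_nil, or_false] at hm
    subst hm
    simp [mono_tagWin, hx, S.tagWin_out 0 ax hi hj hne h1 h2]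

/-- A shear affine near each tag, evaluated at tag `i` plus `u`. -/
theorem amount_tag2 (k ax : Fin 3) (p q : ℕ → ℚ) {i : ℕ} (hi : i < S.nP) (x : Fin 3 → ℝ) {u : ℝ}
    (h1 : 0 ≤ u) (h2 : u ≤ 1) (hx : x ax = (S.scale : ℝ) * ((tag i : ℝ) + u)) :
    Shear.amount (k, S.perPiece fun j =>
        [(p j, [S.tagWin 1 ax (tag j)]), (q j, [S.tagWin 0 ax (tag j)])]) x =
      (p i : ℝ) * ((S.scale : ℝ) * ((tag i : ℝ) + u)) + q i := by
  rw [S.amount_perPiece k _ x hi fun j hj hne m hm => ?_]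
  · simp [mono_tagWin, hx, S.tagWin_in 0 ax hi h1 h2, S.tagWin_in 1 ax hi h1 h2]
  · simp only [List.mem_cons, List.not_mem_nil, or_false] at hm
    rcases hm with rfl | rfl <;> simp [mono_tagWin, hx, S.tagWin_out _ ax hi hj hne h1 h2]

/-- The unit vectors `![a,b,c]` visited during one period on the piece `π` with tag `τ`. -/
def phasePts (π : Piece) (τ : ℚ) (x y : ℝ) : List (ℝ × ℝ × ℝ) :=
  let x' := (π.a : ℝ) * x + π.b
  let y' := (π.c : ℝ) * y + π.d
  let t : ℝ := (τ : ℝ)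
  [(x, y, 0), (x, y, t), (x, y, t), (t + x, y, t), (t + x, t + y, t), (t + x, t + y, t + x),
    (t + x', t + y, t + x), (t + x', t + y, t), (t + x', t + y, t + y), (t + x', t + y', t + y),
    (t + x', t + y', t), (x', t + y', t), (x', y', t), (x', y', 0)]

/-- The `j`-th point of a period. -/
def phasePt (π : Piece) (τ : ℚ) (x y : ℝ) (j : ℕ) : Fin 3 → ℝ :=
  let r := (phasePts π τ x y).getD j (0, 0, 0)
  S.pt r.1 r.2.1 r.2.2

theorem mem_unit {B : Box} (h : B.InUnit) {x y : ℝ} (hm : B.Mem (x, y)) :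
    0 ≤ x ∧ x ≤ 1 ∧ 0 ≤ y ∧ y ≤ 1 := by
  obtain ⟨a1, _, a3, a4, _, a6⟩ := h
  obtain ⟨m1, m2, m3, m4⟩ := hm
  exact ⟨(by exact_mod_cast a1 : (0 : ℝ) ≤ B.xlo).trans m1,
    m2.trans (by exact_mod_cast a3 : (B.xhi : ℝ) ≤ 1),
    (by exact_mod_cast a4 : (0 : ℝ) ≤ B.ylo).trans m3,
    m4.trans (by exact_mod_cast a6 : (B.yhi : ℝ) ≤ 1)⟩

theorem map_mem_dst {π : Piece} (hπ : π ∈ S.pieces) {x y : ℝ} (hm : π.src.Mem (x, y)) :
    π.dst.Mem ((π.a : ℝ) * x + π.b, (π.c : ℝ) * y + π.d) := by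
  obtain ⟨ha, hc⟩ := S.slope_pos π hπ
  have ha' : (0 : ℝ) ≤ π.a := by exact_mod_cast ha.le
  have hc' : (0 : ℝ) ≤ π.c := by exact_mod_cast hc.le
  obtain ⟨m1, m2, m3, m4⟩ := hm
  simp only [Box.Mem, Piece.dst]
  push_cast
  exact ⟨by nlinarith, by nlinarith, by nlinarith, by nlinarith⟩

theorem phase_step {i : ℕ} (hi : i < S.nP) {x y : ℝ} (hm : (S.pieceAt i).src.Mem (x, y)) {j : ℕ}
    (hj : j < 13) :
    (S.stage j).move (S.phasePt (S.pieceAt i) (tag i) x y j) =
      S.phasePt (S.pieceAt i) (tag i) x y (j + 1) := by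
  set π := S.pieceAt i with hπdef
  have hπ : π ∈ S.pieces := S.pieceAt_mem hi
  obtain ⟨hx0, hx1, hy0, hy1⟩ := mem_unit (S.src_unit π hπ) hm
  have hm' := S.map_mem_dst hπ hm
  obtain ⟨hx0', hx1', hy0', hy1'⟩ := mem_unit (S.dst_unit π hπ) hm'
  obtain ⟨ha, hc⟩ := S.slope_pos π hπ
  have ha' : (π.a : ℝ) ≠ 0 := by exact_mod_cast ha.ne'
  have hc' : (π.c : ℝ) ≠ 0 := by exact_mod_cast hc.ne'
  have hbi := S.tag_bound hi
  have hbr : (4 : ℝ) ≤ (tag i : ℝ) := by exact_mod_cast hbi.1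
  have hz : ∀ p q : ℝ, (S.pt p q (tag i : ℝ)) 2 = (S.scale : ℝ) * ((tag i : ℝ) + 0) := fun p q => by
    rw [pt_two, add_zero]
  interval_cases j <;>
    simp only [phasePt, phasePts, List.getD_cons_zero, List.getD_cons_succ, stage]
  · refine S.move_pt2 rfl ?_
    simp only [Shear.amount, List.map_append, List.sum_append]
    have h1 : ((S.perPiece fun j => [(S.scale * tag j, S.boxWin (S.pieceAt j).src)]).map
        fun m => Mono.fn m (S.pt x y 0)).sum = (S.scale : ℝ) * tag i := by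
      have := S.amount_perPiece 2 (fun j => [(S.scale * tag j, S.boxWin (S.pieceAt j).src)])
        (S.pt x y 0) hi fun k hk hne m hmem => by
          simp only [List.mem_cons, List.not_mem_nil, or_false] at hmem
          subst hmem
          rw [Mono.fn, S.boxWin_out (S.src_unit _ (S.pieceAt_mem hk)) (S.src_unit π hπ) hm
            (S.src_gap hk hi hne), mul_zero]
      simp only [Shear.amount] at this
      rw [this]
      simp [Mono.fn, ← hπdef, S.boxWin_in (S.src_unit π hπ) hm]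
    rw [h1, list_sum_flatMap, list_sum_range_zero _ fun k hk => by
      simp [Mono.fn, S.boxWin_out (S.halt_unit _ (S.haltAt_mem hk)) (S.src_unit π hπ) hm
        (S.src_halt_gap hi hk).symm]]
    ring
  · refine S.move_pt1 rfl ?_
    simp only [Shear.amount, List.map_cons, List.map_nil, List.sum_cons, List.sum_nil, mono_tagWin,
      pt_two]
    have hn : (0 : ℚ) ≤ S.nP := Nat.cast_nonneg _
    have hg : ((S.gap : ℚ) : ℝ) ≤ 1 := by exact_mod_cast S.gap_le_one
    have htn : (tag i : ℝ) ≤ 4 * (S.nP : ℝ) := by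
      simpa using (Rat.cast_le (K := ℝ)).2 hbi.2
    rw [show periodize (S.tagWin 0 2 (-4)).2.fn ((S.scale : ℝ) * (tag i : ℝ)) / kappa = 0 from
      S.win_out 0 2 (by norm_num) (by linarith) (by linarith)
        (by rw [abs_le]; constructor <;> linarith) (Or.inr (by push_cast; linarith))]
    ring
  · refine S.move_pt0 rfl ?_
    rw [S.amount_tag1 0 2 _ hi _ le_rfl zero_le_one (hz _ _)]
    push_cast; ring
  · refine S.move_pt1 rfl ?_
    rw [S.amount_tag1 1 2 _ hi _ le_rfl zero_le_one (hz _ _)]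
    push_cast; ring
  · refine S.move_pt2 rfl ?_
    rw [S.amount_tag2 2 0 _ _ hi _ hx0 hx1 (S.pt_zero _ _ _)]
    push_cast; ring
  · refine S.move_pt0 rfl ?_
    rw [S.amount_tag2 0 2 _ _ hi _ hx0 hx1 (S.pt_two _ _ _)]
    simp only [← hπdef]
    push_cast; ring
  · refine S.move_pt2 rfl ?_
    rw [S.amount_tag2 2 0 _ _ hi _ hx0' hx1' (S.pt_zero _ _ _)]
    simp only [← hπdef]
    push_cast; field_simp; ring
  · refine S.move_pt2 rfl ?_
    rw [S.amount_tag2 2 1 _ _ hi _ hy0 hy1 (S.pt_one _ _ _)]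
    push_cast; ring
  · refine S.move_pt1 rfl ?_
    rw [S.amount_tag2 1 2 _ _ hi _ hy0 hy1 (S.pt_two _ _ _)]
    simp only [← hπdef]
    push_cast; ring
  · refine S.move_pt2 rfl ?_
    rw [S.amount_tag2 2 1 _ _ hi _ hy0' hy1' (S.pt_one _ _ _)]
    simp only [← hπdef]
    push_cast; field_simp; ring
  · refine S.move_pt0 rfl ?_
    rw [S.amount_tag1 0 2 _ hi _ le_rfl zero_le_one (hz _ _)]
    push_cast; ring
  · refine S.move_pt1 rfl ?_
    rw [S.amount_tag1 1 2 _ hi _ le_rfl zero_le_one (hz _ _)]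
    push_cast; ring
  · refine S.move_pt2 rfl ?_
    rw [S.amount_perPiece 2 _ _ hi fun k hk hne m hmem => ?_]
    · simp [Mono.fn, ← hπdef, S.boxWin_in (S.dst_unit π hπ) hm']
    · simp only [List.mem_cons, List.not_mem_nil, or_false] at hmem
      subst hmem
      rw [Mono.fn, S.boxWin_out (S.dst_unit _ (S.pieceAt_mem hk)) (S.dst_unit π hπ) hm'
        (S.dst_gap hk hi hne), mul_zero]

theorem phasePt_abs {i : ℕ} (hi : i < S.nP) {x y : ℝ} (hm : (S.pieceAt i).src.Mem (x, y)) {j : ℕ}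
    (hj : j ≤ 13) : |S.phasePt (S.pieceAt i) (tag i) x y j 1| ≤ 1 / 10 := by
  have hπ : S.pieceAt i ∈ S.pieces := S.pieceAt_mem hi
  obtain ⟨hx0, hx1, hy0, hy1⟩ := mem_unit (S.src_unit _ hπ) hm
  obtain ⟨hx0', hx1', hy0', hy1'⟩ := mem_unit (S.dst_unit _ hπ) (S.map_mem_dst hπ hm)
  have hbi := S.tag_bound hi
  have hbr : (4 : ℝ) ≤ (tag i : ℝ) := by exact_mod_cast hbi.1
  have htn : (tag i : ℝ) ≤ 4 * (S.nP : ℝ) := by simpa using (Rat.cast_le (K := ℝ)).2 hbi.2
  have hε : (0 : ℝ) ≤ (S.scale : ℝ) := by exact_mod_cast S.scale_pos.le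
  have hsb : (S.scale : ℝ) * (4 * (S.nP : ℝ) + 8) = 1 / 10 := by
    have := congrArg (fun q : ℚ => (q : ℝ)) S.scale_bound
    simpa using this
  have key : ∀ u : ℝ, 0 ≤ u → u ≤ 4 * (S.nP : ℝ) + 8 → |(S.scale : ℝ) * u| ≤ 1 / 10 := by
    intro u h0 h1
    rw [abs_of_nonneg (mul_nonneg hε h0), ← hsb]
    exact mul_le_mul_of_nonneg_left h1 hε
  interval_cases j <;>
    simp only [phasePt, phasePts, List.getD_cons_zero, List.getD_cons_succ, pt_one] <;>
    exact key _ (by linarith) (by linarith)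

/-! ### The first two shears on a halting box -/

theorem halt_step0 {i : ℕ} (hi : i < S.nH) {x y : ℝ} (hm : (S.haltAt i).Mem (x, y)) :
    (S.stage 0).move (S.pt x y 0) = S.pt x y (-4) := by
  have hB : (S.haltAt i).InUnit := S.halt_unit _ (S.haltAt_mem hi)
  refine S.move_pt2 rfl ?_
  simp only [stage, Shear.amount, List.map_append, List.sum_append]
  have h1 : ((S.perPiece fun j => [(S.scale * tag j, S.boxWin (S.pieceAt j).src)]).map
      fun m => Mono.fn m (S.pt x y 0)).sum = 0 := by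
    have := S.amount_perPiece_zero 2 (fun j => [(S.scale * tag j, S.boxWin (S.pieceAt j).src)])
      (S.pt x y 0) fun k hk m hmem => by
        simp only [List.mem_cons, List.not_mem_nil, or_false] at hmem
        subst hmem
        rw [Mono.fn, S.boxWin_out (S.src_unit _ (S.pieceAt_mem hk)) hB hm
          (S.src_halt_gap hk hi), mul_zero]
    simpa only [Shear.amount] using this
  rw [h1, list_sum_flatMap, list_sum_range_single hi _ fun k hk hne => by
    simp [Mono.fn, S.boxWin_out (S.halt_unit _ (S.haltAt_mem hk)) hB hm (S.halt_gap hk hi hne)]]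
  simp [Mono.fn, S.boxWin_in hB hm]

theorem halt_step1 (x y : ℝ) : (S.stage 1).move (S.pt x y (-4)) 1 = (S.scale : ℝ) * y + 1 / 2 := by
  have hn : (0 : ℚ) ≤ S.nP := Nat.cast_nonneg _
  have hwin : periodize (S.tagWin 0 2 (-4)).2.fn ((S.scale : ℝ) * (-4)) / kappa = 1 := by
    have := S.win_in (lo := -4 - 1) (hi := -4 + 1) 0 2 (u := (-4 : ℝ)) (by linarith) (by linarith)
      (by norm_num) (by norm_num)
    simpa [tagWin] using this
  have hamt : (S.stage 1).amount (S.pt x y (-4)) = 1 / 2 := by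
    show ([((1 / 2 : ℚ), [S.tagWin 0 2 (-4)])].map fun m => Mono.fn m (S.pt x y (-4))).sum = _
    rw [List.map_cons, List.map_nil, List.sum_cons, List.sum_nil, mono_tagWin, pt_two, hwin]
    norm_num
  show Function.update (S.pt x y (-4)) 1 (S.pt x y (-4) 1 + (S.stage 1).amount (S.pt x y (-4))) 1 = _
  rw [Function.update_self, pt_one, hamt]

end Planar

end

end Vale.Agent.P113
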