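import Vale.Agent.P113.Forcing
import Vale.Agent.P113.Slots
import Vale.Agent.P113.Stages

/-!
The velocity field of a planar system with parameter `n`, and the trajectory of the origin.
-/

namespace Vale.Agent.P113

open Set Filter Topology
open scoped ContDiff

noncomputable section

/-! ### Time factors -/

/-- The bump of the `j`-th slot of a period of thirteen slots. -/
def rateBump (j : ℕ) : Bump :=
  (0, Sum.inl 0, RatData.mk' 52, RatData.mk' (4 * (j : ℚ) + 2))

/-- The switch: `kappa` on `[0,1]`, zero from `53/52` on. -/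
def switchBump : Bump :=
  (0, Sum.inr (RatData.mk' 106), RatData.mk' 104, RatData.mk' (-1))

/-- Periodic term of a slot. -/
def periodicSlot (j : ℕ) : Term :=
  ((RatData.mk' 52, 0, -1, []), [(true, rateBump j)], [], [], [])

/-- The transient term cancelling a periodic slot during the first period. -/
def cancelSlot (j : ℕ) : Term :=
  ((RatData.mk' (-52), 0, -2, []), [(true, rateBump j), (false, switchBump)], [], [], [])

/-- The transient term of a slot of the first period. -/
def inputSlot (j : ℕ) : Term :=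
  ((RatData.mk' 52, 0, -1, []), [(false, rateBump j)], [], [], [])

theorem rateBump_valid (j : ℕ) : (rateBump j).Valid :=
  ⟨by simp [rateBump, val_mk'], fun l hl => by simp [rateBump] at hl⟩

theorem switchBump_valid : switchBump.Valid :=
  ⟨by simp [switchBump, val_mk'], fun l hl => by
    simp only [switchBump, Sum.inr.injEq] at hl; subst hl; simp [val_mk']⟩

theorem periodicSlot_valid (j : ℕ) : (periodicSlot j).Valid := by
  refine ⟨fun r hr => by simp [periodicSlot] at hr, fun e he => ?_, fun i g hg => ?_⟩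
  · simp only [periodicSlot, List.mem_cons, List.not_mem_nil, or_false] at he
    subst he; exact rateBump_valid j
  · fin_cases i <;> simp [periodicSlot, Term.space] at hg

theorem cancelSlot_valid (j : ℕ) : (cancelSlot j).Valid := by
  refine ⟨fun r hr => by simp [cancelSlot] at hr, fun e he => ?_, fun i g hg => ?_⟩
  · simp only [cancelSlot, List.mem_cons, List.not_mem_nil, or_false] at he
    rcases he with rfl | rfl
    exacts [rateBump_valid j, switchBump_valid]
  · fin_cases i <;> simp [cancelSlot, Term.space] at hg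

theorem inputSlot_valid (j : ℕ) : (inputSlot j).Valid := by
  refine ⟨fun r hr => by simp [inputSlot] at hr, fun e he => ?_, fun i g hg => ?_⟩
  · simp only [inputSlot, List.mem_cons, List.not_mem_nil, or_false] at he
    subst he; exact rateBump_valid j
  · fin_cases i <;> simp [inputSlot, Term.space] at hg

theorem rateBump_fn (j : ℕ) (s : ℝ) : (rateBump j).fn s = rho (52 * s - (4 * (j : ℝ) + 2)) := by
  rw [bump_fn_eq]; simp [rateBump, shapeFun, rv, val_mk']

theorem switchBump_fn (s : ℝ) : switchBump.fn s = piF 106 (104 * s + 1) := by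
  rw [bump_fn_eq]; simp [switchBump, shapeFun, rv, val_mk']

theorem rateBump_rate (j : ℕ) (t : ℝ) : 52 / kappa * (rateBump j).fn t = slotRate 13 j t := by
  rw [rateBump_fn, slotRate]; norm_num

theorem periodic_rate {j e : ℕ} (hj : j < 13) {t : ℝ} (h1 : (e : ℝ) ≤ 13 * t)
    (h2 : 13 * t ≤ (e : ℝ) + 1) :
    52 / kappa * periodize (rateBump j).fn t = if e % 13 = j then slotRate 13 e t else 0 := by
  have h : ∀ m : ℤ, (j : ℤ) - 13 * m ≠ e → (rateBump j).fn (t + m) = 0 := by
    intro m hm
    rw [rateBump_fn, show 52 * (t + (m : ℝ)) - (4 * (j : ℝ) + 2) =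
      4 * ((13 : ℕ) : ℝ) * t - (4 * (((j : ℤ) - 13 * m : ℤ) : ℝ) + 2) by push_cast; ring]
    refine rho_slot_eq_zero ?_
    rcases lt_or_gt_of_ne hm with hlt | hlt
    · right
      have h3 : (((j : ℤ) - 13 * m : ℤ) : ℝ) + 1 ≤ (e : ℝ) := by exact_mod_cast hlt
      push_cast at h3 ⊢; linarith
    · left
      have h3 : (e : ℝ) + 1 ≤ (((j : ℤ) - 13 * m : ℤ) : ℝ) := by exact_mod_cast hlt
      push_cast at h3 ⊢; linarith
  by_cases hj' : e % 13 = j
  · rw [if_pos hj', periodize, tsum_eq_single (-((e / 13 : ℕ) : ℤ)) fun m hm => h m (by omega),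
      rateBump_fn, slotRate]
    have he : (e : ℝ) = 13 * ((e / 13 : ℕ) : ℝ) + j := by
      exact_mod_cast show e = 13 * (e / 13) + j by omega
    obtain ⟨q, hq⟩ : ∃ q, q = e / 13 := ⟨_, rfl⟩
    rw [he, ← hq]
    push_cast
    ring_nf
  · rw [if_neg hj', periodize, tsum_eq_single (0 : ℤ) fun m _ => h m (by omega), h 0 (by omega),
      mul_zero]

theorem switch_first {t : ℝ} (h0 : 0 ≤ t) (h1 : t ≤ 1) : switchBump.fn t / kappa = 1 := by
  rw [switchBump_fn, piF_plateau (by linarith) (by linarith), div_self kappa_ne]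

theorem switch_later {e : ℕ} (he : 13 ≤ e) (t : ℝ) :
    slotRate 13 e t * switchBump.fn t = 0 := by
  have he' : (13 : ℝ) ≤ e := by exact_mod_cast he
  rcases le_total (52 * t) 53 with h | h
  · rw [slotRate, rho_eq_zero (s := 4 * ((13 : ℕ) : ℝ) * t - (4 * (e : ℝ) + 2)) (by
      rw [abs_of_nonpos (by push_cast; linarith)]; push_cast; linarith)]
    ring
  · rw [switchBump_fn, piF_zero_right (by norm_num) (by linarith), mul_zero]

theorem periodicSlot_fn (ν : ℝ) (j : ℕ) (t : ℝ) (x : Fin 3 → ℝ) :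
    (periodicSlot j).fn ν t x = 52 / kappa * periodize (rateBump j).fn t := by
  simp [Term.fn, periodicSlot, Term.space, spaceFactor, Coef.val, timeFactor, val_mk',
    div_eq_mul_inv]

theorem cancelSlot_fn (ν : ℝ) (j : ℕ) (t : ℝ) (x : Fin 3 → ℝ) :
    (cancelSlot j).fn ν t x =
      -(52 / kappa * periodize (rateBump j).fn t * (switchBump.fn t / kappa)) := by
  simp [Term.fn, cancelSlot, Term.space, spaceFactor, Coef.val, timeFactor, val_mk']
  field_simp [kappa_ne]

theorem inputSlot_fn (ν : ℝ) (j : ℕ) (t : ℝ) (x : Fin 3 → ℝ) :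
    (inputSlot j).fn ν t x = slotRate 13 j t := by
  rw [← rateBump_rate]
  simp [Term.fn, inputSlot, Term.space, spaceFactor, Coef.val, timeFactor, val_mk',
    div_eq_mul_inv]

theorem termsFn_shear (ν t : ℝ) (x : Fin 3 → ℝ) (l : List Mono) :
    termsFn ν (l.map Mono.term) t x = (l.map fun m => m.fn x).sum := by
  simp [termsFn, List.map_map, Function.comp_def, Mono.term_fn]

namespace Planar

variable (S : Planar)

/-- The component `k` of the periodic terms together with their first-period cancellation. -/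
def machineComp (k : Fin 3) : List Term :=
  (List.range 13).flatMap fun j =>
    if (S.stage j).1 = k then
      mulTerms [periodicSlot j, cancelSlot j] ((S.stage j).2.map Mono.term)
    else []

/-- A constant monomial as a term of slot `j` of the first period. -/
def inputTerms (j : ℕ) (q : ℚ) : List Term :=
  mulTerms [inputSlot j] [Mono.term (S.scale * q, [])]

/-- The part of the velocity independent of the parameter. -/
def fieldV (A C : ℚ) : Force :=
  (S.inputTerms 0 A ++ S.machineComp 0, S.inputTerms 1 C ++ S.machineComp 1, S.machineComp 2)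

/-- The part of the velocity to be divided by `m^n`. -/
def fieldW (B D : ℚ) : Force := (S.inputTerms 0 B, S.inputTerms 1 D, [])

/-- The shear of slot `e`, with starting point `q` in units. -/
def shearSeq (qx qy : ℚ) (e : ℕ) : Shear :=
  if e < 13 then
    if e = 0 then (0, [(S.scale * qx, [])]) else if e = 1 then (1, [(S.scale * qy, [])]) else (0, [])
  else S.stage (e % 13)

theorem shearSeq_ok (qx qy : ℚ) (e : ℕ) : (S.shearSeq qx qy e).Ok := by
  unfold shearSeq
  split_ifs
  · intro m hm; simp at hm; subst hm; intro x hx; simp at hx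
  · intro m hm; simp at hm; subst hm; intro x hx; simp at hx
  · intro m hm; simp at hm
  · exact S.stage_ok _

theorem inputTerms_valid (j : ℕ) (q : ℚ) : TermsValid (S.inputTerms j q) := by
  refine TermsValid.mulTerms (fun τ hτ => ?_) fun τ hτ => ?_
  · simp at hτ; subst hτ; exact inputSlot_valid j
  · simp at hτ; subst hτ
    exact Mono.term_valid (k := 0) fun e he => by simp at he

theorem machineComp_valid (k : Fin 3) : TermsValid (S.machineComp k) := by
  intro σ hσ
  obtain ⟨j, -, hσ⟩ := List.mem_flatMap.1 hσ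
  split_ifs at hσ with h
  · refine TermsValid.mulTerms (fun τ hτ => ?_) (fun τ hτ => ?_) σ hσ
    · simp at hτ
      rcases hτ with rfl | rfl
      exacts [periodicSlot_valid j, cancelSlot_valid j]
    · obtain ⟨m, hm, rfl⟩ := List.mem_map.1 hτ
      exact Mono.term_valid (S.stage_ok j m hm)
  · simp at hσ

theorem fieldV_valid (A C : ℚ) : ForceValid (S.fieldV A C) := by
  intro i
  fin_cases i
  · exact (S.inputTerms_valid 0 A).append (S.machineComp_valid 0)
  · exact (S.inputTerms_valid 1 C).append (S.machineComp_valid 1)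
  · exact S.machineComp_valid 2

theorem fieldW_valid (B D : ℚ) : ForceValid (S.fieldW B D) := by
  intro i
  fin_cases i
  · exact S.inputTerms_valid 0 B
  · exact S.inputTerms_valid 1 D
  · exact TermsValid.nil

theorem space_times (σ τ : Term) (i : Fin 3) : (σ.times τ).space i = σ.space i ++ τ.space i := by
  fin_cases i <;> rfl

theorem inputTerms_space (j : ℕ) (q : ℚ) (i : Fin 3) :
    ∀ τ ∈ S.inputTerms j q, τ.space i = [] := by
  intro τ hτ
  simp [inputTerms, mulTerms] at hτ
  subst hτ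
  rw [space_times, Mono.term_space]
  fin_cases i <;> simp [inputSlot, Term.space, Mono.facs]

theorem machineComp_space (k : Fin 3) : ∀ τ ∈ S.machineComp k, τ.space k = [] := by
  intro τ hτ
  obtain ⟨j, -, hτ⟩ := List.mem_flatMap.1 hτ
  split_ifs at hτ with h
  · obtain ⟨σ, hσ, hτ⟩ := List.mem_flatMap.1 hτ
    obtain ⟨w, hw, rfl⟩ := List.mem_map.1 hτ
    obtain ⟨m, hm, rfl⟩ := List.mem_map.1 hw
    rw [space_times, Mono.term_space_axis (h ▸ S.stage_ok j m hm)]
    simp at hσ
    rcases hσ with rfl | rfl <;> fin_cases k <;> simp [periodicSlot, cancelSlot, Term.space]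
  · simp at hτ

theorem fieldV_shearForm (A C : ℚ) : ShearForm (S.fieldV A C) := by
  intro i τ hτ
  fin_cases i
  · exact (List.mem_append.1 hτ).elim (S.inputTerms_space 0 A 0 τ) (S.machineComp_space 0 τ)
  · exact (List.mem_append.1 hτ).elim (S.inputTerms_space 1 C 1 τ) (S.machineComp_space 1 τ)
  · exact S.machineComp_space 2 τ hτ

theorem fieldW_shearForm (B D : ℚ) : ShearForm (S.fieldW B D) := by
  intro i τ hτ
  fin_cases i
  · exact S.inputTerms_space 0 B 0 τ hτ
  · exact S.inputTerms_space 1 D 1 τ hτ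
  · simp [fieldW, Force.comp] at hτ

theorem fieldW_transient (B D : ℚ) : Transient (S.fieldW B D) := by
  intro i τ hτ
  fin_cases i <;> simp [fieldW, Force.comp, inputTerms, mulTerms] at hτ <;> subst hτ <;>
    simp [Term.periodic, Term.times, inputSlot]

variable {A B C D : ℚ} {d : ℕ}

theorem inputTerms_fn (ν t : ℝ) (x : Fin 3 → ℝ) (j : ℕ) (q : ℚ) :
    termsFn ν (S.inputTerms j q) t x = slotRate 13 j t * ((S.scale : ℝ) * (q : ℝ)) := by
  rw [inputTerms, termsFn_mulTerms]
  simp [termsFn, inputSlot_fn, Mono.term_fn, Mono.fn]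

theorem machineComp_fn (ν : ℝ) (k : Fin 3) {e : ℕ} {t : ℝ} (h1 : (e : ℝ) ≤ 13 * t)
    (h2 : 13 * t ≤ (e : ℝ) + 1) (x : Fin 3 → ℝ) :
    termsFn ν (S.machineComp k) t x =
      if 13 ≤ e then slotRate 13 e t * (Pi.single (S.stage (e % 13)).1
        ((S.stage (e % 13)).amount x) : Fin 3 → ℝ) k else 0 := by
  rw [machineComp]
  refine (termsFn_flatMap _ _).trans ?_
  have hval : ∀ j < 13,
      termsFn ν (if (S.stage j).1 = k then
        mulTerms [periodicSlot j, cancelSlot j] ((S.stage j).2.map Mono.term) else []) t x =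
      (if e % 13 = j then slotRate 13 e t * (1 - switchBump.fn t / kappa) else 0) *
        (Pi.single (S.stage j).1 ((S.stage j).amount x) : Fin 3 → ℝ) k := by
    intro j hj
    by_cases hk : (S.stage j).1 = k
    · subst hk
      rw [if_pos rfl, termsFn_mulTerms, termsFn_shear, Pi.single_eq_same, Shear.amount]
      congr 1
      simp only [termsFn, List.map_cons, List.map_nil, List.sum_cons, List.sum_nil,
        periodicSlot_fn, cancelSlot_fn, periodic_rate hj h1 h2]
      split_ifs <;> ring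
    · rw [if_neg hk, termsFn_nil, Pi.single_eq_of_ne (Ne.symm hk), mul_zero]
  rw [list_sum_range_single (i := e % 13) (Nat.mod_lt _ (by norm_num)) _ fun j hj hne => by
    rw [hval j hj, if_neg (fun h => hne h.symm), zero_mul]]
  rw [hval _ (Nat.mod_lt _ (by norm_num)), if_pos rfl]
  split_ifs with he
  · congr 1
    rw [mul_sub, mul_one, mul_div_assoc', switch_later he, zero_div, sub_zero]
  · have he' : (e : ℝ) + 1 ≤ 13 := by exact_mod_cast (not_le.1 he : e < 13)
    have h0 : (0 : ℝ) ≤ e := Nat.cast_nonneg _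
    rw [switch_first (by linarith) (by linarith), sub_self, mul_zero, zero_mul]

theorem velocity_performs (ν : ℝ) :
    Performs 13 (S.shearSeq (A + B / d) (C + D / d))
      (velocity ν (S.fieldV A C) (S.fieldW B D) d) := by
  intro e t h1 h2 x
  have h1' : (e : ℝ) ≤ 13 * t := by simpa using h1
  have h2' : 13 * t ≤ (e : ℝ) + 1 := by simpa using h2
  have hr : ∀ j : ℕ, e ≠ j → slotRate 13 j t = 0 := fun j hj =>
    slotRate_other h1 h2 (Ne.symm hj)
  funext i
  fin_cases i
  all_goals
    simp only [velocity, fieldV, fieldW, Force.comp, Matrix.cons_val_zero, Matrix.cons_val_one,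
      Matrix.cons_val, termsFn_append, termsFn_nil, S.inputTerms_fn, S.machineComp_fn ν _ h1' h2',
      Fin.zero_eta, Fin.mk_one, Fin.reduceFinMk, Pi.smul_apply, smul_eq_mul]
    by_cases he : 13 ≤ e
    · have : shearSeq S (A + B / d) (C + D / d) e = S.stage (e % 13) := by
        simp [shearSeq, Nat.not_lt.2 he]
      rw [this, if_pos he]
      simp [hr 0 (by omega), hr 1 (by omega)]
    · rw [if_neg he]
      rcases (show e = 0 ∨ e = 1 ∨ 2 ≤ e by omega) with rfl | rfl | h2e
      · simp [shearSeq, Shear.amount, Mono.fn, hr 1 (by norm_num)]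
        try ring
      · simp [shearSeq, Shear.amount, Mono.fn, hr 0 (by norm_num)]
        try ring
      · have : shearSeq S (A + B / d) (C + D / d) e = (0, []) := by
          simp [shearSeq, Nat.lt_of_not_le he, show e ≠ 0 by omega, show e ≠ 1 by omega]
        rw [this]
        simp [Shear.amount, hr 0 (by omega), hr 1 (by omega)]

theorem velocity_zero (ν : ℝ) (x : Fin 3 → ℝ) :
    velocity ν (S.fieldV A C) (S.fieldW B D) d 0 x = 0 := by
  rw [S.velocity_performs ν 0 0 (by simp) (by simp) x]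
  have : slotRate 13 0 0 = 0 := by
    rw [slotRate, rho_eq_zero (by norm_num), mul_zero]
  rw [this, zero_smul]

/-! ### The trajectory of the origin -/

/-- The target box: `lo`. -/
def boxLo : Fin 3 → ℚ := ![-(1 / 5), 2 / 5, -(1 / 5)]

/-- The target box: `hi`. -/
def boxHi : Fin 3 → ℚ := ![1 / 5, 3 / 5, 1 / 5]

theorem not_mem_box {X : Fin 3 → ℝ} (h : |X 1| ≤ 1 / 10) : X ∉ torusBox boxLo boxHi := by
  rintro ⟨k, hk⟩
  obtain ⟨h1, h2⟩ := hk 1
  simp [boxLo, boxHi] at h1 h2
  obtain ⟨h3, h4⟩ := abs_le.1 h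
  rcases le_or_gt (k 1) 0 with hk1 | hk1
  · have : (k 1 : ℝ) ≤ 0 := by exact_mod_cast hk1
    linarith
  · have : (1 : ℝ) ≤ (k 1 : ℤ) := by exact_mod_cast hk1
    linarith

theorem scale_mul_abs {u : ℝ} (h : |u| ≤ 4 * (S.nP : ℝ) + 8) : |(S.scale : ℝ) * u| ≤ 1 / 10 := by
  have hε : (0 : ℝ) ≤ (S.scale : ℝ) := by exact_mod_cast S.scale_pos.le
  have hsb : (S.scale : ℝ) * (4 * (S.nP : ℝ) + 8) = 1 / 10 := by
    have := congrArg (fun q : ℚ => (q : ℝ)) S.scale_bound
    simpa using this
  rw [abs_mul, abs_of_nonneg hε, ← hsb]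
  exact mul_le_mul_of_nonneg_left h hε

theorem move_empty (k : Fin 3) (x : Fin 3 → ℝ) : Shear.move (k, ([] : List Mono)) x = x := by
  funext i
  simp [Shear.move, Shear.amount]

theorem pts_input (qx qy : ℚ) {e : ℕ} (he : 2 ≤ e) (he' : e ≤ 13) :
    slotPts (S.shearSeq qx qy) 0 e = S.pt qx qy 0 := by
  induction e, he using Nat.le_induction with
  | base =>
    funext i
    fin_cases i <;>
      simp [slotPts_succ, slotPts_zero, shearSeq, Shear.move, Shear.amount, Mono.fn, pt]
  | succ e he ih =>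
    rw [slotPts_succ, ih (by omega)]
    have : S.shearSeq qx qy e = (0, []) := by
      simp [shearSeq, show e < 13 by omega, show e ≠ 0 by omega, show e ≠ 1 by omega]
    rw [this, move_empty]

theorem seq_block (qx qy : ℚ) (k : ℕ) {j : ℕ} (hj : j < 13) :
    S.shearSeq qx qy (13 * (k + 1) + j) = S.stage j := by
  simp [shearSeq, show ¬ (13 * (k + 1) + j < 13) by omega, show (13 * (k + 1) + j) % 13 = j by omega]

theorem pts_block (qx qy : ℚ) (k : ℕ) {i : ℕ} (hi : i < S.nP) {x y : ℝ}
    (hm : (S.pieceAt i).src.Mem (x, y))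
    (h0 : slotPts (S.shearSeq qx qy) 0 (13 * (k + 1)) = S.pt x y 0) :
    ∀ j ≤ 13, slotPts (S.shearSeq qx qy) 0 (13 * (k + 1) + j) =
      S.phasePt (S.pieceAt i) (tag i) x y j
  | 0, _ => by rw [add_zero, h0]; rfl
  | j + 1, hj => by
    rw [← add_assoc, slotPts_succ, pts_block qx qy k hi hm h0 j (by omega),
      S.seq_block qx qy k (by omega), S.phase_step hi hm (by omega)]

theorem pts_orbit (qx qy : ℚ) (o : ℕ → ℝ × ℝ) (h0 : o 0 = ((qx : ℝ), (qy : ℝ))) :
    ∀ n : ℕ, (∀ k < n, S.Step (o k) (o (k + 1))) →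
      slotPts (S.shearSeq qx qy) 0 (13 * (n + 1)) = S.pt (o n).1 (o n).2 0
  | 0, _ => by rw [h0, Nat.zero_add, Nat.mul_one]; exact S.pts_input qx qy (by norm_num) le_rfl
  | n + 1, h => by
    have ih := pts_orbit qx qy o h0 n fun k hk => h k (by omega)
    obtain ⟨π, hπ, hm, hq⟩ := h n (Nat.lt_succ_self n)
    obtain ⟨i, hi, rfl⟩ := S.exists_index hπ
    have := S.pts_block qx qy n hi (x := (o n).1) (y := (o n).2) hm ih 13 le_rfl
    rw [show 13 * (n + 1) + 13 = 13 * (n + 1 + 1) by ring] at this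
    rw [this, hq]
    rfl

theorem reaches_hit (qx qy : ℚ) (h : S.Reaches ((qx : ℝ), (qy : ℝ))) :
    ∃ t : ℝ, 0 ≤ t ∧ slotPath 13 (S.shearSeq qx qy) 0 t ∈ torusBox boxLo boxHi := by
  obtain ⟨o, n, h0, hsteps, Bx, hB, hmem⟩ := h
  obtain ⟨i, hi, rfl⟩ := S.exists_haltIndex hB
  obtain ⟨hx0, hx1, hy0, hy1⟩ := mem_unit (S.halt_unit _ hB) (x := (o n).1) (y := (o n).2) hmem
  have hP : slotPts (S.shearSeq qx qy) 0 (13 * (n + 1) + 1) = S.pt (o n).1 (o n).2 (-4) := by
    rw [slotPts_succ, S.pts_orbit qx qy o h0 n hsteps]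
    have := S.seq_block qx qy n (j := 0) (by norm_num)
    rw [add_zero] at this
    rw [this]
    exact S.halt_step0 hi hmem
  set e := 13 * (n + 1) + 1 with he
  refine ⟨((e : ℝ) + 1) / 13, by positivity, ?_⟩
  have ht : ((13 : ℕ) : ℝ) * (((e : ℝ) + 1) / 13) = (e : ℝ) + 1 := by push_cast; ring
  rw [slotPath_in_slot _ _ (e := e) (by rw [ht]; linarith) ht.le, slotG_after ht.ge, one_mul, hP,
    S.seq_block qx qy n (j := 1) (by norm_num)]
  show (S.stage 1).move (S.pt (o n).1 (o n).2 (-4)) ∈ torusBox boxLo boxHi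
  have hy := S.halt_step1 (o n).1 (o n).2
  have hεy := S.scale_mul_abs (u := (o n).2) (by rw [abs_of_nonneg hy0]; linarith [Nat.cast_nonneg (α := ℝ) S.nP])
  have hεx := S.scale_mul_abs (u := (o n).1) (by rw [abs_of_nonneg hx0]; linarith [Nat.cast_nonneg (α := ℝ) S.nP])
  have hεz := S.scale_mul_abs (u := (-4 : ℝ)) (by norm_num; linarith [Nat.cast_nonneg (α := ℝ) S.nP])
  rw [abs_le] at hεy hεx hεz
  have hax : (S.stage 1).1 = 1 := rfl
  have hx : (S.stage 1).move (S.pt (o n).1 (o n).2 (-4)) 0 = (S.scale : ℝ) * (o n).1 := by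
    rw [Shear.move, Function.update_of_ne (by rw [hax]; decide), pt_zero]
  have hz : (S.stage 1).move (S.pt (o n).1 (o n).2 (-4)) 2 = (S.scale : ℝ) * (-4) := by
    rw [Shear.move, Function.update_of_ne (by rw [hax]; decide), pt_two]
  have hε : (0 : ℝ) ≤ (S.scale : ℝ) := by exact_mod_cast S.scale_pos.le
  have hsb : (S.scale : ℝ) * (4 * (S.nP : ℝ) + 8) = 1 / 10 := by
    have := congrArg (fun q : ℚ => (q : ℝ)) S.scale_bound
    simpa using this
  have hy' : 0 ≤ (S.scale : ℝ) * (o n).2 ∧ (S.scale : ℝ) * (o n).2 ≤ 1 / 80 := by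
    refine ⟨mul_nonneg hε hy0, ?_⟩
    nlinarith [Nat.cast_nonneg (α := ℝ) S.nP]
  refine ⟨0, fun i => ?_⟩
  fin_cases i <;> simp [boxLo, boxHi, hx, hy, hz] <;> constructor <;>
    linarith [hεx.1, hεx.2, hy'.1, hy'.2, hεz.1, hεz.2]

theorem runs_no_hit (qx qy : ℚ) (hq : (0 : ℝ) ≤ qy ∧ (qy : ℝ) ≤ 1)
    (h : S.Runs ((qx : ℝ), (qy : ℝ))) (t : ℝ) (ht : 0 ≤ t) :
    slotPath 13 (S.shearSeq qx qy) 0 t ∉ torusBox boxLo boxHi := by
  obtain ⟨o, h0, hsteps⟩ := h
  set sq := S.shearSeq qx qy with hsq
  have hall : ∀ e, |slotPts sq 0 e 1| ≤ 1 / 10 := by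
    intro e
    rcases lt_or_ge e 13 with he | he
    · rcases (show e = 0 ∨ e = 1 ∨ 2 ≤ e by omega) with rfl | rfl | he2
      · simp [slotPts_zero]
      · simp [slotPts_succ, slotPts_zero, sq, shearSeq, Shear.move]
      · rw [S.pts_input qx qy he2 he.le, pt_one]
        exact S.scale_mul_abs (by rw [abs_of_nonneg hq.1]; linarith [Nat.cast_nonneg (α := ℝ) S.nP])
    · obtain ⟨k, j, hj, rfl⟩ : ∃ k j, j < 13 ∧ e = 13 * (k + 1) + j :=
        ⟨e / 13 - 1, e % 13, Nat.mod_lt _ (by norm_num), by omega⟩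
      obtain ⟨π, hπ, hm, hq'⟩ := hsteps k
      obtain ⟨i, hi, rfl⟩ := S.exists_index hπ
      rw [S.pts_block qx qy k hi (x := (o k).1) (y := (o k).2) hm
        (S.pts_orbit qx qy o h0 k fun l _ => hsteps l) j hj.le]
      exact S.phasePt_abs hi hm hj.le
  refine not_mem_box ?_
  obtain ⟨h1, h2⟩ := slot_exists 13 ht
  rw [slotPath_in_slot _ _ h1 h2]
  set e := ⌊((13 : ℕ) : ℝ) * t⌋₊
  by_cases hax : (sq e).1 = 1
  · have hn := hall (e + 1)
    rw [slotPts_succ, Shear.move, hax, Function.update_self] at hn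
    rw [hax, Function.update_self]
    have hG0 := slotG_nonneg 13 e t
    have hG1 := slotG_le_one 13 e t
    have ha := hall e
    rw [abs_le] at hn ha ⊢
    constructor <;> nlinarith
  · rw [Function.update_of_ne (Ne.symm hax)]
    exact hall e

end Planar

end

end Vale.Agent.P113
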