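import Vale.Agent.P113.Algebra

/-!
The force `f = ∂t u + (u·∇)u - νΔu` of a velocity `u = V + W/d` given by lists of terms, as a list
of terms obtained from templates not depending on `d`; its periodic part does not depend on `d`.
-/

namespace Vale.Agent.P113

open scoped ContDiff
open Set

noncomputable section

/-- Three lists given componentwise. -/
def Force.of (φ : Fin 3 → List Term) : Force := (φ 0, φ 1, φ 2)

theorem Force.comp_of (φ : Fin 3 → List Term) (i : Fin 3) : (Force.of φ).comp i = φ i := by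
  fin_cases i <;> rfl

/-- The linear part `∂t u - νΔu` of the forcing, for one component. -/
def linTerms (l : List Term) : List Term :=
  l.flatMap Term.dt ++
    [0, 1, 2].flatMap fun j => ((l.flatMap (Term.dx j)).flatMap (Term.dx j)).map Term.negNu

/-- The bilinear part `(a·∇) b` of the forcing, component `i`. -/
def advTerms (a b : Force) (i : Fin 3) : List Term :=
  [0, 1, 2].flatMap fun j => mulTerms (a.comp j) ((b.comp i).flatMap (Term.dx j))

/-- Divide a term by the natural number `d`. -/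
def Term.divNat (d : ℕ) (τ : Term) : Term :=
  (((τ.1.1.1, (τ.1.1.2 + 1) * d - 1), τ.1.2), τ.2)

/-- Template of degree zero. -/
def tmpl0 (V : Force) (i : Fin 3) : List Term := linTerms (V.comp i) ++ advTerms V V i

/-- Template of degree one. -/
def tmpl1 (V W : Force) (i : Fin 3) : List Term :=
  linTerms (W.comp i) ++ (advTerms V W i ++ advTerms W V i)

/-- Template of degree two. -/
def tmpl2 (W : Force) (i : Fin 3) : List Term := advTerms W W i

/-- The force of the velocity `V + W/d`, component `i`. -/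
def forcingComp (V W : Force) (d : ℕ) (i : Fin 3) : List Term :=
  tmpl0 V i ++ ((tmpl1 V W i).map (Term.divNat d) ++ (tmpl2 W i).map (Term.divNat (d * d)))

/-- The force of the velocity `V + W/d`. -/
def forcing (V W : Force) (d : ℕ) : Force := Force.of (forcingComp V W d)

/-- The velocity `V + W/d`. -/
def velocity (ν : ℝ) (V W : Force) (d : ℕ) (t : ℝ) (x : Fin 3 → ℝ) : Fin 3 → ℝ :=
  fun i => termsFn ν (V.comp i) t x + termsFn ν (W.comp i) t x / d

/-- No component depends on its own coordinate. -/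
def ShearForm (U : Force) : Prop := ∀ i, ∀ τ ∈ U.comp i, τ.space i = []

/-- All terms are valid. -/
def ForceValid (U : Force) : Prop := ∀ i, TermsValid (U.comp i)

theorem termsFn_triple (ν t : ℝ) (x : Fin 3 → ℝ) (φ : Fin 3 → List Term) :
    termsFn ν (([0, 1, 2] : List (Fin 3)).flatMap φ) t x = ∑ j, termsFn ν (φ j) t x := by
  simp [termsFn_append, Fin.sum_univ_three]; ring

theorem rv_divNat (n : ℤ) (a : ℕ) {d : ℕ} (hd : 0 < d) :
    rv (n, (a + 1) * d - 1) = (d : ℝ)⁻¹ * rv (n, a) := by
  have h1 : 1 ≤ (a + 1) * d := Nat.one_le_iff_ne_zero.2 (by positivity)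
  simp only [rv, RatData.val]
  push_cast [Nat.cast_sub h1]
  field_simp
  ring

theorem Term.fn_divNat (ν : ℝ) {d : ℕ} (hd : 0 < d) (τ : Term) (t : ℝ) (x : Fin 3 → ℝ) :
    (τ.divNat d).fn ν t x = (d : ℝ)⁻¹ * τ.fn ν t x := by
  have h : (τ.divNat d).1.val ν = (d : ℝ)⁻¹ * τ.1.val ν := by
    show rv (τ.1.1.1, (τ.1.1.2 + 1) * d - 1) * _ * _ * _ = (d : ℝ)⁻¹ * (rv τ.1.1 * _ * _ * _)
    rw [rv_divNat _ _ hd]
    simp only [Term.divNat]
    ring
  show (τ.divNat d).1.val ν * _ * _ = _
  rw [h]
  show (d : ℝ)⁻¹ * τ.1.val ν * _ * _ = (d : ℝ)⁻¹ * (τ.1.val ν * _ * _)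
  simp only [Term.divNat, Term.space]
  ring

theorem TermsValid.linTerms {l : List Term} (h : TermsValid l) : TermsValid (linTerms l) := by
  refine TermsValid.append (h.flatMap fun τ hτ => Term.valid_dt hτ) ?_
  intro σ hσ
  obtain ⟨j, -, hσ⟩ := List.mem_flatMap.1 hσ
  obtain ⟨w, hw, rfl⟩ := List.mem_map.1 hσ
  exact Term.valid_negNu
    (((h.flatMap fun τ hτ => Term.valid_dx hτ j).flatMap fun τ hτ => Term.valid_dx hτ j) w hw)

theorem TermsValid.advTerms {a b : Force} (ha : ForceValid a) (hb : ForceValid b) (i : Fin 3) :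
    TermsValid (advTerms a b i) := by
  intro σ hσ
  obtain ⟨j, -, hσ⟩ := List.mem_flatMap.1 hσ
  exact (ha j).mulTerms ((hb i).flatMap fun τ hτ => Term.valid_dx hτ j) σ hσ

theorem forcingComp_valid {V W : Force} (hV : ForceValid V) (hW : ForceValid W) (d : ℕ)
    (i : Fin 3) : TermsValid (forcingComp V W d i) := by
  refine ((hV i).linTerms.append (TermsValid.advTerms hV hV i)).append (TermsValid.append ?_ ?_)
  · intro σ hσ
    obtain ⟨w, hw, rfl⟩ := List.mem_map.1 hσ
    exact (((hW i).linTerms).append ((TermsValid.advTerms hV hW i).append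
      (TermsValid.advTerms hW hV i))) w hw
  · intro σ hσ
    obtain ⟨w, hw, rfl⟩ := List.mem_map.1 hσ
    exact TermsValid.advTerms hW hW i w hw

theorem forcing_valid {V W : Force} (hV : ForceValid V) (hW : ForceValid W) (d : ℕ) (i : Fin 3) :
    ∀ τ ∈ (forcing V W d).comp i, τ.Valid := by
  rw [forcing, Force.comp_of]; exact forcingComp_valid hV hW d i

/-! ### Periodic part -/

theorem Term.periodic_times (σ τ : Term) :
    (σ.times τ).periodic = (σ.periodic && τ.periodic) := by
  simp [Term.periodic, Term.times, List.all_append]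

theorem Term.periodic_smul (q : RatData) (τ : Term) : (Term.smul q τ).periodic = τ.periodic := rfl

theorem Term.periodic_negNu (τ : Term) : τ.negNu.periodic = τ.periodic := rfl

theorem Term.periodic_divNat (d : ℕ) (τ : Term) : (τ.divNat d).periodic = τ.periodic := rfl

theorem Term.periodic_dx {τ σ : Term} {i : Fin 3} (h : σ ∈ τ.dx i) : σ.periodic = τ.periodic := by
  obtain ⟨e, _, rfl⟩ := List.mem_map.1 h
  rfl

theorem prodD_timeD_flags :
    ∀ l : List (Bool × Bump), ∀ e ∈ prodD timeD l, e.2.map Prod.fst = l.map Prod.fst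
  | [] => by simp [prodD]
  | f :: r => by
    intro e he
    rw [prodD, List.mem_append, List.mem_map, List.mem_map] at he
    rcases he with ⟨x, hx, rfl⟩ | ⟨x, hx, rfl⟩
    · obtain ⟨w, _, rfl⟩ := List.mem_map.1 hx
      rfl
    · simp [prodD_timeD_flags r x hx]

theorem Term.periodic_dt {τ σ : Term} (h : σ ∈ τ.dt) : σ.periodic = τ.periodic := by
  obtain ⟨e, he, rfl⟩ := List.mem_map.1 h
  have hall : ∀ m : List (Bool × Bump), (m.all fun z => z.1) = (m.map Prod.fst).all id := fun m => by
    rw [List.all_map]; rfl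
  show (e.2.all fun z => z.1) = (τ.2.1.all fun z => z.1)
  rw [hall, hall, prodD_timeD_flags _ e he]

/-- Every term of the three lists is transient. -/
def Transient (U : Force) : Prop := ∀ i, ∀ τ ∈ U.comp i, τ.periodic = false

theorem linTerms_transient {l : List Term} (h : ∀ τ ∈ l, τ.periodic = false) :
    ∀ σ ∈ linTerms l, σ.periodic = false := by
  intro σ hσ
  rcases List.mem_append.1 hσ with hσ | hσ
  · obtain ⟨τ, hτ, hσ⟩ := List.mem_flatMap.1 hσ
    rw [Term.periodic_dt hσ, h τ hτ]
  · obtain ⟨j, -, hσ⟩ := List.mem_flatMap.1 hσ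
    obtain ⟨w, hw, rfl⟩ := List.mem_map.1 hσ
    obtain ⟨v, hv, hw⟩ := List.mem_flatMap.1 hw
    obtain ⟨τ, hτ, hv⟩ := List.mem_flatMap.1 hv
    rw [Term.periodic_negNu, Term.periodic_dx hw, Term.periodic_dx hv, h τ hτ]

theorem advTerms_transient {a b : Force} (h : Transient a ∨ Transient b) (i : Fin 3) :
    ∀ σ ∈ advTerms a b i, σ.periodic = false := by
  intro σ hσ
  obtain ⟨j, -, hσ⟩ := List.mem_flatMap.1 hσ
  obtain ⟨α, hα, hσ⟩ := List.mem_flatMap.1 hσ
  obtain ⟨β, hβ, rfl⟩ := List.mem_map.1 hσ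
  obtain ⟨τ, hτ, hβ⟩ := List.mem_flatMap.1 hβ
  rw [Term.periodic_times, Term.periodic_dx hβ]
  rcases h with h | h
  · rw [h j α hα, Bool.false_and]
  · rw [h i τ hτ, Bool.and_false]

theorem forcing_filter {V W : Force} (hW : Transient W) (d : ℕ) (i : Fin 3) :
    ((forcing V W d).comp i).filter Term.periodic = (tmpl0 V i).filter Term.periodic := by
  rw [forcing, Force.comp_of, forcingComp, List.filter_append]
  have h1 : ((tmpl1 V W i).map (Term.divNat d) ++
      (tmpl2 W i).map (Term.divNat (d * d))).filter Term.periodic = [] := by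
    rw [List.filter_eq_nil_iff]
    intro σ hσ
    rcases List.mem_append.1 hσ with hσ | hσ <;> obtain ⟨w, hw, rfl⟩ := List.mem_map.1 hσ <;>
      rw [Term.periodic_divNat]
    · rcases List.mem_append.1 hw with hw | hw
      · simp [linTerms_transient (hW i) w hw]
      · rcases List.mem_append.1 hw with hw | hw
        · simp [advTerms_transient (Or.inr hW) i w hw]
        · simp [advTerms_transient (Or.inl hW) i w hw]
    · simp [advTerms_transient (Or.inl hW) i w hw]
  rw [h1, List.append_nil]

theorem term_vanishes_eventually (τ : Term) (hτ : τ.Valid) (h : τ.periodic = false) :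
    ∃ T₀ : ℝ, ∀ ν t x, T₀ ≤ t → τ.fn ν t x = 0 := by
  obtain ⟨e, he, hf⟩ : ∃ e ∈ τ.2.1, e.1 = false := by
    simpa [Term.periodic, List.all_eq_false] using h
  obtain ⟨A, hA⟩ := bump_bounded_support e.2 (hτ.2.1 e he)
  refine ⟨|A| + 1, fun ν t x ht => ?_⟩
  have h0 : timeFactor e t = 0 := by
    simp only [timeFactor, hf]
    refine hA t ?_
    have := le_abs_self A
    rw [abs_of_nonneg (by linarith [abs_nonneg A])]
    linarith
  have : (τ.2.1.map fun z => timeFactor z t).prod = 0 :=
    List.prod_eq_zero (List.mem_map.2 ⟨e, he, h0⟩)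
  simp [Term.fn, this]

theorem terms_vanish_eventually : ∀ l : List Term, TermsValid l →
    ∃ T₀ : ℝ, ∀ τ ∈ l, τ.periodic = false → ∀ ν t x, T₀ ≤ t → τ.fn ν t x = 0
  | [], _ => ⟨0, fun _ h => by simp at h⟩
  | τ :: l, h => by
    obtain ⟨A, hA⟩ := terms_vanish_eventually l h.tail
    by_cases hp : τ.periodic = false
    · obtain ⟨B, hB⟩ := term_vanishes_eventually τ (h τ List.mem_cons_self) hp
      refine ⟨max A B, fun σ hσ hs ν t x ht => ?_⟩
      rcases List.mem_cons.1 hσ with rfl | hσ
      · exact hB ν t x ((le_max_right _ _).trans ht)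
      · exact hA σ hσ hs ν t x ((le_max_left _ _).trans ht)
    · refine ⟨A, fun σ hσ hs => ?_⟩
      rcases List.mem_cons.1 hσ with rfl | hσ
      · exact absurd hs hp
      · exact hA σ hσ hs

theorem forcing_T0 {V W : Force} (hV : ForceValid V) (hW : ForceValid W) :
    ∃ T₀ : ℝ, ∀ ν : ℝ, ∀ d, 0 < d → ∀ i, ∀ τ ∈ (forcing V W d).comp i, τ.periodic = false →
      ∀ t, T₀ ≤ t → ∀ x, τ.fn ν t x = 0 := by
  let all : Fin 3 → List Term := fun i => tmpl0 V i ++ (tmpl1 V W i ++ tmpl2 W i)
  obtain ⟨T₀, hT⟩ := terms_vanish_eventually (all 0 ++ (all 1 ++ all 2)) (by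
    have hall : ∀ i, TermsValid (all i) := fun i =>
      ((hV i).linTerms.append (TermsValid.advTerms hV hV i)).append
        (((hW i).linTerms.append ((TermsValid.advTerms hV hW i).append
          (TermsValid.advTerms hW hV i))).append (TermsValid.advTerms hW hW i))
    exact (hall 0).append ((hall 1).append (hall 2)))
  refine ⟨T₀, fun ν d hd i τ hτ hp t ht x => ?_⟩
  have hmem : ∀ σ, σ ∈ all i → σ ∈ all 0 ++ (all 1 ++ all 2) := by
    intro σ hσ
    fin_cases i <;> simp at hσ ⊢ <;> tauto
  rw [forcing, Force.comp_of, forcingComp, List.mem_append, List.mem_append] at hτ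
  rcases hτ with hτ | hτ | hτ
  · exact hT τ (hmem τ (List.mem_append_left _ hτ)) hp ν t x ht
  · obtain ⟨w, hw, rfl⟩ := List.mem_map.1 hτ
    rw [Term.periodic_divNat] at hp
    rw [Term.fn_divNat ν hd,
      hT w (hmem w (List.mem_append_right _ (List.mem_append_left _ hw))) hp ν t x ht, mul_zero]
  · obtain ⟨w, hw, rfl⟩ := List.mem_map.1 hτ
    rw [Term.periodic_divNat] at hp
    rw [Term.fn_divNat ν (Nat.mul_pos hd hd),
      hT w (hmem w (List.mem_append_right _ (List.mem_append_right _ hw))) hp ν t x ht, mul_zero]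

/-! ### The velocity solves the equations -/

section solution

variable {ν : ℝ} {V W : Force} {d : ℕ}

theorem velocity_contDiff (hV : ForceValid V) (hW : ForceValid W) :
    ContDiff ℝ ∞ (fun z : ℝ × (Fin 3 → ℝ) => velocity ν V W d z.1 z.2) :=
  contDiff_pi.2 fun i => (termsFn_contDiff ν _ (hV i)).add
    ((termsFn_contDiff ν _ (hW i)).div_const _)

theorem velocity_pd (hV : ForceValid V) (hW : ForceValid W) (t : ℝ) (x : Fin 3 → ℝ) (i j : Fin 3) :
    pd j (fun y => velocity ν V W d t y i) x =
      termsFn ν ((V.comp i).flatMap (Term.dx j)) t x +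
        termsFn ν ((W.comp i).flatMap (Term.dx j)) t x / d := by
  rw [← termsFn_pd ν t x j _ (hV i), ← termsFn_pd ν t x j _ (hW i)]
  simp only [pd, velocity, div_eq_inv_mul]
  rw [fderiv_fun_add (termsFn_differentiable ν _ (hV i) t x)
    ((termsFn_differentiable ν _ (hW i) t x).const_mul _),
    fderiv_const_mul (termsFn_differentiable ν _ (hW i) t x)]
  rfl

theorem velocity_pd_pd (hV : ForceValid V) (hW : ForceValid W) (t : ℝ) (x : Fin 3 → ℝ)
    (i j k : Fin 3) :
    pd j (pd k fun y => velocity ν V W d t y i) x =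
      termsFn ν (((V.comp i).flatMap (Term.dx k)).flatMap (Term.dx j)) t x +
        termsFn ν (((W.comp i).flatMap (Term.dx k)).flatMap (Term.dx j)) t x / d := by
  have h1 : TermsValid ((V.comp i).flatMap (Term.dx k)) :=
    (hV i).flatMap fun τ hτ => Term.valid_dx hτ k
  have h2 : TermsValid ((W.comp i).flatMap (Term.dx k)) :=
    (hW i).flatMap fun τ hτ => Term.valid_dx hτ k
  have h : (pd k fun y => velocity ν V W d t y i) = fun y =>
      termsFn ν ((V.comp i).flatMap (Term.dx k)) t y +
        termsFn ν ((W.comp i).flatMap (Term.dx k)) t y / d :=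
    funext fun y => velocity_pd hV hW t y i k
  rw [h, ← termsFn_pd ν t x j _ h1, ← termsFn_pd ν t x j _ h2]
  simp only [pd, div_eq_inv_mul]
  rw [fderiv_fun_add (termsFn_differentiable ν _ h1 t x)
    ((termsFn_differentiable ν _ h2 t x).const_mul _),
    fderiv_const_mul (termsFn_differentiable ν _ h2 t x)]
  rfl

theorem velocity_div (hV : ForceValid V) (hW : ForceValid W) (sV : ShearForm V) (sW : ShearForm W)
    (t : ℝ) (x : Fin 3 → ℝ) : ∑ i, pd i (fun y => velocity ν V W d t y i) x = 0 := by
  have hnil : ∀ (U : Force), ShearForm U → ∀ i, (U.comp i).flatMap (Term.dx i) = [] := by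
    intro U hU i
    rw [List.flatMap_eq_nil_iff]
    intro τ hτ
    simp [Term.dx, hU i τ hτ, prodD]
  simp [velocity_pd hV hW, hnil V sV, hnil W sW, termsFn_nil]

theorem termsFn_linTerms (t : ℝ) (x : Fin 3 → ℝ) (l : List Term) :
    termsFn ν (linTerms l) t x = termsFn ν (l.flatMap Term.dt) t x -
      ν * ∑ j, termsFn ν ((l.flatMap (Term.dx j)).flatMap (Term.dx j)) t x := by
  rw [linTerms, termsFn_append, termsFn_triple, Finset.mul_sum, sub_eq_add_neg,
    ← Finset.sum_neg_distrib]
  congr 1
  refine Finset.sum_congr rfl fun j _ => ?_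
  rw [termsFn_map ν (-ν) Term.negNu _ t x fun τ _ => Term.fn_negNu ν τ t x]
  ring

theorem termsFn_advTerms (t : ℝ) (x : Fin 3 → ℝ) (a b : Force) (i : Fin 3) :
    termsFn ν (advTerms a b i) t x =
      ∑ j, termsFn ν (a.comp j) t x * termsFn ν ((b.comp i).flatMap (Term.dx j)) t x := by
  rw [advTerms, termsFn_triple]
  simp only [termsFn_mulTerms]

theorem forcing_fn (hV : ForceValid V) (hW : ForceValid W) (hd : 0 < d) (t : ℝ) (x : Fin 3 → ℝ)
    (i : Fin 3) :
    (forcing V W d).fn ν t x i =
      (termsFn ν ((V.comp i).flatMap Term.dt) t x +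
          termsFn ν ((W.comp i).flatMap Term.dt) t x / d) +
        (∑ j, velocity ν V W d t x j * pd j (fun y => velocity ν V W d t y i) x) -
        ν * ∑ j, pd j (pd j fun y => velocity ν V W d t y i) x := by
  simp only [Force.fn, forcing, Force.comp_of, forcingComp, tmpl0, tmpl1, tmpl2, termsFn_append,
    termsFn_map ν _ (Term.divNat d) _ t x fun τ _ => Term.fn_divNat ν hd τ t x,
    termsFn_map ν _ (Term.divNat (d * d)) _ t x fun τ _ =>
      Term.fn_divNat ν (Nat.mul_pos hd hd) τ t x,
    termsFn_linTerms, termsFn_advTerms, velocity_pd hV hW, velocity_pd_pd hV hW,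
    Fin.sum_univ_three, Nat.cast_mul]
  simp only [velocity]
  have : (d : ℝ) ≠ 0 := Nat.cast_ne_zero.2 hd.ne'
  field_simp
  ring

theorem velocity_classical (hV : ForceValid V) (hW : ForceValid W) (sV : ShearForm V)
    (sW : ShearForm W) (hd : 0 < d) (h0 : ∀ x, velocity ν V W d 0 x = 0) (T : ℝ) :
    IsClassical ν ((forcing V W d).fn ν) T (velocity ν V W d) (fun _ _ => 0) := by
  have hu := velocity_contDiff (ν := ν) (d := d) hV hW
  have hc : ∀ l, TermsValid l → Continuous (fun z : ℝ × (Fin 3 → ℝ) => termsFn ν l z.1 z.2) :=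
    fun l hl => (termsFn_contDiff ν l hl).continuous
  refine ⟨fun t _ => ⟨fun x k => ?_, fun x k => rfl⟩,
    fun t _ => ⟨?_, contDiff_const⟩, hu.continuous.continuousOn, fun i j => ?_, fun i j k => ?_,
    continuousOn_const, fun j => ?_, h0, fun t _ x => velocity_div hV hW sV sW t x,
    fun t _ => by simp,
    fun t x i => termsFn ν ((V.comp i).flatMap Term.dt) t x +
      termsFn ν ((W.comp i).flatMap Term.dt) t x / d, ?_, fun t _ x => ?_, fun t _ x i => ?_⟩
  · funext i
    simp only [velocity]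
    exact congrArg₂ (fun a b : ℝ => a + b / d) (termsFn_periodic ν (V.comp i) t x k)
      (termsFn_periodic ν (W.comp i) t x k)
  · exact (hu.comp (contDiff_prodMk_right t)).of_le (WithTop.coe_le_coe.2 le_top)
  · simp only [velocity_pd hV hW]
    exact ((hc _ ((hV i).flatMap fun τ hτ => Term.valid_dx hτ j)).add
      ((hc _ ((hW i).flatMap fun τ hτ => Term.valid_dx hτ j)).div_const _)).continuousOn
  · simp only [velocity_pd_pd hV hW]
    exact ((hc _ (((hV i).flatMap fun τ hτ => Term.valid_dx hτ k).flatMap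
      fun τ hτ => Term.valid_dx hτ j)).add
      ((hc _ (((hW i).flatMap fun τ hτ => Term.valid_dx hτ k).flatMap
        fun τ hτ => Term.valid_dx hτ j)).div_const _)).continuousOn
  · simp only [pd, fderiv_fun_const]
    exact continuousOn_const
  · exact (continuous_pi fun i =>
      (hc _ ((hV i).flatMap fun τ hτ => Term.valid_dt hτ)).add
        ((hc _ ((hW i).flatMap fun τ hτ => Term.valid_dt hτ)).div_const _)).continuousOn
  · exact (hasDerivAt_pi.2 fun i => (termsFn_hasDerivAt ν t x _ (hV i)).add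
      ((termsFn_hasDerivAt ν t x _ (hW i)).div_const _)).hasDerivWithinAt
  · rw [forcing_fn hV hW hd]
    simp [pd]

end solution

end

end Vale.Agent.P113
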