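import Vale.Agent.P113.Forcing

/-!
Recursion-theoretic facts for P113: the halting predicate on codes is r.e., and the compiler
obtained from fixed templates is computable.
-/

namespace Vale.Agent.P113

open Primrec

/-- The new configuration written with `cond`. -/
def moveConf (q : ℕ) (b : ℕ) (d : Option Bool) (L R : List ℕ) : MConf :=
  match d with
  | none => (q, L, b :: R.tail)
  | some true => (q, b :: L, R.tail)
  | some false => (q, L.tail, L.headI :: b :: R.tail)

theorem step_eq (M : Machine) (c : MConf) :
    M.step c = moveConf (M.delta (c.1, c.2.2.headI)).1 (M.delta (c.1, c.2.2.headI)).2.1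
      (M.delta (c.1, c.2.2.headI)).2.2 c.2.1 c.2.2 := rfl

theorem lookup_eq_findIdx {α β : Type} [DecidableEq α] [BEq α] [LawfulBEq α] (l : List (α × β))
    (k : α) :
    l.lookup k = (l[l.findIdx fun e => decide (e.1 = k)]?).map Prod.snd := by
  induction l with
  | nil => rfl
  | cons e l ih =>
    obtain ⟨a, b⟩ := e
    by_cases h : a = k
    · subst h; simp [List.lookup_cons, List.findIdx_cons]
    · have h' : (k == a) = false := by simpa using Ne.symm h
      simp [List.lookup_cons, List.findIdx_cons, h, h', ih]

theorem primrec_delta : Primrec fun p : Machine × (ℕ × ℕ) => Machine.delta p.1 p.2 := by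
  have hl : Primrec fun p : Machine × (ℕ × ℕ) => p.1.2.2 :=
    Primrec.snd.comp (Primrec.snd.comp Primrec.fst)
  have hp : Primrec₂ fun (p : Machine × (ℕ × ℕ)) (e : (ℕ × ℕ) × (ℕ × ℕ × Option Bool)) =>
      decide (e.1 = p.2) :=
    Primrec.eq.decide.comp (Primrec.fst.comp Primrec.snd) (Primrec.snd.comp Primrec.fst)
  have hfind : Primrec fun p : Machine × (ℕ × ℕ) =>
      (p.1.2.2[p.1.2.2.findIdx fun e => decide (e.1 = p.2)]?).map Prod.snd :=
    Primrec.option_map (Primrec.list_getElem?.comp hl (Primrec.list_findIdx hl hp))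
      (Primrec.snd.comp Primrec.snd).to₂
  refine (Primrec.option_getD.comp hfind
    (Primrec.pair (Primrec.fst.comp Primrec.snd)
      (Primrec.pair (Primrec.snd.comp Primrec.snd) (Primrec.const none)))).of_eq fun p => ?_
  rw [Machine.delta, lookup_eq_findIdx]

theorem primrec_move : Primrec fun p : (ℕ × ℕ × Option Bool) × (List ℕ × List ℕ) =>
    moveConf p.1.1 p.1.2.1 p.1.2.2 p.2.1 p.2.2 := by
  let T := (ℕ × ℕ × Option Bool) × (List ℕ × List ℕ)
  have q : Primrec fun p : T => p.1.1 := Primrec.fst.comp Primrec.fst
  have b : Primrec fun p : T => p.1.2.1 := Primrec.fst.comp (Primrec.snd.comp Primrec.fst)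
  have d : Primrec fun p : T => p.1.2.2 := Primrec.snd.comp (Primrec.snd.comp Primrec.fst)
  have l : Primrec fun p : T => p.2.1 := Primrec.fst.comp Primrec.snd
  have r : Primrec fun p : T => p.2.2 := Primrec.snd.comp Primrec.snd
  have rt : Primrec fun p : T => p.2.2.tail := Primrec.list_tail.comp r
  have stay : Primrec fun p : T => ((p.1.1, p.2.1, p.1.2.1 :: p.2.2.tail) : MConf) :=
    q.pair (l.pair (Primrec.list_cons.comp b rt))
  have right : Primrec fun p : T => ((p.1.1, p.1.2.1 :: p.2.1, p.2.2.tail) : MConf) :=
    q.pair ((Primrec.list_cons.comp b l).pair rt)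
  have left : Primrec fun p : T =>
      ((p.1.1, p.2.1.tail, p.2.1.headI :: p.1.2.1 :: p.2.2.tail) : MConf) :=
    q.pair ((Primrec.list_tail.comp l).pair
      (Primrec.list_cons.comp (Primrec.list_headI.comp l) (Primrec.list_cons.comp b rt)))
  have inner : Primrec₂ fun (p : T) (x : Bool) =>
      bif x then ((p.1.1, p.1.2.1 :: p.2.1, p.2.2.tail) : MConf)
      else (p.1.1, p.2.1.tail, p.2.1.headI :: p.1.2.1 :: p.2.2.tail) :=
    Primrec.cond Primrec.snd (right.comp Primrec.fst) (left.comp Primrec.fst)
  refine (Primrec.option_casesOn d stay inner).of_eq fun p => ?_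
  rcases p with ⟨⟨q', b', _ | _ | _⟩, l', r'⟩ <;> rfl

theorem primrec_step : Primrec₂ fun (M : Machine) (c : MConf) => M.step c := by
  have hd : Primrec fun p : Machine × MConf => Machine.delta p.1 (p.2.1, p.2.2.2.headI) :=
    primrec_delta.comp (Primrec.fst.pair ((Primrec.fst.comp Primrec.snd).pair
      (Primrec.list_headI.comp (Primrec.snd.comp (Primrec.snd.comp Primrec.snd)))))
  exact ((primrec_move.comp (hd.pair (Primrec.snd.comp Primrec.snd))).of_eq
    fun p => (step_eq p.1 p.2).symm).to₂

/-- The test whether the machine sits in a halting state after `k` steps. -/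
def haltedAt (p : Machine × List ℕ) (k : ℕ) : Bool :=
  decide (p.1.2.1.idxOf (p.1.step^[k] (p.1.1, [], p.2)).1 < p.1.2.1.length)

theorem primrec_haltedAt : Primrec₂ haltedAt := by
  have hc : Primrec fun q : (Machine × List ℕ) × ℕ =>
      q.1.1.step^[q.2] ((q.1.1.1, [], q.1.2) : MConf) :=
    Primrec.nat_iterate Primrec.snd
      ((Primrec.fst.comp (Primrec.fst.comp Primrec.fst)).pair
        ((Primrec.const []).pair (Primrec.snd.comp Primrec.fst)))
      (primrec_step.comp (Primrec.fst.comp (Primrec.fst.comp Primrec.fst)) Primrec.snd).to₂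
  have hh : Primrec fun q : (Machine × List ℕ) × ℕ => q.1.1.2.1 :=
    Primrec.fst.comp (Primrec.snd.comp (Primrec.fst.comp Primrec.fst))
  exact (Primrec.nat_lt.decide.comp
    (Primrec.list_idxOf.comp (Primrec.fst.comp hc) hh) (Primrec.list_length.comp hh)).to₂

theorem haltedAt_iff (p : Machine × List ℕ) :
    (∃ k, haltedAt p k = true) ↔ p.1.Halts p.2 := by
  simp [haltedAt, Machine.Halts, List.idxOf_lt_length_iff]

/-- The predicate: `n` codes a halting pair. -/
def HaltCode (n : ℕ) : Prop :=
  ∃ p : Machine × List ℕ, Encodable.decode n = some p ∧ p.1.Halts p.2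

theorem haltCode_re : REPred HaltCode := by
  let test : ℕ → ℕ → Bool := fun n k =>
    ((Encodable.decode (α := Machine × List ℕ) n).map fun p => haltedAt p k).getD false
  have ht : Primrec₂ test :=
    (Primrec.option_getD.comp
      (Primrec.option_map (Primrec.decode.comp Primrec.fst)
        (primrec_haltedAt.comp Primrec.snd (Primrec.snd.comp Primrec.fst)).to₂)
      (Primrec.const false)).to₂
  have hf : Partrec fun n => Nat.rfind fun k => Part.some (test n k) :=
    Partrec.rfind ht.to_comp.partrec₂
  refine hf.dom_re.of_eq fun n => ?_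
  refine Nat.rfind_dom.trans ?_
  constructor
  · rintro ⟨k, hk, -⟩
    have hk' : test n k = true := (Part.mem_some_iff.1 hk).symm
    cases hd : (Encodable.decode (α := Machine × List ℕ) n) with
    | none => simp only [test, hd, Option.map_none, Option.getD_none, reduceCtorEq] at hk'
    | some p =>
      simp only [test, hd, Option.map_some, Option.getD_some] at hk'
      exact ⟨p, hd, (haltedAt_iff p).1 ⟨k, hk'⟩⟩
  · rintro ⟨p, hp, hh⟩
    obtain ⟨k, hk⟩ := (haltedAt_iff p).2 hh
    refine ⟨k, Part.mem_some_iff.2 ?_, fun _ => trivial⟩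
    simp only [test, hp, Option.map_some, Option.getD_some, hk]

theorem haltCode_encode (p : Machine × List ℕ) : HaltCode (Encodable.encode p) ↔ p.1.Halts p.2 := by
  simp [HaltCode, Encodable.encodek]

/-! ### The compiler from templates -/

theorem primrec_pow : Primrec₂ ((· ^ ·) : ℕ → ℕ → ℕ) :=
  Primrec₂.unpaired'.1 Nat.Primrec.pow

theorem primrec_divNat : Primrec₂ Term.divNat := by
  let T := ℕ × Term
  have hn : Primrec fun p : T => p.2.1.1.1 :=
    Primrec.fst.comp (Primrec.fst.comp (Primrec.fst.comp Primrec.snd))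
  have hden : Primrec fun p : T => (p.2.1.1.2 + 1) * p.1 - 1 :=
    Primrec.nat_sub.comp (Primrec.nat_mul.comp
      (Primrec.succ.comp (Primrec.snd.comp (Primrec.fst.comp (Primrec.fst.comp Primrec.snd))))
      Primrec.fst) (Primrec.const 1)
  exact (((hn.pair hden).pair (Primrec.snd.comp (Primrec.fst.comp Primrec.snd))).pair
    (Primrec.snd.comp Primrec.snd)).to₂

theorem computable_forcing (V W : Force) (m : ℕ) :
    Computable fun p : Machine × List ℕ => forcing V W (m ^ Encodable.encode p) := by
  have hd : Primrec fun p : Machine × List ℕ => m ^ Encodable.encode p :=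
    primrec_pow.comp (Primrec.const m) Primrec.encode
  have hcomp : ∀ i, Primrec fun p : Machine × List ℕ =>
      forcingComp V W (m ^ Encodable.encode p) i := by
    intro i
    refine Primrec.list_append.comp (Primrec.const (tmpl0 V i))
      (Primrec.list_append.comp
        (Primrec.list_map (Primrec.const (tmpl1 V W i))
          (primrec_divNat.comp (hd.comp Primrec.fst) Primrec.snd).to₂)
        (Primrec.list_map (Primrec.const (tmpl2 W i))
          (primrec_divNat.comp (Primrec.nat_mul.comp (hd.comp Primrec.fst) (hd.comp Primrec.fst))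
            Primrec.snd).to₂))
  exact ((hcomp 0).pair ((hcomp 1).pair (hcomp 2))).to_comp

end Vale.Agent.P113
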