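import Vale.Agent.P113.Defs

namespace Vale.Agent.P113

/-- The positive answer to Q1 of P113, with a single compiler for all viscosities. -/
def HaltingDetection : Prop :=
  ∃ (a : Fin 3 → ℚ) (lo hi : Fin 3 → ℚ) (F : Machine × List ℕ → Force),
    (∀ i, lo i < hi i) ∧
    Computable F ∧
    (∀ Mw i, ∀ τ ∈ (F Mw).comp i, τ.Valid) ∧
    (∀ (M : Machine) (w w' : List ℕ) i,
      ((F (M, w)).comp i).filter Term.periodic = ((F (M, w')).comp i).filter Term.periodic) ∧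
    (∃ T₀ : ℝ, ∀ ν : ℝ, ∀ Mw i, ∀ τ ∈ (F Mw).comp i, τ.periodic = false →
      ∀ t, T₀ ≤ t → ∀ x, τ.fn ν t x = 0) ∧
    ∀ ν : ℝ, 0 < ν → ∀ (M : Machine) (w : List ℕ),
      ∃ (u : ℝ → (Fin 3 → ℝ) → Fin 3 → ℝ) (p : ℝ → (Fin 3 → ℝ) → ℝ),
        ContDiff ℝ (⊤ : ℕ∞) (fun z : ℝ × (Fin 3 → ℝ) => u z.1 z.2) ∧
        ContDiff ℝ (⊤ : ℕ∞) (fun z : ℝ × (Fin 3 → ℝ) => p z.1 z.2) ∧
        (∀ T, 0 < T → IsClassical ν ((F (M, w)).fn ν) T u p) ∧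
        (∀ T, 0 < T → ∀ v q, IsClassical ν ((F (M, w)).fn ν) T v q →
          ∀ t ∈ Set.Icc 0 T, ∀ x, v t x = u t x ∧ q t x = p t x) ∧
        (∃ X, IsTrajectory u (fun i => (a i : ℝ)) X) ∧
        ∀ X, IsTrajectory u (fun i => (a i : ℝ)) X →
          ((∃ t, 0 ≤ t ∧ X t ∈ torusBox lo hi) ↔ M.Halts w)

end Vale.Agent.P113
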