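import Vale.Agent.P113.UniqueSpec

/-!
Uniqueness of classical solutions of the forced incompressible flow equations on the torus:
energy identity for the difference of two solutions and a Gronwall argument.
-/

namespace Vale.Agent.P113

open MeasureTheory Set

noncomputable section

namespace Uniq

/-- The unit cube. -/
def cube : Set (Fin 3 → ℝ) := Icc (0 : Fin 3 → ℝ) 1

lemma isCompact_cube : IsCompact cube := isCompact_Icc

lemma integrableOn_cube {g : (Fin 3 → ℝ) → ℝ} (hg : Continuous g) : IntegrableOn g cube :=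
  hg.continuousOn.integrableOn_compact isCompact_cube

lemma integral_pd_eq_zero (i : Fin 3) {F : (Fin 3 → ℝ) → ℝ} (hF : ContDiff ℝ 1 F)
    (hper : LatticePeriodic F) : ∫ x in cube, pd i F x = 0 := by
  have hd : Differentiable ℝ F := hF.differentiable one_ne_zero
  have hc : Continuous (pd i F) :=
    (hF.continuous_fderiv one_ne_zero).clm_apply continuous_const
  set G : Fin 3 → (Fin 3 → ℝ) → ℝ := fun j => if j = i then F else 0 with hG
  set G' : Fin 3 → (Fin 3 → ℝ) → (Fin 3 → ℝ) →L[ℝ] ℝ :=
    fun j x => if j = i then fderiv ℝ F x else 0 with hG'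
  have hsum : ∀ x, ∑ j, G' j x (Pi.single j 1) = pd i F x := by
    intro x
    rw [Finset.sum_eq_single i]
    · simp [hG', pd]
    · intro j _ hj
      simp [hG', hj]
    · simp
  have hcG : ∀ j, ContinuousOn (G j) (Icc (0 : Fin 3 → ℝ) 1) := by
    intro j
    by_cases h : j = i
    · simp only [hG, h, if_true]
      exact hF.continuous.continuousOn
    · simp only [hG, h, if_false]
      exact continuousOn_const
  have key := integral_divergence_of_hasFDerivAt_off_countable' (0 : Fin 3 → ℝ) 1
    (fun j => zero_le_one) G G' ∅ Set.countable_empty hcG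
    (by
      intro x _ j
      by_cases h : j = i
      · simp only [hG, hG', h, if_true]
        exact (hd x).hasFDerivAt
      · simp only [hG, hG', h, if_false]
        exact hasFDerivAt_const _ _)
    (by
      simp only [hsum]
      exact integrableOn_cube hc)
  simp only [hsum] at key
  unfold cube
  rw [key]
  refine Finset.sum_eq_zero fun j _ => ?_
  by_cases h : j = i
  · subst h
    simp only [hG, if_true, Pi.one_apply, Pi.zero_apply]
    rw [sub_eq_zero]
    congr 1
    funext y
    have h2 := hper (Fin.insertNth j (0 : ℝ) y) (Pi.single j 1)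
    rw [← h2]
    congr 1
    funext k
    rcases Fin.eq_self_or_eq_succAbove j k with rfl | ⟨m, rfl⟩
    · simp
    · simp [Fin.succAbove_ne j m]
  · simp [hG, h]

lemma pd_mul {j : Fin 3} {g h : (Fin 3 → ℝ) → ℝ} {x : Fin 3 → ℝ}
    (hg : DifferentiableAt ℝ g x) (hh : DifferentiableAt ℝ h x) :
    pd j (fun y => g y * h y) x = g x * pd j h x + pd j g x * h x := by
  simp only [pd, fderiv_fun_mul hg hh]
  simp [mul_comm]

lemma pd_sub {j : Fin 3} {g h : (Fin 3 → ℝ) → ℝ} {x : Fin 3 → ℝ}
    (hg : DifferentiableAt ℝ g x) (hh : DifferentiableAt ℝ h x) :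
    pd j (fun y => g y - h y) x = pd j g x - pd j h x := by
  simp [pd, fderiv_fun_sub hg hh]

lemma pd_add {j : Fin 3} {g h : (Fin 3 → ℝ) → ℝ} {x : Fin 3 → ℝ}
    (hg : DifferentiableAt ℝ g x) (hh : DifferentiableAt ℝ h x) :
    pd j (fun y => g y + h y) x = pd j g x + pd j h x := by
  simp [pd, fderiv_fun_add hg hh]

lemma pd_const {j : Fin 3} {c : ℝ} {x : Fin 3 → ℝ} :
    pd j (fun _ => c) x = 0 := by
  simp [pd]

lemma pd_sum {j : Fin 3} {g : Fin 3 → (Fin 3 → ℝ) → ℝ} {x : Fin 3 → ℝ}
    (hg : ∀ i, DifferentiableAt ℝ (g i) x) :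
    pd j (fun y => ∑ i, g i y) x = ∑ i, pd j (g i) x := by
  simp [pd, fderiv_fun_sum (fun i _ => hg i)]

lemma latticePeriodic_pd (j : Fin 3) {g : (Fin 3 → ℝ) → ℝ} (hg : LatticePeriodic g) :
    LatticePeriodic (pd j g) := by
  intro x k
  have h : (fun y => g (y + fun i => (k i : ℝ))) = g := funext fun y => hg y k
  simp only [pd]
  conv_rhs => rw [← h]
  rw [fderiv_comp_add_right]
  rfl

lemma energy_rate_le {ν K : ℝ} (hν : 0 < ν) (hK : 0 ≤ K)
    (A B : Fin 3 → (Fin 3 → ℝ) → ℝ) (P Q : (Fin 3 → ℝ) → ℝ)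
    (At Bt Fo : Fin 3 → (Fin 3 → ℝ) → ℝ)
    (hA : ∀ i, ContDiff ℝ 2 (A i)) (hB : ∀ i, ContDiff ℝ 2 (B i))
    (hP : ContDiff ℝ 1 P) (hQ : ContDiff ℝ 1 Q)
    (pA : ∀ i, LatticePeriodic (A i)) (pB : ∀ i, LatticePeriodic (B i))
    (pP : LatticePeriodic P) (pQ : LatticePeriodic Q)
    (cAt : ∀ i, Continuous (At i)) (cBt : ∀ i, Continuous (Bt i))
    (dA : ∀ x, ∑ i, pd i (A i) x = 0) (dB : ∀ x, ∑ i, pd i (B i) x = 0)
    (eA : ∀ x i, At i x + ∑ j, A j x * pd j (A i) x =
      -pd i P x + ν * (∑ j, pd j (pd j (A i)) x) + Fo i x)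
    (eB : ∀ x i, Bt i x + ∑ j, B j x * pd j (B i) x =
      -pd i Q x + ν * (∑ j, pd j (pd j (B i)) x) + Fo i x)
    (hbd : ∀ x ∈ cube, ∀ i j, |pd j (A i) x| ≤ K) :
    ∫ x in cube, 2 * ∑ i, (B i x - A i x) * (Bt i x - At i x) ≤
      6 * K * ∫ x in cube, ∑ i, (B i x - A i x) ^ 2 := by
  set W : Fin 3 → (Fin 3 → ℝ) → ℝ := fun i y => B i y - A i y with hW
  set R : (Fin 3 → ℝ) → ℝ := fun y => Q y - P y with hR
  set Flux : Fin 3 → (Fin 3 → ℝ) → ℝ := fun j y =>
    ν * (∑ i, W i y * pd j (W i) y) - (1 / 2) * (B j y * ∑ i, W i y * W i y) - R y * W j y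
    with hFlux
  have pdC : ∀ (j : Fin 3) {g : (Fin 3 → ℝ) → ℝ}, ContDiff ℝ 2 g → ContDiff ℝ 1 (pd j g) :=
    fun j g hg => (hg.fderiv_right (m := 1) (by norm_num)).clm_apply contDiff_const
  have hWc : ∀ i, ContDiff ℝ 2 (W i) := fun i => (hB i).sub (hA i)
  have hW1 : ∀ i, ContDiff ℝ 1 (W i) := fun i => (hWc i).of_le (by norm_num)
  have hA1 : ∀ i, ContDiff ℝ 1 (A i) := fun i => (hA i).of_le (by norm_num)
  have hB1 : ∀ i, ContDiff ℝ 1 (B i) := fun i => (hB i).of_le (by norm_num)
  have hF1 : ∀ j, ContDiff ℝ 1 (Flux j) := by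
    intro j
    refine ((contDiff_const.mul (ContDiff.sum fun i _ => (hW1 i).mul (pdC j (hWc i)))).sub
      (contDiff_const.mul ((hB1 j).mul (ContDiff.sum fun i _ => (hW1 i).mul (hW1 i))))).sub
      ((hQ.sub hP).mul (hW1 j))
  have pW : ∀ i, LatticePeriodic (W i) := fun i x k => by simp only [hW, pA i x k, pB i x k]
  have pF : ∀ j, LatticePeriodic (Flux j) := by
    intro j x k
    have h2 := fun i => latticePeriodic_pd j (pW i) x k
    simp only [hFlux, hR, pQ x k, pP x k, pB j x k, pW j x k, h2]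
    simp only [fun i => pW i x k]
  have dA' : ∀ i x, DifferentiableAt ℝ (A i) x :=
    fun i x => (hA1 i).differentiable one_ne_zero x
  have dB' : ∀ i x, DifferentiableAt ℝ (B i) x :=
    fun i x => (hB1 i).differentiable one_ne_zero x
  have dW : ∀ i x, DifferentiableAt ℝ (W i) x :=
    fun i x => (hW1 i).differentiable one_ne_zero x
  have dpW : ∀ i j x, DifferentiableAt ℝ (pd j (W i)) x :=
    fun i j x => (pdC j (hWc i)).differentiable one_ne_zero x
  have dR : ∀ x, DifferentiableAt ℝ R x :=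
    fun x => (hQ.sub hP).differentiable one_ne_zero x
  have wj : ∀ i j x, pd j (W i) x = pd j (B i) x - pd j (A i) x :=
    fun i j x => pd_sub (dB' i x) (dA' i x)
  have wjj : ∀ i j x, pd j (pd j (W i)) x = pd j (pd j (B i)) x - pd j (pd j (A i)) x := by
    intro i j x
    have : pd j (W i) = fun y => pd j (B i) y - pd j (A i) y := funext (wj i j)
    rw [this]
    exact pd_sub ((pdC j (hB i)).differentiable one_ne_zero x)
      ((pdC j (hA i)).differentiable one_ne_zero x)
  have rj : ∀ j x, pd j R x = pd j Q x - pd j P x :=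
    fun j x => pd_sub (hQ.differentiable one_ne_zero x) (hP.differentiable one_ne_zero x)
  have flux_pd : ∀ j x, pd j (Flux j) x =
      ν * (∑ i, (W i x * pd j (pd j (W i)) x + pd j (W i) x * pd j (W i) x))
      - (1 / 2) * (B j x * (∑ i, (W i x * pd j (W i) x + pd j (W i) x * W i x))
          + pd j (B j) x * ∑ i, W i x * W i x)
      - (R x * pd j (W j) x + pd j R x * W j x) := by
    intro j x
    simp only [hFlux]
    rw [pd_sub (by fun_prop) (by fun_prop), pd_sub (by fun_prop) (by fun_prop),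
      pd_mul (by fun_prop) (by fun_prop), pd_mul (by fun_prop) (by fun_prop),
      pd_mul (by fun_prop) (by fun_prop), pd_mul (by fun_prop) (by fun_prop),
      pd_const, pd_const, pd_sum (fun i => by fun_prop), pd_sum (fun i => by fun_prop)]
    simp only [pd_mul (dW _ x) (dpW _ j x), pd_mul (dW _ x) (dW _ x)]
    ring
  have point : ∀ x ∈ cube, 2 * ∑ i, W i x * (Bt i x - At i x) ≤
      2 * ∑ j, pd j (Flux j) x + 6 * K * ∑ i, W i x ^ 2 := by
    intro x hx
    have hbt : ∀ i, Bt i x = -(∑ j, B j x * pd j (B i) x)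
      - pd i Q x + ν * (∑ j, pd j (pd j (B i)) x) + Fo i x := fun i => by linarith [eB x i]
    have hat : ∀ i, At i x = -(∑ j, A j x * pd j (A i) x)
      - pd i P x + ν * (∑ j, pd j (pd j (A i)) x) + Fo i x := fun i => by linarith [eA x i]
    have hb := hbd x hx
    have hdA := dA x
    have hdB := dB x
    have hprod : ∀ i j, -(W i x * W j x * pd j (A i) x) ≤ K * (|W i x| * |W j x|) := by
      intro i j
      calc -(W i x * W j x * pd j (A i) x) ≤ |W i x * W j x * pd j (A i) x| := neg_le_abs _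
        _ = |W i x| * |W j x| * |pd j (A i) x| := by rw [abs_mul, abs_mul]
        _ ≤ |W i x| * |W j x| * K := mul_le_mul_of_nonneg_left (hb i j) (by positivity)
        _ = _ := by ring
    have hS : -(∑ i, ∑ j, W i x * W j x * pd j (A i) x) ≤ 3 * K * ∑ i, W i x ^ 2 := by
      rw [← Finset.sum_neg_distrib]
      simp only [← Finset.sum_neg_distrib]
      refine le_trans (Finset.sum_le_sum fun i _ => Finset.sum_le_sum fun j _ => hprod i j) ?_
      simp only [← Finset.mul_sum, ← Finset.sum_mul]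
      have hcs := sq_sum_le_card_mul_sum_sq (s := (Finset.univ : Finset (Fin 3)))
        (f := fun i => |W i x|)
      simp only [sq_abs, Finset.card_univ, Fintype.card_fin, Nat.cast_ofNat] at hcs
      rw [mul_assoc 3 K, mul_left_comm 3 K]
      refine mul_le_mul_of_nonneg_left ?_ hK
      rw [← sq]
      exact hcs
    have hD : 0 ≤ ν * ∑ j, ∑ i, pd j (W i) x ^ 2 := by positivity
    have hid : ∑ i, W i x * (Bt i x - At i x) = ∑ j, pd j (Flux j) x
        - ν * (∑ j, ∑ i, pd j (W i) x ^ 2) - ∑ i, ∑ j, W i x * W j x * pd j (A i) x := by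
      simp only [flux_pd, hbt, hat, rj, wjj, wj]
      simp only [Fin.sum_univ_three, hW] at hdA hdB ⊢
      simp only [hR]
      linear_combination
        (1 / 2 * ((B 0 x - A 0 x) * (B 0 x - A 0 x) + (B 1 x - A 1 x) * (B 1 x - A 1 x)
          + (B 2 x - A 2 x) * (B 2 x - A 2 x)) + (Q x - P x)) * hdB - (Q x - P x) * hdA
    linarith
  have cW : ∀ i, Continuous (W i) := fun i => (hW1 i).continuous
  have cF : ∀ j, Continuous (pd j (Flux j)) :=
    fun j => ((hF1 j).continuous_fderiv one_ne_zero).clm_apply continuous_const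
  calc ∫ x in cube, 2 * ∑ i, W i x * (Bt i x - At i x)
      ≤ ∫ x in cube, (2 * ∑ j, pd j (Flux j) x + 6 * K * ∑ i, W i x ^ 2) :=
        setIntegral_mono_on (integrableOn_cube (by fun_prop)) (integrableOn_cube (by fun_prop))
          measurableSet_Icc point
    _ = 2 * (∫ x in cube, ∑ j, pd j (Flux j) x) + 6 * K * ∫ x in cube, ∑ i, W i x ^ 2 := by
        rw [integral_add (integrableOn_cube (by fun_prop)) (integrableOn_cube (by fun_prop)),
          integral_const_mul, integral_const_mul]
    _ = _ := by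
        rw [integral_finsetSum _ (fun j _ => integrableOn_cube (cF j))]
        simp [fun j => integral_pd_eq_zero j (hF1 j) (pF j), hW]

lemma exists_mem_cube_shift (x : Fin 3 → ℝ) :
    ∃ k : Fin 3 → ℤ, (fun i => x i + k i) ∈ cube := by
  refine ⟨fun i => -⌊x i⌋, fun i => ?_, fun i => ?_⟩
  · simpa using Int.floor_le (x i)
  · have := Int.lt_floor_add_one (x i)
    simp
    linarith

end Uniq

open Uniq

/-- Classical solutions are unique. -/
theorem uniqueSpec : UniqueSpec := by
  intro ν hν f T hT u v p q hu hv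
  obtain ⟨hup, huC, huc, hu1, -, -, -, hu0, hud, hum, ut, hutc, hutd, hue⟩ := hu
  obtain ⟨hvp, hvC, hvc, hv1, -, -, -, hv0, hvd, hvm, vt, hvtc, hvtd, hve⟩ := hv
  set D : Set (ℝ × (Fin 3 → ℝ)) := Icc 0 T ×ˢ univ with hD
  have hK' : IsCompact (Icc (0 : ℝ) T ×ˢ cube) := isCompact_Icc.prod isCompact_cube
  have hsub : Icc (0 : ℝ) T ×ˢ cube ⊆ D := prod_mono le_rfl (subset_univ _)
  have hK : ∀ i j, ∃ K, ∀ z ∈ Icc (0 : ℝ) T ×ˢ cube,
      ‖pd j (fun y => u z.1 y i) z.2‖ ≤ K :=
    fun i j => hK'.exists_bound_of_continuousOn ((hu1 i j).mono hsub)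
  choose Kf hKf using hK
  set K : ℝ := ∑ i, ∑ j, |Kf i j| with hKdef
  have hK0 : 0 ≤ K := by positivity
  have hKb : ∀ t ∈ Icc (0 : ℝ) T, ∀ x ∈ cube, ∀ i j, |pd j (fun y => u t y i) x| ≤ K := by
    intro t ht x hx i j
    refine le_trans (le_trans (hKf i j (t, x) ⟨ht, hx⟩) (le_abs_self _)) ?_
    exact le_trans (Finset.single_le_sum (f := fun j => |Kf i j|) (fun _ _ => abs_nonneg _)
        (Finset.mem_univ j))
      (Finset.single_le_sum (f := fun i => ∑ j, |Kf i j|)
        (fun _ _ => Finset.sum_nonneg fun _ _ => abs_nonneg _) (Finset.mem_univ i))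
  -- the energy, its continuity and its derivative
  set g : ℝ → (Fin 3 → ℝ) → ℝ := fun t x => ∑ i, (v t x i - u t x i) ^ 2 with hg
  set g' : ℝ → (Fin 3 → ℝ) → ℝ :=
    fun t x => 2 * ∑ i, (v t x i - u t x i) * (vt t x i - ut t x i) with hg'
  have hgc : ContinuousOn (fun z : ℝ × (Fin 3 → ℝ) => g z.1 z.2) D := by
    simp only [hg]
    exact continuousOn_finsetSum _ fun i _ =>
      ((continuousOn_pi.1 hvc i).sub (continuousOn_pi.1 huc i)).pow 2
  have hg'c : ContinuousOn (fun z : ℝ × (Fin 3 → ℝ) => g' z.1 z.2) D := by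
    simp only [hg']
    exact continuousOn_const.mul (continuousOn_finsetSum _ fun i _ =>
      ((continuousOn_pi.1 hvc i).sub (continuousOn_pi.1 huc i)).mul
        ((continuousOn_pi.1 hvtc i).sub (continuousOn_pi.1 hutc i)))
  have slice : ∀ {β : Type} [TopologicalSpace β] {h : ℝ → (Fin 3 → ℝ) → β},
      ContinuousOn (fun z : ℝ × (Fin 3 → ℝ) => h z.1 z.2) D →
      ∀ t ∈ Icc (0 : ℝ) T, Continuous (h t) := by
    intro β _ h hh t ht
    exact hh.comp_continuous (continuous_const.prodMk continuous_id) fun x => ⟨ht, mem_univ _⟩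
  set En : ℝ → ℝ := fun t => ∫ x in cube, g t x with hEn
  have hEc : ContinuousOn En (Icc 0 T) := by
    have hclamp : Continuous fun z : ℝ × (Fin 3 → ℝ) =>
        g (projIcc 0 T hT.le z.1 : ℝ) z.2 := by
      exact hgc.comp_continuous
        (((continuous_subtype_val.comp (continuous_projIcc (h := hT.le))).comp continuous_fst).prodMk
          continuous_snd) fun z => ⟨(projIcc 0 T hT.le z.1).2, mem_univ _⟩
    have := continuous_parametric_integral_of_continuous (μ := volume)
      (f := fun t x => g (projIcc 0 T hT.le t : ℝ) x) hclamp isCompact_cube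
    refine this.continuousOn.congr fun t ht => ?_
    simp only [hEn, projIcc_of_mem hT.le ht]
  obtain ⟨Mb, hMb⟩ := hK'.exists_bound_of_continuousOn (hg'c.mono hsub)
  have hEd : ∀ t ∈ Ioo (0 : ℝ) T, HasDerivAt En (∫ x in cube, g' t x) t := by
    intro t ht
    refine (hasDerivAt_integral_of_dominated_loc_of_deriv_le (μ := volume.restrict cube)
      (F := g) (F' := g') (bound := fun _ => Mb) (s := Ioo 0 T)
      (Ioo_mem_nhds ht.1 ht.2) ?_ (integrableOn_cube (slice hgc t (Ioo_subset_Icc_self ht)))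
      (slice hg'c t (Ioo_subset_Icc_self ht)).aestronglyMeasurable ?_ ?_ ?_).2
    · filter_upwards [Ioo_mem_nhds ht.1 ht.2] with s hs
      exact (slice hgc s (Ioo_subset_Icc_self hs)).aestronglyMeasurable
    · exact (ae_restrict_mem measurableSet_Icc).mono fun x hx s hs =>
        hMb (s, x) ⟨Ioo_subset_Icc_self hs, hx⟩
    · exact integrableOn_const (hs := isCompact_cube.measure_lt_top.ne)
    · refine Filter.Eventually.of_forall fun x s hs => ?_
      have hmem : Icc (0 : ℝ) T ∈ nhds s := Icc_mem_nhds hs.1 hs.2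
      have du : ∀ i, HasDerivAt (fun r => u r x i) (ut s x i) s :=
        hasDerivAt_pi.1 ((hutd s (Ioo_subset_Icc_self hs) x).hasDerivAt hmem)
      have dv : ∀ i, HasDerivAt (fun r => v r x i) (vt s x i) s :=
        hasDerivAt_pi.1 ((hvtd s (Ioo_subset_Icc_self hs) x).hasDerivAt hmem)
      have := HasDerivAt.fun_sum (u := (Finset.univ : Finset (Fin 3)))
        (fun i _ => (((dv i).fun_sub (du i)).fun_pow 2))
      convert this using 1
      simp only [hg', Finset.mul_sum]
      exact Finset.sum_congr rfl fun i _ => by push_cast; ring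
  have hbound : ∀ t ∈ Ioo (0 : ℝ) T, ∫ x in cube, g' t x ≤ 6 * K * En t := by
    intro t ht
    have ht' := Ioo_subset_Icc_self ht
    exact energy_rate_le hν hK0 (fun i x => u t x i) (fun i x => v t x i) (p t) (q t)
      (fun i x => ut t x i) (fun i x => vt t x i) (fun i x => f t x i)
      (fun i => contDiff_pi.1 (huC t ht').1 i) (fun i => contDiff_pi.1 (hvC t ht').1 i)
      (huC t ht').2 (hvC t ht').2
      (fun i x k => congrFun ((hup t ht').1 x k) i) (fun i x k => congrFun ((hvp t ht').1 x k) i)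
      (hup t ht').2 (hvp t ht').2
      (fun i => continuous_pi_iff.1 (slice hutc t ht') i)
      (fun i => continuous_pi_iff.1 (slice hvtc t ht') i)
      (hud t ht') (hvd t ht') (hue t ht') (hve t ht') (hKb t ht')
  have hanti : AntitoneOn (fun t => En t * Real.exp (-(6 * K) * t)) (Icc 0 T) := by
    have hder : ∀ t ∈ Ioo (0 : ℝ) T, HasDerivAt (fun t => En t * Real.exp (-(6 * K) * t))
        ((∫ x in cube, g' t x) * Real.exp (-(6 * K) * t)
          + En t * (Real.exp (-(6 * K) * t) * (-(6 * K) * 1))) t :=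
      fun t ht => (hEd t ht).fun_mul (((hasDerivAt_id t).const_mul (-(6 * K))).exp)
    refine antitoneOn_of_hasDerivWithinAt_nonpos (convex_Icc 0 T)
      (hEc.mul (by fun_prop)) (fun t ht => ?_) (fun t ht => ?_)
      (f' := fun t => ((∫ x in cube, g' t x) * Real.exp (-(6 * K) * t)
          + En t * (Real.exp (-(6 * K) * t) * (-(6 * K) * 1))))
    · rw [interior_Icc] at ht
      exact (hder t ht).hasDerivWithinAt
    · rw [interior_Icc] at ht
      have := hbound t ht
      nlinarith [Real.exp_pos (-(6 * K) * t)]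
  have hE0 : En 0 = 0 := by simp [hEn, hg, hu0, hv0]
  have hveq : ∀ t ∈ Icc (0 : ℝ) T, ∀ x, v t x = u t x := by
    intro t ht
    have h1 := hanti (left_mem_Icc.2 hT.le) ht ht.1
    simp only [hE0, zero_mul] at h1
    have hEn0 : En t ≤ 0 := by nlinarith [Real.exp_pos (-(6 * K) * t)]
    have hgt : Continuous (g t) := slice hgc t ht
    have hnn : ∀ x, 0 ≤ g t x := fun x => by positivity
    have hz : ∫ x in cube, g t x = 0 :=
      le_antisymm hEn0 (integral_nonneg hnn)
    have hae : g t =ᵐ[volume.restrict cube] 0 :=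
      (integral_eq_zero_iff_of_nonneg hnn (integrableOn_cube hgt)).1 hz
    have hon : EqOn (g t) 0 cube := by
      refine Measure.eqOn_of_ae_eq hae hgt.continuousOn continuousOn_const ?_
      unfold cube
      rw [← pi_univ_Icc, interior_pi_set finite_univ, closure_pi_set]
      simp [interior_Icc, closure_Ioo]
    intro x
    obtain ⟨k, hk⟩ := exists_mem_cube_shift x
    have h0 : g t (fun i => x i + k i) = 0 := hon hk
    simp only [hg, (hup t ht).1 x k, (hvp t ht).1 x k] at h0
    funext i
    have := (Finset.sum_eq_zero_iff_of_nonneg (fun j _ => sq_nonneg _)).1 h0 i (Finset.mem_univ i)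
    exact sub_eq_zero.1 (pow_eq_zero_iff two_ne_zero |>.1 this)
  intro t ht x
  refine ⟨hveq t ht x, ?_⟩
  have hfun : v t = u t := funext (hveq t ht)
  have hdt : ∀ y, vt t y = ut t y := fun y =>
    (uniqueDiffOn_Icc hT t ht).eq_deriv _ (hvtd t ht y)
      ((hutd t ht y).congr (fun s hs => hveq s hs y) (hveq t ht y))
  have hgrad : ∀ y i, pd i (q t) y = pd i (p t) y := by
    intro y i
    have h1 := hue t ht y i
    have h2 := hve t ht y i
    rw [hfun, hdt y] at h2
    linarith
  have hdp : Differentiable ℝ (p t) := (huC t ht).2.differentiable one_ne_zero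
  have hdq : Differentiable ℝ (q t) := (hvC t ht).2.differentiable one_ne_zero
  have hzero : ∀ y, fderiv ℝ (fun z => q t z - p t z) y = 0 := by
    intro y
    rw [fderiv_fun_sub (hdq y) (hdp y), sub_eq_zero]
    refine ContinuousLinearMap.coe_injective (LinearMap.pi_ext fun i c => ?_)
    have hs : (Pi.single i c : Fin 3 → ℝ) = c • Pi.single i 1 := by
      rw [← Pi.single_smul', smul_eq_mul, mul_one]
    have := hgrad y i
    simp only [pd] at this
    rw [hs]
    simp only [ContinuousLinearMap.coe_coe, map_smul, this]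
  have hconst : ∀ y, q t y = p t y + (q t x - p t x) := fun y => by
    have := is_const_of_fderiv_eq_zero (hdq.sub hdp) hzero y x
    simp only [Pi.sub_apply] at this
    linarith
  have hvol : volume.real cube = 1 := by
    simp [Measure.real, cube, Real.volume_Icc_pi]
  have h : ∫ y in cube, q t y = 0 := hvm t ht
  have hm : MeasurableSet cube := measurableSet_Icc
  have hp : ∫ y in cube, p t y = 0 := hum t ht
  rw [setIntegral_congr_fun hm (fun y _ => hconst y),
    integral_add (integrableOn_cube hdp.continuous) (integrableOn_cube continuous_const),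
    setIntegral_const, hvol, one_smul, hp] at h
  linarith

end

end Vale.Agent.P113
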