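import Vale.Agent.P113.Defs

namespace Vale.Agent.P113

/-- To be proved in module `Unique`: classical solutions are unique. -/
def UniqueSpec : Prop :=
  ∀ (ν : ℝ), 0 < ν → ∀ (f : ℝ → (Fin 3 → ℝ) → Fin 3 → ℝ) (T : ℝ), 0 < T →
    ∀ (u v : ℝ → (Fin 3 → ℝ) → Fin 3 → ℝ) (p q : ℝ → (Fin 3 → ℝ) → ℝ),
      IsClassical ν f T u p → IsClassical ν f T v q →
        ∀ t ∈ Set.Icc 0 T, ∀ x, v t x = u t x ∧ q t x = p t x

end Vale.Agent.P113
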