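import Vale.Agent.P113.Planar

/-!
Finite systems of stack-rewriting rules on a phase and two stacks of digits, realised as
planar systems of affine pieces.
-/

namespace Vale.Agent.P113

/-- Two words differ at some common position. -/
def Dif {α : Type} : List α → List α → Prop
  | a :: u, b :: v => a ≠ b ∨ Dif u v
  | _, _ => False

/-- A faithful coding of an alphabet by even digits below `β - 1`. -/
structure Digits (α : Type) where
  β : ℕ
  dig : α → ℕ
  inj : Function.Injective dig
  even : ∀ a, Even (dig a)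
  lt : ∀ a, dig a + 2 ≤ β
  two : 2 ≤ β

namespace Digits

variable {α : Type} (D : Digits α)

/-- The value of a stack, top digit first. -/
def val : List α → ℚ
  | [] => 0
  | a :: l => ((D.dig a : ℚ) + val l) / D.β

/-- The length of the interval of stacks with given top digits. -/
def wid : List α → ℚ
  | [] => 1
  | _ :: l => wid l / D.β

theorem beta_pos : (0 : ℚ) < D.β := by have := D.two; exact_mod_cast (by omega : 0 < D.β)

theorem wid_pos : ∀ u, 0 < D.wid u
  | [] => by simp [wid]
  | _ :: u => div_pos (wid_pos u) D.beta_pos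

theorem val_nonneg : ∀ u, 0 ≤ D.val u
  | [] => by simp [val]
  | a :: u => div_nonneg (add_nonneg (Nat.cast_nonneg _) (val_nonneg u)) D.beta_pos.le

theorem val_add_wid_le : ∀ u, D.val u + D.wid u ≤ 1
  | [] => by simp [val, wid]
  | a :: u => by
    have h := val_add_wid_le u
    have h2 : (D.dig a : ℚ) + 2 ≤ D.β := by exact_mod_cast D.lt a
    rw [val, wid, ← add_div, div_le_one D.beta_pos]
    linarith

theorem val_le_one (u : List α) : D.val u ≤ 1 := by
  linarith [D.wid_pos u, D.val_add_wid_le u]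

theorem val_append : ∀ u l, D.val (u ++ l) = D.val u + D.wid u * D.val l
  | [], l => by simp [val, wid]
  | a :: u, l => by rw [List.cons_append, val, val, wid, val_append u l]; ring

theorem val_replicate (a : α) : ∀ n, D.val (List.replicate n a) =
    (D.dig a : ℚ) / ((D.β : ℚ) - 1) * (1 - 1 / (D.β : ℚ) ^ n)
  | 0 => by simp [val]
  | n + 1 => by
    have hβ := D.beta_pos
    have hβ1 : (D.β : ℚ) - 1 ≠ 0 := by
      have : (2 : ℚ) ≤ D.β := by exact_mod_cast D.two
      linarith
    rw [List.replicate_succ, val, val_replicate a n, pow_succ]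
    field_simp
    ring

theorem sep_of_dig_lt {a b : α} (h : D.dig a < D.dig b) (u v : List α) :
    D.val (a :: u) + D.wid (a :: u) < D.val (b :: v) := by
  have h2 : D.dig a + 2 ≤ D.dig b := by
    obtain ⟨i, hi⟩ := D.even a
    obtain ⟨j, hj⟩ := D.even b
    omega
  have h3 : (D.dig a : ℚ) + 2 ≤ D.dig b := by exact_mod_cast h2
  rw [val, val, wid, ← add_div, div_lt_div_iff_of_pos_right D.beta_pos]
  linarith [D.val_nonneg v, D.val_add_wid_le u]

theorem sep_of_dif : ∀ {u v : List α}, Dif u v →
    D.val u + D.wid u < D.val v ∨ D.val v + D.wid v < D.val u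
  | [], _, h => absurd h (by simp [Dif])
  | _ :: _, [], h => absurd h (by simp [Dif])
  | a :: u, b :: v, h => by
    by_cases hab : a = b
    · subst hab
      rcases sep_of_dif (h.resolve_left fun h => h rfl) with h' | h'
      · left
        rw [val, val, wid, ← add_div, div_lt_div_iff_of_pos_right D.beta_pos]
        linarith
      · right
        rw [val, val, wid, ← add_div, div_lt_div_iff_of_pos_right D.beta_pos]
        linarith
    · rcases lt_or_gt_of_ne (fun e => hab (D.inj e)) with h' | h'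
      · exact Or.inl (D.sep_of_dig_lt h' u v)
      · exact Or.inr (D.sep_of_dig_lt h' v u)

end Digits

/-- A rewriting rule: phase and stack prefixes before and after. -/
structure Rule (Ph α : Type) where
  ph : Ph
  lpre : List α
  rpre : List α
  ph' : Ph
  lpre' : List α
  rpre' : List α

/-- Two cylinders are apart. -/
def Apart {Ph α : Type} (p q : Ph) (u u' v v' : List α) : Prop := p ≠ q ∨ Dif u u' ∨ Dif v v'

section Layout

variable {Ph α : Type} [Fintype Ph] [Nonempty Ph] (D : Digits α)

/-- The index of a phase. -/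
noncomputable def phIdx (p : Ph) : ℕ := Fintype.equivFin Ph p

/-- The point of a phase and two stacks. -/
noncomputable def pt (p : Ph) (L R : List α) : ℝ × ℝ :=
  ((((2 * phIdx p + D.val L) / (2 * Fintype.card Ph) : ℚ) : ℝ), ((D.val R : ℚ) : ℝ))

/-- The box of a phase and two prefixes. -/
noncomputable def cyl (p : Ph) (u v : List α) : Box :=
  ⟨(2 * phIdx p + D.val u) / (2 * Fintype.card Ph),
    (2 * phIdx p + (D.val u + D.wid u)) / (2 * Fintype.card Ph),
    D.val v, D.val v + D.wid v⟩

/-- The piece of a rule. -/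
noncomputable def Rule.piece (r : Rule Ph α) : Piece where
  src := cyl D r.ph r.lpre r.rpre
  a := D.wid r.lpre' / D.wid r.lpre
  b := (2 * phIdx r.ph' + D.val r.lpre') / (2 * Fintype.card Ph) -
    D.wid r.lpre' / D.wid r.lpre * ((2 * phIdx r.ph + D.val r.lpre) / (2 * Fintype.card Ph))
  c := D.wid r.rpre' / D.wid r.rpre
  d := D.val r.rpre' - D.wid r.rpre' / D.wid r.rpre * D.val r.rpre

theorem card_pos_rat : (0 : ℚ) < 2 * Fintype.card Ph := by
  have : 0 < Fintype.card Ph := Fintype.card_pos
  positivity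

theorem cyl_inUnit (p : Ph) (u v : List α) : (cyl D p u v).InUnit := by
  have h0 := card_pos_rat (Ph := Ph)
  have hp : phIdx p + 1 ≤ Fintype.card Ph := (Fintype.equivFin Ph p).isLt
  have hp' : (phIdx p : ℚ) + 1 ≤ Fintype.card Ph := by exact_mod_cast hp
  refine ⟨div_nonneg (by linarith [D.val_nonneg u, (Nat.cast_nonneg (phIdx p) : (0 : ℚ) ≤ _)])
    h0.le, ?_, ?_, D.val_nonneg v, ?_, D.val_add_wid_le v⟩
  · exact (div_le_div_iff_of_pos_right h0).2 (by linarith [D.wid_pos u])
  · rw [cyl, div_le_one h0]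
    linarith [D.val_add_wid_le u]
  · exact le_add_of_nonneg_right (D.wid_pos v).le

theorem cyl_sep {p q : Ph} {u u' v v' : List α} (h : Apart p q u u' v v') :
    (cyl D p u v).Sep (cyl D q u' v') := by
  have h0 := card_pos_rat (Ph := Ph)
  have hph : p ≠ q → (cyl D p u v).Sep (cyl D q u' v') := by
    intro h
    have hne : phIdx p ≠ phIdx q := fun e =>
      h ((Fintype.equivFin Ph).injective (Fin.ext e))
    rcases lt_or_gt_of_ne hne with h' | h'
    · have : (phIdx p : ℚ) + 1 ≤ phIdx q := by exact_mod_cast h'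
      refine Or.inl ((div_lt_div_iff_of_pos_right h0).2 ?_)
      linarith [D.val_add_wid_le u, D.val_nonneg u']
    · have : (phIdx q : ℚ) + 1 ≤ phIdx p := by exact_mod_cast h'
      refine Or.inr (Or.inl ((div_lt_div_iff_of_pos_right h0).2 ?_))
      linarith [D.val_add_wid_le u', D.val_nonneg u]
  rcases h with h | h | h
  · exact hph h
  · by_cases hpq : p = q
    · subst hpq
      rcases D.sep_of_dif h with h' | h'
      · exact Or.inl ((div_lt_div_iff_of_pos_right h0).2 (by linarith))
      · exact Or.inr (Or.inl ((div_lt_div_iff_of_pos_right h0).2 (by linarith)))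
    · exact hph hpq
  · rcases D.sep_of_dif h with h' | h'
    · exact Or.inr (Or.inr (Or.inl h'))
    · exact Or.inr (Or.inr (Or.inr h'))

theorem Rule.piece_dst (r : Rule Ph α) : (r.piece D).dst = cyl D r.ph' r.lpre' r.rpre' := by
  have := (D.wid_pos r.lpre).ne'
  have := (D.wid_pos r.rpre).ne'
  simp only [Piece.dst, Rule.piece, cyl, Box.mk.injEq]
  refine ⟨?_, ?_, ?_, ?_⟩ <;> field_simp <;> ring

theorem pt_mem_cyl (p : Ph) (u v l m : List α) : (cyl D p u v).Mem (pt D p (u ++ l) (v ++ m)) := by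
  have h0 := card_pos_rat (Ph := Ph)
  simp only [Box.Mem, pt, cyl, Rat.cast_le]
  simp only [D.val_append]
  have hu := D.wid_pos u
  have hv := D.wid_pos v
  refine ⟨(div_le_div_iff_of_pos_right h0).2 ?_, (div_le_div_iff_of_pos_right h0).2 ?_, ?_, ?_⟩ <;>
    nlinarith [D.val_nonneg l, D.val_le_one l, D.val_nonneg m, D.val_le_one m]

theorem Rule.piece_map (r : Rule Ph α) (l m : List α) :
    (r.piece D).map (pt D r.ph (r.lpre ++ l) (r.rpre ++ m)) =
      pt D r.ph' (r.lpre' ++ l) (r.rpre' ++ m) := by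
  have := (D.wid_pos r.lpre).ne'
  have := (D.wid_pos r.rpre).ne'
  have := (card_pos_rat (Ph := Ph)).ne'
  simp only [Piece.map, Rule.piece, pt, Prod.mk.injEq, D.val_append]
  constructor <;> norm_cast <;> field_simp <;> ring

/-- The planar system of a family of rules and halting cylinders. -/
noncomputable def rulesPlanar {J H : Type} [Fintype J] [Fintype H] (rule : J → Option (Rule Ph α))
    (halt : H → Option (Ph × List α × List α))
    (hsrc : ∀ j j', j ≠ j' → ∀ r ∈ rule j, ∀ r' ∈ rule j',
      Apart r.ph r'.ph r.lpre r'.lpre r.rpre r'.rpre)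
    (hdst : ∀ j j', j ≠ j' → ∀ r ∈ rule j, ∀ r' ∈ rule j',
      Apart r.ph' r'.ph' r.lpre' r'.lpre' r.rpre' r'.rpre')
    (hh : ∀ j j', j ≠ j' → ∀ c ∈ halt j, ∀ c' ∈ halt j',
      Apart c.1 c'.1 c.2.1 c'.2.1 c.2.2 c'.2.2)
    (hsh : ∀ j i, ∀ r ∈ rule j, ∀ c ∈ halt i, Apart r.ph c.1 r.lpre c.2.1 r.rpre c.2.2) :
    Planar where
  pieces := (Finset.univ : Finset J).toList.filterMap fun j => (rule j).map (Rule.piece D)
  halts := (Finset.univ : Finset H).toList.filterMap fun i =>
    (halt i).map fun c => cyl D c.1 c.2.1 c.2.2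
  slope_pos π hπ := by
    simp only [List.mem_filterMap, Option.map_eq_some_iff] at hπ
    obtain ⟨j, -, r, -, rfl⟩ := hπ
    exact ⟨div_pos (D.wid_pos _) (D.wid_pos _), div_pos (D.wid_pos _) (D.wid_pos _)⟩
  src_unit π hπ := by
    simp only [List.mem_filterMap, Option.map_eq_some_iff] at hπ
    obtain ⟨j, -, r, -, rfl⟩ := hπ
    exact cyl_inUnit D _ _ _
  dst_unit π hπ := by
    simp only [List.mem_filterMap, Option.map_eq_some_iff] at hπ
    obtain ⟨j, -, r, -, rfl⟩ := hπ
    rw [r.piece_dst]
    exact cyl_inUnit D _ _ _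
  halt_unit B hB := by
    simp only [List.mem_filterMap, Option.map_eq_some_iff] at hB
    obtain ⟨j, -, r, -, rfl⟩ := hB
    exact cyl_inUnit D _ _ _
  src_sep := List.pairwise_filterMap.2 <| (Finset.nodup_toList _).imp fun {j j'} hne => by
    simp only [Option.map_eq_some_iff]
    rintro _ ⟨r, hr, rfl⟩ _ ⟨r', hr', rfl⟩
    exact cyl_sep D (hsrc j j' hne r hr r' hr')
  halt_sep := List.pairwise_filterMap.2 <| (Finset.nodup_toList _).imp fun {j j'} hne => by
    simp only [Option.map_eq_some_iff]
    rintro _ ⟨r, hr, rfl⟩ _ ⟨r', hr', rfl⟩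
    exact cyl_sep D (hh j j' hne r hr r' hr')
  src_halt_sep π hπ B hB := by
    simp only [List.mem_filterMap, Option.map_eq_some_iff] at hπ hB
    obtain ⟨j, -, r, hr, rfl⟩ := hπ
    obtain ⟨i, -, c, hc, rfl⟩ := hB
    exact cyl_sep D (hsh j i r hr c hc)
  dst_sep := List.pairwise_filterMap.2 <| (Finset.nodup_toList _).imp fun {j j'} hne => by
    simp only [Option.map_eq_some_iff]
    rintro _ ⟨r, hr, rfl⟩ _ ⟨r', hr', rfl⟩
    rw [r.piece_dst, r'.piece_dst]
    exact cyl_sep D (hdst j j' hne r hr r' hr')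

theorem pt_unit (p : Ph) (L R : List α) :
    0 ≤ (pt D p L R).1 ∧ (pt D p L R).1 ≤ 1 ∧ 0 ≤ (pt D p L R).2 ∧ (pt D p L R).2 ≤ 1 := by
  obtain ⟨h1, h2, h3, h4, h5, h6⟩ := cyl_inUnit D p L R
  have hm := pt_mem_cyl D p L R [] []
  simp only [List.append_nil] at hm
  obtain ⟨m1, m2, m3, m4⟩ := hm
  refine ⟨le_trans ?_ m1, m2.trans ?_, le_trans ?_ m3, m4.trans ?_⟩ <;>
    exact_mod_cast (by assumption)

end Layout

end Vale.Agent.P113
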