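import Vale.Agent.P113.UnivCoding

/-!
An injective two-stack simulation of a finitely supported Post-Turing machine, the second
stack part below a separator recording the history, as a planar system.
-/

namespace Vale.Agent.P113.Univ

open Turing Relation

variable {Γ Λ : Type} [Inhabited Γ] [Fintype Γ] [Inhabited Λ] (M : TM0.Machine Γ Λ) (S : Finset Λ)

/-- Names of machine moves. -/
abbrev Act (Γ : Type) {Λ : Type} (S : Finset Λ) := {x // x ∈ S} × Γ × Option Γ

/-- Stack symbols: tape symbols, history symbols, separator and turning mark. -/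
abbrev Sym (Γ : Type) {Λ : Type} (S : Finset Λ) := Γ ⊕ (Act Γ S ⊕ Bool)

/-- Phases: ready, carry and back. -/
abbrev Phase (Γ : Type) {Λ : Type} (S : Finset Λ) := {x // x ∈ S} ⊕ (Act Γ S ⊕ {x // x ∈ S})

/-- Indices of rules. -/
abbrev RuleIdx (Γ : Type) {Λ : Type} (S : Finset Λ) :=
  Act Γ S ⊕ ((Act Γ S × Option Γ) ⊕ ({x // x ∈ S} × Option Γ))

/-- The separator. -/
abbrev sepSym : Sym Γ S := Sum.inr (Sum.inr true)

/-- The turning mark. -/
abbrev markSym : Sym Γ S := Sum.inr (Sum.inr false)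

/-- The coding of the symbols; the blank gets digit `0`. -/
noncomputable def digits : Digits (Sym Γ S) where
  β := 2 * Fintype.card (Sym Γ S) + 4
  dig x := open scoped Classical in
    if x = Sum.inl default then 0 else 2 * ((Fintype.equivFin (Sym Γ S) x : ℕ) + 1)
  inj x y h := by
    classical
    by_cases hx : x = Sum.inl default <;> by_cases hy : y = Sum.inl default <;>
      simp [hx, hy] at h ⊢
    exact (Fintype.equivFin _).injective (Fin.ext h)
  even x := by
    classical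
    split_ifs
    · exact even_iff_two_dvd.2 (dvd_zero 2)
    · exact even_two_mul _
  lt x := by
    classical
    have := (Fintype.equivFin (Sym Γ S) x).isLt
    split_ifs <;> omega
  two := by omega

theorem dig_blank : (digits S).dig (Sum.inl (default : Γ)) = 0 := by simp [digits]

variable {S}

/-- The state after a move. -/
noncomputable def nxt (hS : TM0.Supports M ↑S) (i : Act Γ S) : {x // x ∈ S} :=
  match e : M i.1 i.2.1 with
  | some (q', _) => ⟨q', Finset.mem_coe.1 (hS.2 e (Finset.mem_coe.2 i.1.2))⟩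
  | none => i.1

/-- The rule making a move. -/
def ready (i : Act Γ S) : Option (Rule (Phase Γ S) (Sym Γ S)) :=
  match M i.1 i.2.1, i.2.2 with
  | some (_, TM0.Stmt.write b), none =>
    some ⟨Sum.inl i.1, [], [Sum.inl i.2.1], Sum.inr (Sum.inl i), [], [markSym S, Sum.inl b]⟩
  | some (_, TM0.Stmt.move Dir.right), none =>
    some ⟨Sum.inl i.1, [], [Sum.inl i.2.1], Sum.inr (Sum.inl i), [Sum.inl i.2.1], [markSym S]⟩
  | some (_, TM0.Stmt.move Dir.left), none =>
    some ⟨Sum.inl i.1, [sepSym S], [Sum.inl i.2.1], Sum.inr (Sum.inl i), [sepSym S],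
      [markSym S, Sum.inl default, Sum.inl i.2.1]⟩
  | some (_, TM0.Stmt.move Dir.left), some c =>
    some ⟨Sum.inl i.1, [Sum.inl c], [Sum.inl i.2.1], Sum.inr (Sum.inl i), [],
      [markSym S, Sum.inl c, Sum.inl i.2.1]⟩
  | _, _ => none

theorem ready_shape {i : Act Γ S} {r : Rule (Phase Γ S) (Sym Γ S)} (h : r ∈ ready M i) :
    (r.ph = Sum.inl i.1 ∧ r.rpre = [Sum.inl i.2.1] ∧ r.ph' = Sum.inr (Sum.inl i) ∧
      ∃ t, r.rpre' = markSym S :: t) ∧ (M i.1 i.2.1).isSome ∧
    ∀ o r', r' ∈ ready M (i.1, i.2.1, o) → i.2.2 ≠ o → Dif r.lpre r'.lpre := by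
  obtain ⟨q, a, o⟩ := i
  rcases hM : M q a with _ | ⟨q', (_ | _) | b⟩ <;> rcases o with _ | c <;>
    simp only [ready, hM, Option.mem_def, reduceCtorEq, Option.some.injEq] at h <;> subst h <;>
    refine ⟨⟨rfl, rfl, rfl, _, rfl⟩, by simp [hM], ?_⟩ <;> rintro (_ | c') r' hr' hne <;>
    simp [ready, hM] at hr' <;> subst hr' <;> simp_all [Dif]

/-- All rules. -/
noncomputable def rule (hS : TM0.Supports M ↑S) :
    RuleIdx Γ S → Option (Rule (Phase Γ S) (Sym Γ S))
  | Sum.inl i => ready M i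
  | Sum.inr (Sum.inl (i, some l)) =>
    some ⟨Sum.inr (Sum.inl i), [Sum.inl l], [], Sum.inr (Sum.inl i), [], [Sum.inl l]⟩
  | Sum.inr (Sum.inl (i, none)) =>
    some ⟨Sum.inr (Sum.inl i), [sepSym S], [], Sum.inr (Sum.inr (nxt M hS i)),
      [sepSym S, Sum.inr (Sum.inl i)], []⟩
  | Sum.inr (Sum.inr (q, some l)) =>
    some ⟨Sum.inr (Sum.inr q), [], [Sum.inl l], Sum.inr (Sum.inr q), [Sum.inl l], []⟩
  | Sum.inr (Sum.inr (q, none)) =>
    some ⟨Sum.inr (Sum.inr q), [], [markSym S], Sum.inl q, [], []⟩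

/-- The halting cylinders. -/
def haltCyl (i : {x // x ∈ S} × Γ) : Option (Phase Γ S × List (Sym Γ S) × List (Sym Γ S)) :=
  if (M i.1 i.2).isSome then none else some (Sum.inl i.1, [], [Sum.inl i.2])

theorem rule_inr_shape (hS : TM0.Supports M ↑S)
    (x : (Act Γ S × Option Γ) ⊕ ({x // x ∈ S} × Option Γ))
    (r) (hr : r ∈ rule M hS (Sum.inr x)) :
    (∃ p, r.ph = Sum.inr p) ∧
      ∀ i, r.ph' = Sum.inr (Sum.inl i) → ∃ l, r.rpre' = [Sum.inl l] := by
  rcases x with ⟨i, _ | l⟩ | ⟨q, _ | l⟩ <;>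
    simp only [rule, Option.mem_def, Option.some.injEq] at hr <;> subst hr <;> simp

theorem src_apart (hS : TM0.Supports M ↑S) (j j' : RuleIdx Γ S) (hne : j ≠ j')
    (r) (hr : r ∈ rule M hS j) (r') (hr' : r' ∈ rule M hS j') :
    Apart r.ph r'.ph r.lpre r'.lpre r.rpre r'.rpre := by
  rcases j with i | x <;> rcases j' with i' | x'
  · obtain ⟨⟨h1, h2, -, -⟩, -, h5⟩ := ready_shape M hr
    obtain ⟨⟨g1, g2, -, -⟩, -, -⟩ := ready_shape M hr'
    obtain ⟨q, a, o⟩ := i
    obtain ⟨q', a', o'⟩ := i'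
    rw [h1, g1, h2, g2]
    by_cases hq : q = q'
    · subst hq
      by_cases ha : a = a'
      · subst ha
        exact Or.inr (Or.inl (h5 o' r' hr' (fun e => hne (by simp [show o = o' from e]))))
      · exact Or.inr (Or.inr (by simp [Dif, ha]))
    · exact Or.inl (by simp [hq])
  · obtain ⟨⟨h1, -⟩, -⟩ := ready_shape M hr
    obtain ⟨p, hp⟩ := (rule_inr_shape M hS x' r' hr').1
    exact Or.inl (by simp [h1, hp])
  · obtain ⟨⟨h1, -⟩, -⟩ := ready_shape M hr'
    obtain ⟨p, hp⟩ := (rule_inr_shape M hS x r hr).1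
    exact Or.inl (by simp [h1, hp])
  · rcases x with ⟨i, _ | l⟩ | ⟨q, _ | l⟩ <;> rcases x' with ⟨i', _ | l'⟩ | ⟨q', _ | l'⟩ <;>
      simp only [rule, Option.mem_def, Option.some.injEq] at hr hr' <;> subst hr <;> subst hr' <;>
      simp only [Apart, Dif] <;> by_contra hc <;> simp_all

theorem dst_apart (hS : TM0.Supports M ↑S) (j j' : RuleIdx Γ S) (hne : j ≠ j')
    (r) (hr : r ∈ rule M hS j) (r') (hr' : r' ∈ rule M hS j') :
    Apart r.ph' r'.ph' r.lpre' r'.lpre' r.rpre' r'.rpre' := by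
  rcases j with i | x <;> rcases j' with i' | x'
  · obtain ⟨⟨-, -, h3, -⟩, -⟩ := ready_shape M hr
    obtain ⟨⟨-, -, g3, -⟩, -⟩ := ready_shape M hr'
    rw [h3, g3]
    exact Or.inl (by simpa using hne)
  · obtain ⟨⟨-, -, h3, t, ht⟩, -⟩ := ready_shape M hr
    by_cases e : r'.ph' = Sum.inr (Sum.inl i)
    · obtain ⟨l, hl⟩ := (rule_inr_shape M hS x' r' hr').2 i e
      exact Or.inr (Or.inr (by simp [ht, hl, Dif]))
    · exact Or.inl (by rw [h3]; exact Ne.symm e)
  · obtain ⟨⟨-, -, h3, t, ht⟩, -⟩ := ready_shape M hr'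
    by_cases e : r.ph' = Sum.inr (Sum.inl i')
    · obtain ⟨l, hl⟩ := (rule_inr_shape M hS x r hr).2 i' e
      exact Or.inr (Or.inr (by simp [ht, hl, Dif]))
    · exact Or.inl (by rw [h3]; exact e)
  · rcases x with ⟨i, _ | l⟩ | ⟨q, _ | l⟩ <;> rcases x' with ⟨i', _ | l'⟩ | ⟨q', _ | l'⟩ <;>
      simp only [rule, Option.mem_def, Option.some.injEq] at hr hr' <;> subst hr <;> subst hr' <;>
      simp only [Apart, Dif] <;> by_contra hc <;> simp_all

theorem halt_apart (j j' : {x // x ∈ S} × Γ) (hne : j ≠ j') (c) (hc : c ∈ haltCyl M j)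
    (c') (hc' : c' ∈ haltCyl M j') : Apart c.1 c'.1 c.2.1 c'.2.1 c.2.2 c'.2.2 := by
  simp only [haltCyl, Option.mem_def, Option.ite_none_left_eq_some, Option.some.injEq] at hc hc'
  obtain ⟨-, rfl⟩ := hc
  obtain ⟨-, rfl⟩ := hc'
  simp only [Apart, Dif]
  by_contra h
  simp_all [Prod.ext_iff]

theorem src_halt_apart (hS : TM0.Supports M ↑S) (j : RuleIdx Γ S) (i : {x // x ∈ S} × Γ)
    (r) (hr : r ∈ rule M hS j) (c) (hc : c ∈ haltCyl M i) :
    Apart r.ph c.1 r.lpre c.2.1 r.rpre c.2.2 := by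
  simp only [haltCyl, Option.mem_def, Option.ite_none_left_eq_some, Option.some.injEq] at hc
  obtain ⟨hn, rfl⟩ := hc
  rcases j with k | x
  · obtain ⟨⟨h1, h2, -⟩, h3, -⟩ := ready_shape M hr
    rw [h1, h2]
    obtain ⟨q, a, o⟩ := k
    simp only [Apart, Dif]
    by_contra hc
    simp_all
  · obtain ⟨p, hp⟩ := (rule_inr_shape M hS x r hr).1
    exact Or.inl (by simp [hp])

variable (hS : TM0.Supports M ↑S)

omit [Fintype Γ] in
include hS in
theorem nonempty_phase : Nonempty (Phase Γ S) :=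
  ⟨Sum.inl ⟨default, Finset.mem_coe.1 hS.1⟩⟩

/-- The planar system of the machine. -/
noncomputable def system : Planar :=
  haveI := nonempty_phase M hS
  rulesPlanar (digits S) (rule M hS) (haltCyl M) (src_apart M hS) (dst_apart M hS)
    (halt_apart M) (src_halt_apart M hS)

/-- The point of a phase and two stacks. -/
noncomputable def point (p : Phase Γ S) (L R : List (Sym Γ S)) : ℝ × ℝ :=
  pt (digits S) p L R

theorem step_rule {j : RuleIdx Γ S} {r} (hr : r ∈ rule M hS j) (l m : List (Sym Γ S)) :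
    (system M hS).Step (point r.ph (r.lpre ++ l) (r.rpre ++ m))
      (point r.ph' (r.lpre' ++ l) (r.rpre' ++ m)) := by
  have := nonempty_phase M hS
  refine ⟨r.piece (digits S), ?_, pt_mem_cyl _ _ _ _ _ _, (r.piece_map _ l m).symm⟩
  simp only [system, rulesPlanar, List.mem_filterMap]
  exact ⟨j, Finset.mem_toList.2 (Finset.mem_univ j), by rw [Option.mem_def.1 hr]; rfl⟩

theorem carry (i : Act Γ S) (H : List (Sym Γ S)) : ∀ (l : List Γ) (R : List (Sym Γ S)),
    ReflTransGen (system M hS).Step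
      (point (Sum.inr (Sum.inl i)) (l.map Sum.inl ++ sepSym S :: H) R)
      (point (Sum.inr (Sum.inl i)) (sepSym S :: H) (l.reverse.map Sum.inl ++ R))
  | [], R => by simpa using ReflTransGen.refl
  | a :: l, R => by
    have h := step_rule M hS (j := Sum.inr (Sum.inl (i, some a))) rfl
      (l.map Sum.inl ++ sepSym S :: H) R
    simp only [List.nil_append, List.cons_append] at h
    refine (ReflTransGen.single ?_).trans ((carry i H l (Sum.inl a :: R)).trans ?_)
    · simpa using h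
    · simpa using ReflTransGen.refl

theorem back (q : {x // x ∈ S}) (R : List (Sym Γ S)) : ∀ (w : List Γ) (L : List (Sym Γ S)),
    ReflTransGen (system M hS).Step
      (point (Sum.inr (Sum.inr q)) L (w.map Sum.inl ++ R))
      (point (Sum.inr (Sum.inr q)) (w.reverse.map Sum.inl ++ L) R)
  | [], L => by simpa using ReflTransGen.refl
  | a :: w, L => by
    have h := step_rule M hS (j := Sum.inr (Sum.inr (q, some a))) rfl L (w.map Sum.inl ++ R)
    refine (ReflTransGen.single ?_).trans ((back q R w (Sum.inl a :: L)).trans ?_)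
    · simpa using h
    · simpa using ReflTransGen.refl

theorem turn (i : Act Γ S) (l : List Γ) (R H : List (Sym Γ S)) :
    ReflTransGen (system M hS).Step
      (point (Sum.inr (Sum.inl i)) (l.map Sum.inl ++ sepSym S :: H) (markSym S :: R))
      (point (Sum.inl (nxt M hS i)) (l.map Sum.inl ++ sepSym S :: Sum.inr (Sum.inl i) :: H)
        R) := by
  refine (carry M hS i H l _).trans ?_
  refine ReflTransGen.head
    (step_rule M hS (j := Sum.inr (Sum.inl (i, none))) rfl H _) ?_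
  refine (back M hS _ _ _ _).trans ?_
  rw [List.reverse_reverse]
  exact ReflTransGen.single (step_rule M hS (j := Sum.inr (Sum.inr (_, none))) rfl _ R)

variable (S) in
/-- A point represents a configuration in the ready phase. -/
def Rel (c : TM0.Cfg Γ Λ) (x : ℝ × ℝ) : Prop :=
  ∃ (hq : c.q ∈ S) (a : Γ) (l r : List Γ) (H : List (Sym Γ S)),
    c.Tape = ⟨a, ListBlank.mk l, ListBlank.mk r⟩ ∧
    x = point (Sum.inl ⟨c.q, hq⟩) (l.map Sum.inl ++ sepSym S :: H)
      (Sum.inl a :: r.map Sum.inl)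

theorem point_pad (p : Phase Γ S) (L : List (Sym Γ S)) (r : List Γ) :
    point p L (Sum.inl r.headI :: r.tail.map Sum.inl) = point p L (r.map Sum.inl) := by
  cases r with
  | nil => simp [point, pt, Digits.val, dig_blank]
  | cons a r => rfl

theorem rel_step {c c' : TM0.Cfg Γ Λ} {x : ℝ × ℝ} (h : Rel S c x)
    (hc : c' ∈ TM0.step M c) : ∃ x', Rel S c' x' ∧ TransGen (system M hS).Step x x' := by
  obtain ⟨q, T⟩ := c
  obtain ⟨hq, a, l, r, H, hT, rfl⟩ := h
  simp only at hT
  subst hT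
  simp only [TM0.step, Option.mem_def, Option.map_eq_some_iff] at hc
  obtain ⟨⟨q', act⟩, hM, rfl⟩ := hc
  have hn : ∀ o, (nxt M hS (⟨q, hq⟩, a, o)).1 = q' := fun o => by
    unfold nxt
    split
    · next e => simp_all
    · next e => simp_all
  have hq' : q' ∈ S := Finset.mem_coe.1 (hS.2 hM (Finset.mem_coe.2 hq))
  have hn' : ∀ o, nxt M hS (⟨q, hq⟩, a, o) = ⟨q', hq'⟩ := fun o => Subtype.ext (hn o)
  match act, hM with
  | TM0.Stmt.write b, hM =>
    refine ⟨_, ⟨hq', b, l, r, Sum.inr (Sum.inl (⟨q, hq⟩, a, none)) :: H, rfl, rfl⟩, ?_⟩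
    have h := step_rule M hS (j := Sum.inl (⟨q, hq⟩, a, none))
      (by simp only [rule, ready, hM]; rfl) (l.map Sum.inl ++ sepSym S :: H) (r.map Sum.inl)
    refine TransGen.head' h ?_
    have h2 := turn M hS (⟨q, hq⟩, a, none) l (Sum.inl b :: r.map Sum.inl) H
    rw [hn'] at h2
    exact h2
  | TM0.Stmt.move Dir.right, hM =>
    refine ⟨_, ⟨hq', r.headI, a :: l, r.tail, Sum.inr (Sum.inl (⟨q, hq⟩, a, none)) :: H, by
      simp [Tape.move], rfl⟩, ?_⟩
    have h := step_rule M hS (j := Sum.inl (⟨q, hq⟩, a, none))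
      (by simp only [rule, ready, hM]; rfl) (l.map Sum.inl ++ sepSym S :: H) (r.map Sum.inl)
    refine TransGen.head' h ?_
    have h2 := turn M hS (⟨q, hq⟩, a, none) (a :: l) (r.map Sum.inl) H
    rw [hn'] at h2
    rw [point_pad]
    exact h2
  | TM0.Stmt.move Dir.left, hM =>
    cases l with
    | nil =>
      refine ⟨_, ⟨hq', default, [], a :: r, Sum.inr (Sum.inl (⟨q, hq⟩, a, none)) :: H, by
        simp [Tape.move], rfl⟩, ?_⟩
      have h := step_rule M hS (j := Sum.inl (⟨q, hq⟩, a, none))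
        (by simp only [rule, ready, hM]; rfl) H (r.map Sum.inl)
      refine TransGen.head' h ?_
      have h2 := turn M hS (⟨q, hq⟩, a, none) [] (Sum.inl default :: Sum.inl a :: r.map Sum.inl) H
      rw [hn'] at h2
      exact h2
    | cons d l =>
      refine ⟨_, ⟨hq', d, l, a :: r, Sum.inr (Sum.inl (⟨q, hq⟩, a, some d)) :: H, by
        simp [Tape.move], rfl⟩, ?_⟩
      have h := step_rule M hS (j := Sum.inl (⟨q, hq⟩, a, some d))
        (by simp only [rule, ready, hM]; rfl) (l.map Sum.inl ++ sepSym S :: H) (r.map Sum.inl)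
      refine TransGen.head' h ?_
      have h2 := turn M hS (⟨q, hq⟩, a, some d) l (Sum.inl d :: Sum.inl a :: r.map Sum.inl) H
      rw [hn'] at h2
      exact h2

theorem rel_halt {c : TM0.Cfg Γ Λ} {x : ℝ × ℝ} (h : Rel S c x) (hc : TM0.step M c = none) :
    ∃ B ∈ (system M hS).halts, B.Mem x := by
  have := nonempty_phase M hS
  obtain ⟨q, T⟩ := c
  obtain ⟨hq, a, l, r, H, hT, rfl⟩ := h
  simp only at hT
  subst hT
  have hM : M q a = none := by simpa [TM0.step] using hc
  refine ⟨cyl (digits S) (Sum.inl ⟨q, hq⟩ : Phase Γ S) [] [Sum.inl a], ?_, ?_⟩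
  · simp only [system, rulesPlanar, List.mem_filterMap, Option.map_eq_some_iff]
    exact ⟨(⟨q, hq⟩, a), Finset.mem_toList.2 (Finset.mem_univ _),
      (Sum.inl ⟨q, hq⟩, [], [Sum.inl a]), by simp [haltCyl, hM], rfl⟩
  · have h := pt_mem_cyl (digits S) (Sum.inl ⟨q, hq⟩ : Phase Γ S) [] [Sum.inl a]
      (l.map Sum.inl ++ sepSym S :: H) (r.map Sum.inl)
    exact h

theorem reaches_of_reflTransGen {P : Planar} {x y : ℝ × ℝ} (h : ReflTransGen P.Step x y)
    (hy : ∃ B ∈ P.halts, B.Mem y) : P.Reaches x := by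
  induction h using ReflTransGen.head_induction_on with
  | refl => exact ⟨fun _ => y, 0, rfl, fun k hk => absurd hk (Nat.not_lt_zero k), hy⟩
  | @head x z hxz _ IH =>
    obtain ⟨o, n, h0, hs, hend⟩ := IH
    refine ⟨fun k => Nat.casesOn k x o, n + 1, rfl, fun k hk => ?_, hend⟩
    cases k with
    | zero => simpa [h0] using hxz
    | succ k => exact hs k (by omega)

theorem runs_of_good {P : Planar} {G : ℝ × ℝ → Prop} (hG : ∀ x, G x → ∃ y, P.Step x y ∧ G y)
    {x : ℝ × ℝ} (hx : G x) : P.Runs x := by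
  choose f hf hfG using hG
  let o : ℕ → {y // G y} := fun k => Nat.rec ⟨x, hx⟩ (fun _ y => ⟨f y.1 y.2, hfG y.1 y.2⟩) k
  exact ⟨fun k => (o k).1, rfl, fun k => hf _ (o k).2⟩

theorem rel_reaches {c c' : TM0.Cfg Γ Λ} {x : ℝ × ℝ} (h : Rel S c x)
    (hcc : StateTransition.Reaches (TM0.step M) c c') :
    ∃ x', Rel S c' x' ∧ ReflTransGen (system M hS).Step x x' := by
  induction hcc with
  | refl => exact ⟨x, h, ReflTransGen.refl⟩
  | tail _ hs IH =>
    obtain ⟨y, hy, hxy⟩ := IH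
    obtain ⟨z, hz, hyz⟩ := rel_step M hS hy hs
    exact ⟨z, hz, hxy.trans hyz.to_reflTransGen⟩

theorem reaches_of_halts {c : TM0.Cfg Γ Λ} {x : ℝ × ℝ} (h : Rel S c x)
    (hc : (StateTransition.eval (TM0.step M) c).Dom) : (system M hS).Reaches x := by
  obtain ⟨b, hb⟩ := Part.dom_iff_mem.1 hc
  obtain ⟨h1, h2⟩ := StateTransition.mem_eval.1 hb
  obtain ⟨y, hy, hxy⟩ := rel_reaches M hS h h1
  exact reaches_of_reflTransGen hxy (rel_halt M hS hy h2)

theorem runs_of_not_halts {c : TM0.Cfg Γ Λ} {x : ℝ × ℝ} (h : Rel S c x)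
    (hc : ¬ (StateTransition.eval (TM0.step M) c).Dom) : (system M hS).Runs x := by
  refine runs_of_good (G := fun z => ∃ c y, Rel S c y ∧
    ReflTransGen (system M hS).Step z y ∧ ¬ (StateTransition.eval (TM0.step M) c).Dom) ?_
    ⟨c, x, h, ReflTransGen.refl, hc⟩
  rintro z ⟨c, y, hy, hzy, hnd⟩
  rcases ReflTransGen.cases_head hzy with rfl | ⟨w, hzw, hwy⟩
  · obtain ⟨c', hc'⟩ : ∃ c', c' ∈ TM0.step M c := by
      rcases e : TM0.step M c with _ | c'
      · exact absurd (Part.dom_iff_mem.2 ⟨c, StateTransition.mem_eval.2 ⟨ReflTransGen.refl, e⟩⟩) hnd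
      · exact ⟨c', rfl⟩
    obtain ⟨y', hy', hyy'⟩ := rel_step M hS hy hc'
    obtain ⟨w, hzw, hwy⟩ := TransGen.head'_iff.1 hyy'
    refine ⟨w, hzw, c', y', hy', hwy, ?_⟩
    rw [← StateTransition.reaches_eval (ReflTransGen.single hc')]
    exact hnd
  · exact ⟨w, hzw, c, y, hy, hwy, hnd⟩

end Vale.Agent.P113.Univ
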