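import Vale.Agent.P113.Planar

namespace Vale.Agent.P113

/-- To be proved in module `Universal`: every r.e. predicate is simulated by a planar system. -/
def UniversalSpec : Prop :=
  ∀ P : ℕ → Prop, REPred P →
    ∃ (S : Planar) (A B C D : ℚ) (m : ℕ), Simulates S A B C D m P

end Vale.Agent.P113
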