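import Mathlib

/-!
Every r.e. predicate on the naturals is the halting predicate of a finitely supported
Post-Turing machine on the unary family of inputs `a₀ :: a₁^n`.
-/

namespace Vale.Agent.P113

open Turing Turing.PartrecToTM2

theorem trNat_two_mul_add_one (n : ℕ) : trNat (2 * n + 1) = Γ'.bit1 :: trNat n := by
  have h : ((2 * n + 1 : ℕ) : Num) = (n : Num).bit1 := by
    apply Num.to_nat_inj.1
    rw [Num.to_of_nat, Num.cast_bit1, Num.to_of_nat]
    try omega
  unfold trNat
  rw [h]
  cases (n : Num) <;> rfl

/-- The number whose binary expansion consists of `n` ones. -/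
def ones : ℕ → ℕ
  | 0 => 0
  | n + 1 => 2 * ones n + 1

theorem trNat_ones : ∀ n, trNat (ones n) = List.replicate n Γ'.bit1
  | 0 => by simp [ones]
  | n + 1 => by rw [ones, trNat_two_mul_add_one, trNat_ones n, List.replicate_succ]

theorem le_ones : ∀ n, n ≤ ones n
  | 0 => le_rfl
  | n + 1 => by have := le_ones n; simp only [ones]; omega

theorem ones_strictMono : StrictMono ones :=
  strictMono_nat_of_lt_succ fun n => by simp only [ones]; omega

theorem exists_ones_ge (m : ℕ) : ∃ n, m ≤ ones n := ⟨m, le_ones m⟩

theorem primrec_ones : Primrec ones := by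
  have h : Primrec fun n : ℕ => (Nat.rec 0 (fun _ p => 2 * p + 1) n : ℕ) :=
    Primrec.nat_rec₁ 0 (Primrec.succ.comp₂ (Primrec.nat_mul.comp₂ (Primrec₂.const 2) Primrec₂.right))
  exact h.of_eq fun n => by induction n <;> simp_all [ones]

theorem find_ones (n : ℕ) : Nat.find (exists_ones_ge (ones n)) = n := by
  rw [Nat.find_eq_iff]
  exact ⟨le_rfl, fun m hm => not_le.2 (ones_strictMono hm)⟩

theorem exists_code_ones (P : ℕ → Prop) (hP : REPred P) :
    ∃ c : ToPartrec.Code, ∀ n, (c.eval [ones n]).Dom ↔ P n := by
  have hP' : Partrec fun a => Part.assert (P a) fun _ => Part.some () := hP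
  have hf : Partrec fun a : ℕ => (Part.assert (P a) fun _ => Part.some ()).map fun _ => (0 : ℕ) :=
    hP'.map (Computable.const 0).to₂
  have hfind : Computable fun m => Nat.find (exists_ones_ge m) := by
    refine Computable.find ?_ _
    exact (Primrec.nat_le.comp Primrec.fst (primrec_ones.comp Primrec.snd)).computablePred
  have hg : Partrec fun m : ℕ =>
      (Part.assert (P (Nat.find (exists_ones_ge m))) fun _ => Part.some ()).map fun _ => (0 : ℕ) :=
    hf.comp hfind
  obtain ⟨c, hc⟩ := ToPartrec.Code.exists_code (Nat.Partrec'.part_iff₁.2 hg)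
  refine ⟨c, fun n => ?_⟩
  have h := hc ⟨[ones n], rfl⟩
  change c.eval [ones n] = pure <$>
    (Part.assert (P (Nat.find (exists_ones_ge (ones n)))) fun _ => Part.some ()).map fun _ => 0 at h
  rw [h, find_ones]
  simp [Part.assert, Part.map]

/-- Every r.e. predicate is the halting predicate of a finitely supported machine. -/
theorem exists_tm0 (P : ℕ → Prop) (hP : REPred P) :
    ∃ (Γ Λ : Type) (_ : Inhabited Γ) (_ : Fintype Γ) (_ : Inhabited Λ)
      (M : TM0.Machine Γ Λ) (S : Finset Λ) (a₀ a₁ : Γ),
      TM0.Supports M ↑S ∧ ∀ n, (TM0.eval M (a₀ :: List.replicate n a₁)).Dom ↔ P n := by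
  obtain ⟨c, hc⟩ := exists_code_ones P hP
  let _ : Inhabited Λ' := ⟨trNormal c Cont'.halt⟩
  let _ : Fintype K' := ⟨{K'.main, K'.rev, K'.aux, K'.stack}, fun k => by cases k <;> simp⟩
  let M2 : Λ' → TM2.Stmt (fun _ : K' => Γ') Λ' (Option Γ') := tr
  refine ⟨TM2to1.Γ' K' (fun _ => Γ'), TM1to0.Λ' (TM2to1.tr M2), inferInstance, inferInstance,
    inferInstance, TM1to0.tr (TM2to1.tr M2),
    TM1to0.trStmts _ (TM2to1.trSupp M2 (codeSupp c Cont'.halt)),
    (true, Function.update (fun _ => none) K'.main (some Γ'.cons)),
    (false, Function.update (fun _ => none) K'.main (some Γ'.bit1)),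
    TM1to0.tr_supports _ (TM2to1.tr_supports _ (tr_supports c Cont'.halt)), fun n => ?_⟩
  refine Iff.trans ?_ (hc n)
  refine (iff_of_eq (congrArg Part.Dom (TM1to0.tr_eval (TM2to1.tr M2) _))).trans ?_
  have hinit : ((true, Function.update (fun _ => none) K'.main (some Γ'.cons)) ::
        List.replicate n (false, Function.update (fun _ => none) K'.main (some Γ'.bit1)) :
        List (TM2to1.Γ' K' fun _ => Γ')) = TM2to1.trInit K'.main (trList [ones n]) := by
    simp only [TM2to1.trInit, trList, trNat_ones, List.reverse_append, List.reverse_cons,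
      List.reverse_nil, List.nil_append, List.reverse_replicate, List.cons_append]
    exact congrArg (List.cons _) (List.map_replicate (n := n) (a := Γ'.bit1)
      (f := fun a => ((false, Function.update (fun _ => none) K'.main (some a)) :
        TM2to1.Γ' K' fun _ => Γ'))).symm
  rw [hinit]
  refine (TM2to1.tr_eval_dom M2 K'.main _).trans ?_
  have h2 : (TM2.init K'.main (trList [ones n]) : Cfg') = init c [ones n] := by
    simp only [TM2.init, init]
    congr 1
    funext k; cases k <;> rfl
  change (StateTransition.eval (TM2.step tr) (TM2.init K'.main (trList [ones n]))).Dom ↔ _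
  rw [h2, tr_eval]
  rfl

end Vale.Agent.P113
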