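import Vale.Agent.P113.UnivSpec
import Vale.Agent.P113.UnivTM
import Vale.Agent.P113.UnivSim

/-!
Every r.e. predicate is simulated by a planar system of affine pieces.
-/

namespace Vale.Agent.P113

open Turing

theorem universalSpec : UniversalSpec := by
  intro P hP
  obtain ⟨Γ, Λ, _, _, _, M, S, a₀, a₁, hS, hM⟩ := exists_tm0 P hP
  have := Univ.nonempty_phase M hS
  let D := Univ.digits (Γ := Γ) S
  let p₀ : Univ.Phase Γ S := Sum.inl ⟨default, Finset.mem_coe.1 hS.1⟩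
  refine ⟨Univ.system M hS,
    (2 * phIdx p₀ + D.val [Univ.sepSym S]) / (2 * Fintype.card (Univ.Phase Γ S)), 0,
    ((D.dig (Sum.inl a₀) : ℚ) + (D.dig (Sum.inl a₁) : ℚ) / ((D.β : ℚ) - 1)) / D.β,
    -((D.dig (Sum.inl a₁) : ℚ) / ((D.β : ℚ) - 1)) / D.β, D.β, D.two, fun n => ?_⟩
  have hq : (((((2 * phIdx p₀ + D.val [Univ.sepSym S]) /
        (2 * Fintype.card (Univ.Phase Γ S)) : ℚ)) : ℝ) + ((0 : ℚ) : ℝ) / (D.β : ℝ) ^ n,
      ((((D.dig (Sum.inl a₀) : ℚ) + (D.dig (Sum.inl a₁) : ℚ) / ((D.β : ℚ) - 1)) / D.β : ℚ) : ℝ) +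
        ((-((D.dig (Sum.inl a₁) : ℚ) / ((D.β : ℚ) - 1)) / D.β : ℚ) : ℝ) / (D.β : ℝ) ^ n) =
      Univ.point p₀ [Univ.sepSym S] (Sum.inl a₀ :: (List.replicate n a₁).map Sum.inl) := by
    rw [List.map_replicate]
    refine Prod.ext (by simp [Univ.point, pt, D]) ?_
    change _ = ((D.val (Sum.inl a₀ :: List.replicate n (Sum.inl a₁)) : ℚ) : ℝ)
    rw [show D.val (Sum.inl a₀ :: List.replicate n (Sum.inl a₁)) =
      ((D.dig (Sum.inl a₀) : ℚ) + D.val (List.replicate n (Sum.inl a₁))) / D.β from rfl,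
      D.val_replicate]
    push_cast
    ring
  intro q
  rw [show q = _ from hq]
  have hrel : Univ.Rel S (TM0.init (a₀ :: List.replicate n a₁))
      (Univ.point p₀ [Univ.sepSym S] (Sum.inl a₀ :: (List.replicate n a₁).map Sum.inl)) :=
    ⟨Finset.mem_coe.1 hS.1, a₀, [], List.replicate n a₁, [], rfl, rfl⟩
  refine ⟨pt_unit _ _ _ _, fun h => ?_, fun h => ?_⟩
  · exact Univ.reaches_of_halts M hS hrel ((hM n).2 h)
  · exact Univ.runs_of_not_halts M hS hrel fun h' => h ((hM n).1 h')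

end Vale.Agent.P113
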