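import Vale.Agent.P113.Algebra

/-!
Windows in space and shears built from them. A shear is an axis and a list of monomials; it moves
a point along the axis by the value of the sum of the monomials.
-/

namespace Vale.Agent.P113

noncomputable section

/-! ### Monomials -/

/-- A rational multiple of a product of normalised periodized bumps in given coordinates. -/
abbrev Mono := ℚ × List (Fin 3 × Bump)

/-- The value of a monomial. -/
def Mono.fn (m : Mono) (x : Fin 3 → ℝ) : ℝ :=
  (m.1 : ℝ) * (m.2.map fun e => periodize e.2.fn (x e.1) / kappa).prod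

/-- The bumps of a monomial in one coordinate. -/
def Mono.facs (m : Mono) (i : Fin 3) : List Bump :=
  (m.2.filter fun e => decide (e.1 = i)).map Prod.snd

/-- The term of a monomial. -/
def Mono.term (m : Mono) : Term :=
  ((RatData.mk' m.1, 0, -(m.2.length : ℤ), []), [], m.facs 0, m.facs 1, m.facs 2)

theorem Mono.term_space (m : Mono) (i : Fin 3) : m.term.space i = m.facs i := by
  fin_cases i <;> rfl

theorem Mono.prod_split (x : Fin 3 → ℝ) : ∀ l : List (Fin 3 × Bump),
    (l.map fun e => periodize e.2.fn (x e.1)).prod =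
      ∏ i, spaceFactor ((l.filter fun e => decide (e.1 = i)).map Prod.snd) (x i)
  | [] => by simp [spaceFactor]
  | e :: l => by
    rw [List.map_cons, List.prod_cons, Mono.prod_split x l]
    obtain ⟨j, g⟩ := e
    rw [← Finset.mul_prod_erase _ _ (Finset.mem_univ j),
      ← Finset.mul_prod_erase _ _ (Finset.mem_univ j), ← mul_assoc]
    congr 1
    · simp [spaceFactor]
    · refine Finset.prod_congr rfl fun i hi => ?_
      simp [(Finset.ne_of_mem_erase hi).symm]

theorem Mono.term_fn (m : Mono) (ν t : ℝ) (x : Fin 3 → ℝ) : m.term.fn ν t x = m.fn x := by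
  have h : ∀ l : List (Fin 3 × Bump), (l.map fun e => periodize e.2.fn (x e.1) / kappa).prod =
      kappa ^ (-(l.length : ℤ)) * (l.map fun e => periodize e.2.fn (x e.1)).prod := by
    intro l
    induction l with
    | nil => simp
    | cons e l ih =>
      simp only [List.map_cons, List.prod_cons, ih, List.length_cons, Nat.cast_succ, neg_add]
      rw [zpow_add₀ kappa_ne, zpow_neg_one]
      ring
  simp only [Mono.fn, h, Mono.prod_split, Term.fn, Mono.term_space, Fin.prod_univ_three]
  simp only [Mono.term, Coef.val, Mono.facs]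
  rw [show ((RatData.val (RatData.mk' m.1) : ℚ) : ℝ) = (m.1 : ℝ) by rw [val_mk']]
  simp
  ring

/-- All bumps of a monomial are valid and none sits in the coordinate `k`. -/
def Mono.Ok (k : Fin 3) (m : Mono) : Prop := ∀ e ∈ m.2, e.2.Valid ∧ e.1 ≠ k

theorem Mono.term_valid {k : Fin 3} {m : Mono} (h : m.Ok k) : m.term.Valid := by
  refine ⟨fun r hr => by simp [Mono.term] at hr, fun e he => by simp [Mono.term] at he,
    fun i g hg => ?_⟩
  rw [Mono.term_space] at hg
  obtain ⟨e, he, rfl⟩ := List.mem_map.1 hg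
  exact (h e (List.mem_filter.1 he).1).1

theorem Mono.term_space_axis {k : Fin 3} {m : Mono} (h : m.Ok k) : m.term.space k = [] := by
  rw [Mono.term_space, Mono.facs, List.map_eq_nil_iff, List.filter_eq_nil_iff]
  intro e he
  simpa using (h e he).2

theorem Mono.fn_update {k : Fin 3} {m : Mono} (h : m.Ok k) (x : Fin 3 → ℝ) (r : ℝ) :
    m.fn (Function.update x k r) = m.fn x := by
  unfold Mono.fn
  congr 2
  refine List.map_congr_left fun e he => ?_
  rw [Function.update_of_ne (h e he).2]

/-! ### Shears -/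

/-- An axis and a list of monomials. -/
abbrev Shear := Fin 3 × List Mono

/-- The displacement of a shear at a point. -/
def Shear.amount (S : Shear) (x : Fin 3 → ℝ) : ℝ := (S.2.map fun m => Mono.fn m x).sum

/-- Moving a point by a shear. -/
def Shear.move (S : Shear) (x : Fin 3 → ℝ) : Fin 3 → ℝ :=
  Function.update x S.1 (x S.1 + S.amount x)

/-- The monomials of a shear do not depend on its axis. -/
def Shear.Ok (S : Shear) : Prop := ∀ m ∈ S.2, Mono.Ok S.1 m

theorem Shear.amount_update {S : Shear} (h : S.Ok) (x : Fin 3 → ℝ) (r : ℝ) :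
    S.amount (Function.update x S.1 r) = S.amount x := by
  unfold Shear.amount
  exact congrArg List.sum (List.map_congr_left fun m hm => Mono.fn_update (h m hm) x r)

/-! ### Windows -/

/-- The bump `s ↦ s^k * piF l (a s - b)` which on `[lo, hi]` equals `s^k * kappa` and vanishes
outside `(lo - g, hi + g)`. -/
def winBump (k : ℕ) (lo hi g : ℚ) : Bump :=
  (k, Sum.inr (RatData.mk' (2 / g * (hi - lo) + 2)), RatData.mk' (2 / g),
    RatData.mk' (2 / g * lo - 1))

theorem winBump_valid (k : ℕ) {lo hi g : ℚ} (hg : 0 < g) (h : lo ≤ hi) :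
    (winBump k lo hi g).Valid := by
  refine ⟨?_, fun l hl => ?_⟩
  · simp only [winBump, val_mk']; positivity
  · simp only [winBump, Sum.inr.injEq] at hl
    subst hl
    rw [val_mk']
    have : 0 ≤ 2 / g * (hi - lo) := mul_nonneg (by positivity) (by linarith)
    linarith

theorem winBump_fn (k : ℕ) (lo hi g : ℚ) (s : ℝ) :
    (winBump k lo hi g).fn s =
      s ^ k * piF (2 / (g : ℝ) * ((hi : ℝ) - lo) + 2) (2 / (g : ℝ) * s - (2 / (g : ℝ) * lo - 1)) := by
  rw [bump_fn_eq]
  simp [winBump, shapeFun, rv, val_mk']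

theorem winBump_one (k : ℕ) {lo hi g : ℚ} (hg : 0 < g) {s : ℝ} (h1 : (lo : ℝ) ≤ s) (h2 : s ≤ hi) :
    (winBump k lo hi g).fn s = s ^ k * kappa := by
  have hg' : (0 : ℝ) < g := by exact_mod_cast hg
  have e1 : 2 / (g : ℝ) * lo ≤ 2 / (g : ℝ) * s := mul_le_mul_of_nonneg_left h1 (by positivity)
  have e2 : 2 / (g : ℝ) * s ≤ 2 / (g : ℝ) * hi := mul_le_mul_of_nonneg_left h2 (by positivity)
  rw [winBump_fn, piF_plateau (by linarith) (by linarith)]

theorem winBump_zero (k : ℕ) {lo hi g : ℚ} (hg : 0 < g) (h : lo ≤ hi) {s : ℝ}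
    (hs : s ≤ (lo : ℝ) - g ∨ (hi : ℝ) + g ≤ s) : (winBump k lo hi g).fn s = 0 := by
  have hg' : (0 : ℝ) < g := by exact_mod_cast hg
  have h' : (lo : ℝ) ≤ hi := by exact_mod_cast h
  have hl : 0 ≤ 2 / (g : ℝ) * ((hi : ℝ) - lo) := mul_nonneg (by positivity) (by linarith)
  have hgg : 2 / (g : ℝ) * g = 2 := by field_simp
  rw [winBump_fn]
  rcases hs with hs | hs
  · have e : 2 / (g : ℝ) * s ≤ 2 / (g : ℝ) * ((lo : ℝ) - g) :=
      mul_le_mul_of_nonneg_left hs (by positivity)
    rw [piF_zero_left (by linarith) (by linarith), mul_zero]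
  · have e : 2 / (g : ℝ) * ((hi : ℝ) + g) ≤ 2 / (g : ℝ) * s :=
      mul_le_mul_of_nonneg_left hs (by positivity)
    rw [piF_zero_right (by linarith) (by linarith), mul_zero]

theorem winBump_periodize (k : ℕ) {lo hi g : ℚ} (hg : 0 < g) (h : lo ≤ hi)
    (hlo : -(1 / 2) ≤ lo - g) (hhi : hi + g ≤ 1 / 2) {s : ℝ} (hs : |s| ≤ 1 / 2) :
    periodize (winBump k lo hi g).fn s = (winBump k lo hi g).fn s := by
  refine periodize_eq_self fun m hm => winBump_zero k hg h ?_
  have hlo' : -(1 / 2 : ℝ) ≤ (lo : ℝ) - g := by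
    simpa using (Rat.cast_le (K := ℝ)).2 hlo
  have hhi' : (hi : ℝ) + g ≤ 1 / 2 := by
    simpa using (Rat.cast_le (K := ℝ)).2 hhi
  obtain ⟨h1, h2⟩ := abs_le.1 hs
  rcases lt_or_gt_of_ne hm with hm | hm
  · left
    have : (m : ℝ) ≤ -1 := by exact_mod_cast (by omega : m ≤ -1)
    linarith
  · right
    have : (1 : ℝ) ≤ m := by exact_mod_cast (by omega : 1 ≤ m)
    linarith

theorem periodize_winBump_inside (k : ℕ) {lo hi g : ℚ} (hg : 0 < g)
    (hlo : -(1 / 2) ≤ lo - g) (hhi : hi + g ≤ 1 / 2) {s : ℝ} (h1 : (lo : ℝ) ≤ s) (h2 : s ≤ hi) :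
    periodize (winBump k lo hi g).fn s / kappa = s ^ k := by
  have hg' : (0 : ℝ) < g := by exact_mod_cast hg
  have h : lo ≤ hi := by exact_mod_cast h1.trans h2
  have hlo' : -(1 / 2 : ℝ) ≤ (lo : ℝ) - g := by
    simpa using (Rat.cast_le (K := ℝ)).2 hlo
  have hhi' : (hi : ℝ) + g ≤ 1 / 2 := by
    simpa using (Rat.cast_le (K := ℝ)).2 hhi
  rw [winBump_periodize k hg h hlo hhi (abs_le.2 ⟨by linarith, by linarith⟩), winBump_one k hg h1 h2,
    mul_div_cancel_right₀ _ kappa_ne]

theorem periodize_winBump_outside (k : ℕ) {lo hi g : ℚ} (hg : 0 < g) (h : lo ≤ hi)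
    (hlo : -(1 / 2) ≤ lo - g) (hhi : hi + g ≤ 1 / 2) {s : ℝ} (hs : |s| ≤ 1 / 2)
    (ho : s ≤ (lo : ℝ) - g ∨ (hi : ℝ) + g ≤ s) :
    periodize (winBump k lo hi g).fn s / kappa = 0 := by
  rw [winBump_periodize k hg h hlo hhi hs, winBump_zero k hg h ho, zero_div]

/-! ### Sums with one surviving index -/

theorem list_sum_flatMap {α β : Type} (φ : α → List β) (f : β → ℝ) :
    ∀ l : List α, ((l.flatMap φ).map f).sum = (l.map fun a => ((φ a).map f).sum).sum
  | [] => rfl
  | a :: l => by
    rw [List.flatMap_cons, List.map_append, List.sum_append, list_sum_flatMap φ f l, List.map_cons,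
      List.sum_cons]

theorem list_sum_range_single {n i : ℕ} (hi : i < n) (f : ℕ → ℝ) (h : ∀ j < n, j ≠ i → f j = 0) :
    ((List.range n).map f).sum = f i := by
  have : ∀ m, ((List.range m).map f).sum = ∑ j ∈ Finset.range m, f j := by
    intro m
    induction m with
    | zero => simp
    | succ m ih => rw [List.range_succ, List.map_append, List.sum_append, ih,
        Finset.sum_range_succ]; simp
  rw [this]
  refine Finset.sum_eq_single i (fun j hj hne => h j (Finset.mem_range.1 hj) hne) fun hn => ?_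
  exact absurd (Finset.mem_range.2 hi) hn

theorem list_sum_range_zero {n : ℕ} (f : ℕ → ℝ) (h : ∀ j < n, f j = 0) :
    ((List.range n).map f).sum = 0 :=
  List.sum_eq_zero fun x hx => by
    obtain ⟨j, hj, rfl⟩ := List.mem_map.1 hx
    exact h j (List.mem_range.1 hj)

end

end Vale.Agent.P113
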